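import Vale.Agent.P167.QX.Fact
import Vale.Agent.P167.H718.E2c

/-!
# P167, general `q`, block Q-XDL (X3): staggered boundary phases

With the staggered boundary phases `stag` (free sides `z < k`, wired sides `k ≤ z`, mean phase `β` on
the wired sides) the inner product `XQ` is `(2 sin θ) ^ (number of strands)` times the weight of the
random-cluster model with Dobrushin boundary conditions (helper718, `E2c`) times the product `XB` of the
normalised weights of the pieces. Hence `ZQ = ZQ 0 * Ex (2 cos θ) D η XB`.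
-/

namespace Vale.Agent.P167.QX

open Finset Filter Topology MeasureTheory
open Vale.Agent.P167.E6 (IsPolygon Encloses)
open Vale.Agent.P167.BR
open Vale.Agent.P167.XDL (bS mem_bS)
open Vale.Agent.P167.FK
open Vale.Agent.P167.H718 (IsXY IsCl Cl Dob exists_in exists_out isCl_strand pow_LD Ex_eq)

variable {D : Finset (ℤ × ℤ)} {ω η : Cfg} {θ β t : ℝ} {n k : ℕ} {q : ZMod n → ℤ × ℤ}
  {A : Finset Ed} {x y : ℕ}

/-- The staggered boundary phases. -/
noncomputable def stag (θ β : ℝ) (q : ZMod n → ℤ × ℤ) (k z : ℕ) : ℝ :=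
  if z < k then (if Even ((q z).1 + (q z).2) then (3 * θ - Real.pi) / 4 else
    -((3 * θ - Real.pi) / 4))
  else β + (if Even ((q z).1 + (q z).2) then -((3 * θ - Real.pi) / 4) else
    (3 * θ - Real.pi) / 4)

open Classical in
/-- The normalised weight of the piece `A` with mass `t`: loops, strands from the free to the wired
part, strands closed by the boundary, other strands. -/
noncomputable def wB (θ β : ℝ) (q : ZMod n → ℤ × ℤ) (D : Finset (ℤ × ℤ)) (k : ℕ) (A : Finset Ed)
    (t : ℝ) : ℝ :=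
  if IsLp D A then Real.cos (θ + t) / Real.cos θ
  else if lo q A < k ∧ k ≤ hi q A then Real.cos (θ / 2 + β + t) / Real.sin θ
  else if IsCl D q k A then Real.sin (2 * θ + t) / Real.sin (2 * θ)
  else Real.sin (θ - t) / Real.sin θ

/-- The functional of the Dobrushin model with the charge `f` and the charge `- ∑ f` at `q 0`. -/
noncomputable def XB (θ β : ℝ) (q : ZMod n → ℤ × ℤ) (D : Finset (ℤ × ℤ)) (k : ℕ)
    (f : ℤ × ℤ → ℝ) (ω : Cfg) : ℝ :=
  ∏ A ∈ pcs ω D, wB θ β q D k A (mass D (q 0) f A)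

/-! ### sides of a strand -/

theorem exists_xy (hq : IsPolygon q) (hD : Encloses q D) (hA : A ∈ pcs ω D) (hl : ¬ IsLp D A) :
    ∃ x y, IsXY q A x y := by
  obtain ⟨e, he, h2⟩ := exists_entry hA hl
  have h1 : hdv e ∈ D := (mem_eds.1 (subset_eds hA he)).resolve_right h2
  obtain ⟨e', he', h3⟩ := exists_exit hl
  have h4 : tlv e' ∈ D := (mem_eds.1 (subset_eds hA he')).resolve_left h3
  obtain ⟨x, hx, rfl, hx2⟩ := exists_in hq hD h1 h2
  obtain ⟨y, hy, rfl, hy2⟩ := exists_out hq hD h4 h3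
  exact ⟨x, y, hx, hy, he, he', hx2, hy2⟩

theorem IsXY_sides (hq : IsPolygon q) (hD : Encloses q D) (hA : A ∈ pcs ω D) (h : IsXY q A x y) :
    {z | z < n ∧ be q (z : ZMod n) ∈ A} = {x, y} := by
  ext z
  simp only [Set.mem_ofPred_eq, Set.mem_insert_iff, Set.mem_singleton_iff]
  constructor
  · rintro ⟨h1, h2⟩
    exact (h.iff hq hD hA h1).1 h2
  · rintro (rfl | rfl)
    · exact ⟨h.1, h.2.2.1⟩
    · exact ⟨h.2.1, h.2.2.2.1⟩

theorem lo_xy (hq : IsPolygon q) (hD : Encloses q D) (hA : A ∈ pcs ω D) (h : IsXY q A x y) :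
    lo q A = min x y := by
  unfold lo
  rw [IsXY_sides hq hD hA h]
  apply le_antisymm
  · rcases le_total x y with h1 | h1
    · rw [min_eq_left h1]; exact Nat.sInf_le (Or.inl rfl)
    · rw [min_eq_right h1]; exact Nat.sInf_le (Or.inr rfl)
  · rcases (Nat.sInf_mem (s := {x, y}) ⟨x, Or.inl rfl⟩) with h1 | h1 <;> rw [h1]
    · exact min_le_left _ _
    · exact min_le_right _ _

theorem hi_xy (hq : IsPolygon q) (hD : Encloses q D) (hA : A ∈ pcs ω D) (h : IsXY q A x y) :
    hi q A = max x y := by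
  unfold hi
  rw [IsXY_sides hq hD hA h]
  have hb : BddAbove ({x, y} : Set ℕ) := ⟨max x y, by
    rintro k (rfl | rfl)
    · exact le_max_left _ _
    · exact le_max_right _ _⟩
  apply le_antisymm
  · refine csSup_le ⟨x, Or.inl rfl⟩ ?_
    rintro k (rfl | rfl)
    · exact le_max_left _ _
    · exact le_max_right _ _
  · rcases le_total x y with h1 | h1
    · rw [max_eq_right h1]; exact le_csSup hb (Or.inr rfl)
    · rw [max_eq_left h1]; exact le_csSup hb (Or.inl rfl)

/-! ### the factor of a piece -/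

/-- The factor of a strand. -/
theorem wQ_strand (hq : IsPolygon q) (hD : Encloses q D) (hA : A ∈ pcs ω D) (hl : ¬ IsLp D A)
    (hs : Real.sin θ ≠ 0) (hc : Real.cos θ ≠ 0) :
    wQ θ q D (stag θ β q k) A t = 2 * Real.sin θ *
      (open Classical in if IsCl D q k A then 2 * Real.cos θ else 1) * wB θ β q D k A t := by
  classical
  obtain ⟨x, y, h⟩ := exists_xy hq hD hA hl
  have hcl := isCl_strand (k := k) hq hD hA hl h
  have hlo := lo_xy hq hD hA h
  have hhi := hi_xy hq hD hA h
  have hxy := h.ne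
  obtain ⟨-, -, -, -, hx, hy⟩ := h
  have hs2 : Real.sin (2 * θ) ≠ 0 := by
    rw [Real.sin_two_mul]
    exact mul_ne_zero (mul_ne_zero two_ne_zero hs) hc
  -- the closed weight
  have k1 : ∀ z : ℝ, z = θ / 2 + (3 * θ - Real.pi) / 4 - -((3 * θ - Real.pi) / 4) + t →
      2 * Real.cos z = 2 * Real.sin θ * (2 * Real.cos θ) *
        (Real.sin (2 * θ + t) / Real.sin (2 * θ)) := by
    intro z hz
    have e1 : z = (2 * θ + t) - Real.pi / 2 := by rw [hz]; ring
    rw [e1, Real.cos_sub_pi_div_two, Real.sin_two_mul]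
    field_simp
  -- the other weight
  have k2 : ∀ z : ℝ, z = θ / 2 + -((3 * θ - Real.pi) / 4) - (3 * θ - Real.pi) / 4 + t →
      2 * Real.cos z = 2 * Real.sin θ * 1 * (Real.sin (θ - t) / Real.sin θ) := by
    intro z hz
    have e1 : z = Real.pi / 2 - (θ - t) := by rw [hz]; ring
    rw [e1, Real.cos_pi_div_two_sub]
    field_simp
  unfold wQ wB
  rw [if_neg hl, if_neg hl, hlo, hhi]
  unfold stag
  rcases lt_or_gt_of_ne hxy with h1 | h1
  · rw [max_eq_right h1.le, min_eq_left h1.le]
    by_cases hxk : x < k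
    · by_cases hyk : y < k
      · -- free, free, `x < y`
        have hncl : ¬ IsCl D q k A := by rw [hcl]; unfold Cl; omega
        rw [if_pos hyk, if_pos hxk, if_pos hx, if_neg hy, if_neg hncl, if_neg (by omega),
          if_neg hncl]
        exact k2 _ (by ring)
      · -- free, wired
        have hncl : ¬ IsCl D q k A := by rw [hcl]; unfold Cl; omega
        rw [if_neg hyk, if_pos hxk, if_pos hx, if_neg hy, if_neg hncl, if_pos ⟨hxk, by omega⟩]
        have e1 : θ / 2 + (β + (3 * θ - Real.pi) / 4) - (3 * θ - Real.pi) / 4 + t =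
            θ / 2 + β + t := by ring
        rw [e1]
        field_simp
    · -- wired, wired, `x < y`
      have hcl' : IsCl D q k A := by rw [hcl]; unfold Cl; omega
      rw [if_neg (by omega), if_neg hxk, if_pos hx, if_neg hy, if_pos hcl', if_neg (by omega),
        if_pos hcl']
      exact k1 _ (by ring)
  · rw [max_eq_left h1.le, min_eq_right h1.le]
    by_cases hyk : y < k
    · by_cases hxk : x < k
      · have hcl' : IsCl D q k A := by rw [hcl]; unfold Cl; omega
        rw [if_pos hxk, if_pos hyk, if_pos hx, if_neg hy, if_pos hcl', if_neg (by omega),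
          if_pos hcl']
        exact k1 _ (by ring)
      · have hncl : ¬ IsCl D q k A := by rw [hcl]; unfold Cl; omega
        rw [if_neg hxk, if_pos hyk, if_pos hx, if_neg hy, if_neg hncl, if_pos ⟨hyk, by omega⟩]
        have e1 : θ / 2 + (β + -((3 * θ - Real.pi) / 4)) - -((3 * θ - Real.pi) / 4) + t =
            θ / 2 + β + t := by ring
        rw [e1]
        field_simp
    · have hncl : ¬ IsCl D q k A := by rw [hcl]; unfold Cl; omega
      rw [if_neg (by omega), if_neg hyk, if_pos hx, if_neg hy, if_neg hncl, if_neg (by omega),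
        if_neg hncl]
      exact k2 _ (by ring)

/-- The number of strands does not depend on the configuration. -/
theorem card_strands (ω : Cfg) [DecidablePred (IsLp D)] :
    ((pcs ω D).filter fun A => ¬ IsLp D A).card = ((bS D).filter fun e => hdv e ∈ D).card := by
  have hmem : ∀ e ∈ (bS D).filter (fun e => hdv e ∈ D), hdv e ∈ D ∧ tlv e ∉ D := by
    intro e he
    rw [mem_filter, mem_bS] at he
    tauto
  symm
  refine card_bij (fun e _ => piece ω D e) ?_ ?_ ?_
  · intro e he
    obtain ⟨h1, h2⟩ := hmem e he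
    have h3 : e ∈ eds D := mem_eds.2 (Or.inl h1)
    rw [mem_filter]
    exact ⟨piece_mem_pcs h3, fun h => h2 (h.tl (piece_mem_pcs h3) (self_mem_piece h3))⟩
  · intro e he e' he' h
    obtain ⟨h1, h2⟩ := hmem e he
    obtain ⟨h1', h2'⟩ := hmem e' he'
    have h3 : e ∈ eds D := mem_eds.2 (Or.inl h1)
    have h3' : e' ∈ eds D := mem_eds.2 (Or.inl h1')
    refine entry_unique (piece_mem_pcs (ω := ω) h3) (self_mem_piece h3) ?_ h2 h2'
    rw [h]
    exact self_mem_piece h3'
  · intro A hA
    rw [mem_filter] at hA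
    obtain ⟨e, he, h2⟩ := exists_entry hA.1 hA.2
    have h1 : hdv e ∈ D := (mem_eds.1 (subset_eds hA.1 he)).resolve_right h2
    refine ⟨e, ?_, (eq_piece_of_mem hA.1 he).symm⟩
    rw [mem_filter, mem_bS]
    exact ⟨Or.inl ⟨h1, h2⟩, h1⟩

/-- **(X3), pointwise.** -/
theorem XQ_stag (hq : IsPolygon q) (hD : Encloses q D) (hs : Real.sin θ ≠ 0)
    (hc : Real.cos θ ≠ 0) (f : ℤ × ℤ → ℝ) (ω : Cfg) :
    XQ θ q D (stag θ β q k) f ω =
      (2 * Real.sin θ) ^ ((bS D).filter fun e => hdv e ∈ D).card *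
        (∏ A ∈ pcs ω D, open Classical in if IsCl D q k A then 2 * Real.cos θ else 1) *
        XB θ β q D k f ω := by
  classical
  unfold XQ XB
  rw [← prod_filter_mul_prod_filter_not (pcs ω D) (IsLp D)
      (fun A => wQ θ q D (stag θ β q k) A (mass D (q 0) f A)),
    ← prod_filter_mul_prod_filter_not (pcs ω D) (IsLp D)
      (fun A => if IsCl D q k A then 2 * Real.cos θ else 1),
    ← prod_filter_mul_prod_filter_not (pcs ω D) (IsLp D)
      (fun A => wB θ β q D k A (mass D (q 0) f A))]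
  have e1 : ∏ A ∈ (pcs ω D).filter (fun A => ¬ IsLp D A),
      wQ θ q D (stag θ β q k) A (mass D (q 0) f A) =
      (2 * Real.sin θ) ^ ((bS D).filter fun e => hdv e ∈ D).card *
      (∏ A ∈ (pcs ω D).filter (fun A => ¬ IsLp D A),
        if IsCl D q k A then 2 * Real.cos θ else 1) *
      ∏ A ∈ (pcs ω D).filter (fun A => ¬ IsLp D A), wB θ β q D k A (mass D (q 0) f A) := by
    rw [prod_congr rfl fun A hA => wQ_strand hq hD (mem_filter.1 hA).1 (mem_filter.1 hA).2 hs hc,
      prod_mul_distrib, prod_mul_distrib, prod_const, card_strands]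
  have e2 : ∏ A ∈ (pcs ω D).filter (IsLp D),
      wQ θ q D (stag θ β q k) A (mass D (q 0) f A) =
      (∏ A ∈ (pcs ω D).filter (IsLp D), if IsCl D q k A then 2 * Real.cos θ else 1) *
      ∏ A ∈ (pcs ω D).filter (IsLp D), wB θ β q D k A (mass D (q 0) f A) := by
    rw [← prod_mul_distrib]
    refine prod_congr rfl fun A hA => ?_
    have hl := (mem_filter.1 hA).2
    unfold wQ wB
    have hcl : IsCl D q k A := Or.inl hl
    rw [if_pos hl, if_pos hl, if_pos hcl]
    field_simp
  rw [e1, e2]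
  ring

theorem wB_zero (hs : Real.sin θ ≠ 0) (hc : Real.cos θ ≠ 0) (hβ : Real.cos (θ / 2 + β) = Real.sin θ)
    (q : ZMod n → ℤ × ℤ) (D : Finset (ℤ × ℤ)) (k : ℕ) (A : Finset Ed) :
    wB θ β q D k A 0 = 1 := by
  have hs2 : Real.sin (2 * θ) ≠ 0 := by
    rw [Real.sin_two_mul]
    exact mul_ne_zero (mul_ne_zero two_ne_zero hs) hc
  unfold wB
  split_ifs
  · rw [add_zero, div_self hc]
  · rw [add_zero, hβ, div_self hs]
  · rw [add_zero, div_self hs2]
  · rw [sub_zero, div_self hs]

theorem XB_zero (hs : Real.sin θ ≠ 0) (hc : Real.cos θ ≠ 0) (hβ : Real.cos (θ / 2 + β) = Real.sin θ)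
    (q : ZMod n → ℤ × ℤ) (D : Finset (ℤ × ℤ)) (k : ℕ) (ω : Cfg) : XB θ β q D k 0 ω = 1 := by
  unfold XB
  refine prod_eq_one fun A _ => ?_
  have : mass D (q 0) 0 A = 0 := by
    unfold mass
    simp
  rw [this, wB_zero hs hc hβ]

theorem loc_XB (θ β : ℝ) (q : ZMod n → ℤ × ℤ) (k : ℕ) (f : ℤ × ℤ → ℝ) :
    FKA.Loc D (XB θ β q D k f) := by
  intro ω ω' h
  unfold XB
  rw [pcs_congr h]

/-- **(X3)** The inner partition function with staggered phases is the expectation of `XB` in the
random-cluster model with Dobrushin boundary conditions. -/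
theorem ZQF_stag (hq : IsPolygon q) (hD : Encloses q D) (hs : Real.sin θ ≠ 0)
    (hc : 0 < Real.cos θ) (hβ : Real.cos (θ / 2 + β) = Real.sin θ) (hk : k ≤ n)
    (hη : Dob η D q k) (f : ℤ × ℤ → ℝ) {F : Cfg → ℝ} (hF : FKA.Loc D F) :
    ZQF θ q D (stag θ β q k) f F = ZQ θ q D (stag θ β q k) 0 *
      Ex (2 * Real.cos θ) D η (fun ω => F ω * XB θ β q D k f ω) := by
  classical
  have h0 : (0 : ℝ) < 2 * Real.cos θ := by linarith
  rw [Ex_eq hq hD hk hη h0]
  have hin : ∀ S : Finset (ℤ × ℤ), ∀ v ∈ D, cf D η S v = cf D eta0 S v := fun S v hv => by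
    simp [cf, hv]
  have hp : ∀ S, pcs (cf D η S) D = pcs (cf D eta0 S) D := fun S => pcs_congr (hin S)
  have hX : ∀ S, XB θ β q D k f (cf D η S) = XB θ β q D k f (cf D eta0 S) := fun S =>
    loc_XB θ β q k f _ _ (hin S)
  have hFe : ∀ S, F (cf D η S) = F (cf D eta0 S) := fun S => hF _ _ (hin S)
  simp only [hp, hX, hFe]
  set N := ((bS D).filter fun e => hdv e ∈ D).card with hN
  set w : Finset (ℤ × ℤ) → ℝ := fun S =>
    ∏ A ∈ pcs (cf D eta0 S) D, if IsCl D q k A then 2 * Real.cos θ else 1 with hw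
  have hZ : ZQ θ q D (stag θ β q k) 0 = (2 * Real.sin θ) ^ N * ∑ S ∈ D.powerset, w S := by
    unfold ZQ
    rw [mul_sum]
    refine sum_congr rfl fun S _ => ?_
    rw [XQ_stag hq hD hs hc.ne', XB_zero hs hc.ne' hβ, mul_one]
  have hpos : 0 < ∑ S ∈ D.powerset, w S := by
    refine sum_pos (fun S _ => ?_) ⟨∅, empty_mem_powerset D⟩
    refine prod_pos fun A _ => ?_
    split_ifs
    · exact h0
    · exact one_pos
  rw [hZ, mul_assoc, mul_div_cancel₀ _ hpos.ne']
  unfold ZQF
  rw [mul_sum]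
  refine sum_congr rfl fun S _ => ?_
  rw [XQ_stag hq hD hs hc.ne']
  ring

theorem ZQ_stag (hq : IsPolygon q) (hD : Encloses q D) (hs : Real.sin θ ≠ 0)
    (hc : 0 < Real.cos θ) (hβ : Real.cos (θ / 2 + β) = Real.sin θ) (hk : k ≤ n)
    (hη : Dob η D q k) (f : ℤ × ℤ → ℝ) :
    ZQ θ q D (stag θ β q k) f = ZQ θ q D (stag θ β q k) 0 *
      Ex (2 * Real.cos θ) D η (XB θ β q D k f) := by
  have h := ZQF_stag hq hD hs hc hβ hk hη f (F := fun _ => 1) fun _ _ _ => rfl
  simp only [one_mul] at h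
  rw [← h, ZQF_one]

/-! ### the two gauges -/

/-- Gauge 2: the weight of the strands from the free to the wired part is `sin (θ + t) / sin θ`. -/
theorem gauge_two : Real.cos (θ / 2 + (θ - Real.pi) / 2) = Real.sin θ := by
  rw [← Real.cos_sub_pi_div_two]; congr 1; ring

/-- Gauge 1. -/
theorem gauge_one : Real.cos (θ / 2 + (Real.pi - 3 * θ) / 2) = Real.sin θ := by
  rw [← Real.cos_pi_div_two_sub]; congr 1; ring

end Vale.Agent.P167.QX
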