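import Vale.Agent.P167.XDL.Defs
import Vale.Agent.P167.BR.Poly
import Vale.Agent.P167.FK.Defs

/-!
# P167, general `q`: cut functionals, definitions

`θ` is the angle with `√q = 2 cos θ`.
-/

namespace Vale.Agent.P167.QX

open Finset
open Vale.Agent.P167.A (plane)
open Vale.Agent.P167.H199 (cang strand)
open Vale.Agent.P167.BR (pcs IsLp mass be)
open Vale.Agent.P167.XDL (bS)

/-- Number of the loops which meet `S`. -/
noncomputable def nS (S : Finset Ed) (ω : Cfg) : ℕ := Set.ncard {ℓ | IsLoop ω ℓ ∧ ¬ Disjoint ℓ S}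

/-- The cut functional: product over the loops which do not meet the cuts, and over the strands,
relative to the weight `2 cos θ` of all loops. -/
noncomputable def XcQ (θ : ℝ) (S : Finset Ed) (a : Ed → Bool → ℝ) (ω : Cfg) : ℝ :=
  (∏ᶠ ℓ ∈ {ℓ : Finset Ed | IsLoop ω ℓ ∧ Disjoint ℓ S},
    (2 * Real.cos (cang plane θ a ω ℓ)) / (2 * Real.cos θ)) *
    ((2 * Real.cos θ) ^ nS S ω)⁻¹ *
    ∏ e ∈ S, 2 * Real.cos (cang plane θ a ω (strand (nx ω) S e))

/-- The product over the strands outside `D`. -/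
noncomputable def XoutQ (θ : ℝ) (D : Finset (ℤ × ℤ)) (a : Ed → Bool → ℝ) (ω : Cfg) : ℝ :=
  ∏ e ∈ (bS D).filter (fun e => hdv e ∉ D),
    2 * Real.cos (cang plane θ a ω (strand (nx ω) (bS D) e))

/-! ### the inner product

`q` is a polygon with `n` sides around `D`, base point `q 0`. -/

variable {n : ℕ}

/-- The lower side crossed by the piece `A`. -/
noncomputable def lo (q : ZMod n → ℤ × ℤ) (A : Finset Ed) : ℕ :=
  sInf {k | k < n ∧ be q (k : ZMod n) ∈ A}

/-- The upper side crossed by the piece `A`. -/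
noncomputable def hi (q : ZMod n → ℤ × ℤ) (A : Finset Ed) : ℕ :=
  sSup {k | k < n ∧ be q (k : ZMod n) ∈ A}

open Classical in
/-- The factor of the piece `A` of `D` with mass `t` and boundary phases `ψ`. -/
noncomputable def wQ (θ : ℝ) (q : ZMod n → ℤ × ℤ) (D : Finset (ℤ × ℤ)) (ψ : ℕ → ℝ)
    (A : Finset Ed) (t : ℝ) : ℝ :=
  if IsLp D A then 2 * Real.cos (θ + t) else 2 * Real.cos (θ / 2 + ψ (hi q A) - ψ (lo q A) + t)

/-- The inner product with boundary phases `ψ`, charge `f` and the charge `- ∑ f` at `q 0`. -/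
noncomputable def XQ (θ : ℝ) (q : ZMod n → ℤ × ℤ) (D : Finset (ℤ × ℤ)) (ψ : ℕ → ℝ)
    (f : ℤ × ℤ → ℝ) (ω : Cfg) : ℝ :=
  ∏ A ∈ pcs ω D, wQ θ q D ψ A (mass D (q 0) f A)

/-- The partition function with boundary phases `ψ` and charge `f`. -/
noncomputable def ZQ (θ : ℝ) (q : ZMod n → ℤ × ℤ) (D : Finset (ℤ × ℤ)) (ψ : ℕ → ℝ)
    (f : ℤ × ℤ → ℝ) : ℝ :=
  ∑ S ∈ D.powerset, XQ θ q D ψ f (FK.cf D FK.eta0 S)

end Vale.Agent.P167.QX
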