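import Vale.Agent.P167.XDL.Core

/-!
# P167, general `q`, block Q-XDL: the angle of a strand and of a loop in the gauge of the polygon

`θ` is the angle with `√q = 2 cos θ`. The in-phases are `(θ/4) u k + ψ k + K` (`u k`: lifted direction of
the side `k`, `ψ`: any function of the side: stagger, jumps), the rest of the phases is a flow `c` in the
interior of `D`. The angle of the strand from the side `i` to the side `j` is `± (θ/2 + ψ_y - ψ_x + mass)`,
`x < y` its two sides, `mass` the charge separated from the base point; the angle of a loop is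
`± (θ + mass)`.
-/

namespace Vale.Agent.P167.QX

open Finset
open Vale.Agent.P167.A (plane plane_nx plane_hd plane_sg)
open Vale.Agent.P167.H199 (cang strand ret ah at' hb mem_strand sum_strand ret_min loop_nx)
open Vale.Agent.P167.E6 (IsPolygon Encloses)
open Vale.Agent.P167.H871 (Bd strand_turn)
open Vale.Agent.P167.H685 (plane_turn)
open Vale.Agent.P167.BR
open Vale.Agent.P167.H825 (dv)
open Vale.Agent.P167.XDL

variable {D : Finset (ℤ × ℤ)} {ω : Cfg} {e : Ed} {θ : ℝ}

/-- The angle of the strand of an entering edge. -/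
theorem cang_in {a : Ed → Bool → ℝ} {c : Ed → ℝ} (hoff : ∀ e ∉ bS D, a e false + a e true = c e)
    (hsup : ∀ e, c e ≠ 0 → hdv e ∈ D ∧ tlv e ∈ D) (h1 : hdv e ∈ D) (h2 : tlv e ∉ D) {m : ℕ}
    (hm : 1 ≤ m) (hr : ret (nx ω) (bS D) e = m) (hx : hdv ((nx ω)^[m] e) ∉ D)
    (hn : (nx ω)^[m] e ∉ strand (nx ω) (bS D) e)
    (hp : piece ω D e = insert ((nx ω)^[m] e) (strand (nx ω) (bS D) e)) :
    cang plane θ a ω (strand (nx ω) (bS D) e) =
      θ / 4 * ((∑ k ∈ range m, trn ω ((nx ω)^[k] e) : ℤ) : ℝ) + ah plane a e +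
        at' plane a ((nx ω)^[m] e) + ∑ x ∈ piece ω D e, c x * sg x := by
  have heS : e ∈ bS D := mem_bS.2 (Or.inl ⟨h1, h2⟩)
  have hinj : Function.Injective (nx ω) := (s_nx ω).1
  have c0 : c e = 0 := by
    by_contra h
    exact h2 (hsup e h).2
  have cm : c ((nx ω)^[m] e) = 0 := by
    by_contra h
    exact hx (hsup _ h).1
  rw [hp, sum_insert hn, cm, zero_mul, zero_add, sum_strand hinj heS, hr]
  unfold cang
  rw [sum_strand hinj heS, hr]
  obtain ⟨m', rfl⟩ : ∃ m', m = m' + 1 := ⟨m - 1, by omega⟩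
  rw [sum_add_distrib, sum_add_distrib]
  have e1 : ∑ k ∈ range (m' + 1), θ / 4 * ((plane.turn ω ((nx ω)^[k] e) : ℤ) : ℝ) =
      θ / 4 * ((∑ k ∈ range (m' + 1), trn ω ((nx ω)^[k] e) : ℤ) : ℝ) := by
    simp only [plane_turn]
    rw [← mul_sum, Int.cast_sum]
  rw [e1]
  have e2 : ∀ k, plane.nx ω ((nx ω)^[k] e) = (nx ω)^[k + 1] e := fun k => by
    rw [plane_nx, Function.iterate_succ_apply']
  simp only [e2]
  rw [sum_range_succ' (fun k => ah plane a ((nx ω)^[k] e)),
    sum_range_succ (fun k => at' plane a ((nx ω)^[k + 1] e)),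
    sum_range_succ' (fun k => c ((nx ω)^[k] e) * ((sg ((nx ω)^[k] e) : ℤ) : ℝ))]
  have e3 : ∑ k ∈ range m', (c ((nx ω)^[k + 1] e) * ((sg ((nx ω)^[k + 1] e) : ℤ) : ℝ)) =
      ∑ k ∈ range m', ah plane a ((nx ω)^[k + 1] e) +
        ∑ k ∈ range m', at' plane a ((nx ω)^[k + 1] e) := by
    rw [← sum_add_distrib]
    refine sum_congr rfl fun k hk => ?_
    rw [mem_range] at hk
    rw [ah_add_at, hoff]
    exact ret_min (by omega) (by omega)
  rw [e3]
  simp only [Function.iterate_zero, id, c0, zero_mul, add_zero]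
  ring

variable {n : ℕ} {q : ZMod n → ℤ × ℤ} {u : ℕ → ℤ} {ψ : ℕ → ℝ} {a : Ed → Bool → ℝ}
  {c : Ed → ℝ} {K : ℝ}

/-- The phases on the inner side of the cuts: curvature `(θ/4) u k`, extra phases `ψ k`; flow `c` off
the cuts. -/
structure GauQ (θ : ℝ) (q : ZMod n → ℤ × ℤ) (D : Finset (ℤ × ℤ)) (u : ℕ → ℤ) (ψ : ℕ → ℝ)
    (a : Ed → Bool → ℝ) (c : Ed → ℝ) (K : ℝ) : Prop where
  hd : ∀ k < n, hdv (be q (k : ZMod n)) ∈ D → ah plane a (be q (k : ZMod n)) =
    θ / 4 * u k + ψ k + K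
  tl : ∀ k < n, tlv (be q (k : ZMod n)) ∈ D → at' plane a (be q (k : ZMod n)) =
    -(θ / 4 * u k + ψ k + K)
  off : ∀ e ∉ bS D, a e false + a e true = c e
  sup : ∀ e, c e ≠ 0 → hdv e ∈ D ∧ tlv e ∈ D

/-- The sides of the polygon crossed by a strand, and its angle. `i` is the side of the entering edge
`e`, `j` the side of the leaving edge `e'`. For `i < j` the base point is on the left of the strand
(the site after the lower side is dual), for `j < i` on the right (the site after the lower side is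
primal). -/
structure Str (θ : ℝ) (q : ZMod n → ℤ × ℤ) (D : Finset (ℤ × ℤ)) (ψ : ℕ → ℝ)
    (a : Ed → Bool → ℝ) (c : Ed → ℝ) (ω : Cfg) (e e' : Ed) (i j : ℕ) : Prop where
  hi : i < n
  hj : j < n
  ne : i ≠ j
  ei : e = be q (i : ZMod n)
  ej : e' = be q (j : ZMod n)
  evi : Even ((q (i : ZMod n)).1 + (q (i : ZMod n)).2)
  odj : ¬ Even ((q (j : ZMod n)).1 + (q (j : ZMod n)).2)
  mem : e' ∈ piece ω D e
  out : hdv e' ∉ D
  inn : tlv e' ∈ D
  uniq : ∀ k < n, be q (k : ZMod n) ∈ piece ω D e → k = i ∨ k = j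
  ang : cang plane θ a ω (strand (nx ω) (bS D) e) =
    if i < j then -(θ / 2 + ψ j - ψ i + mass D (q 0) (dv c) (piece ω D e))
    else θ / 2 + ψ i - ψ j + mass D (q 0) (dv c) (piece ω D e)
  left : i < j → ∃ w, PotD D (piece ω D e) w ∧ ∀ x ∈ piece ω D e, w (q 0) = w (ls x)
  right : j < i → ∃ w, PotD D (piece ω D e) w ∧ ∀ x ∈ piece ω D e, w (q 0) = w (rs x)

/-- **The angle of a strand of `D`.** -/
theorem exists_str (hq : IsPolygon q) (hD : Encloses q D)
    (hu : Bd (D : Set (ℤ × ℤ)) n (fun k => q (k : ZMod n)) u 1) (hg : GauQ θ q D u ψ a c K) {e : Ed}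
    (h1 : hdv e ∈ D) (h2 : tlv e ∉ D) : ∃ e' i j, Str θ q D ψ a c ω e e' i j := by
  classical
  obtain ⟨m, hm, hr, hin, hx, hn, hp⟩ := strand_in (ω := ω) h1 h2
  have he : e ∈ eds D := mem_eds.2 (Or.inl h1)
  have hA := piece_mem_pcs (ω := ω) he
  have heA := self_mem_piece (ω := ω) he
  have hxA : (nx ω)^[m] e ∈ piece ω D e := by rw [hp]; exact mem_insert_self _ _
  have hnl : ¬ IsLp D (piece ω D e) := fun h => h2 (h.tl hA heA)
  have htx : tlv ((nx ω)^[m] e) ∈ D := by
    obtain ⟨j, rfl⟩ : ∃ j, m = j + 1 := ⟨m - 1, by omega⟩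
    rw [Function.iterate_succ_apply', tlv_nx]
    exact hin j (by omega)
  have hent : ∀ y ∈ piece ω D e, y ∈ bS D → y = e ∨ y = (nx ω)^[m] e := by
    intro y hy hyS
    rw [mem_bS] at hyS
    rcases hyS with ⟨_, h⟩ | ⟨h, _⟩
    · exact Or.inl (entry_unique hA hy heA h h2)
    · exact Or.inr (exit_unique hA hy hxA h hx)
  obtain ⟨i, hi, hei⟩ := exists_idx hq hD hu (mem_bS.2 (Or.inl ⟨h1, h2⟩))
  obtain ⟨j, hj, hej⟩ := exists_idx hq hD hu (mem_bS.2 (Or.inr ⟨hx, htx⟩))
  have hturn := strand_turn hu (ω := ω) (e := e) hm hi hj (by rw [hei]; exact P4_be hq hu i)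
    (by rw [hej]; exact P4_be hq hu j) hin h2 hx
  obtain ⟨hij, hT⟩ := hturn
  have hang := cang_in (θ := θ) hg.off hg.sup h1 h2 hm hr hx hn hp
  rw [hT] at hang
  have g1 : ah plane a e = θ / 4 * u i + ψ i + K := by
    rw [hei]; exact hg.hd i hi (by rw [← hei]; exact h1)
  have g2 : at' plane a ((nx ω)^[m] e) = -(θ / 4 * u j + ψ j + K) := by
    rw [hej]; exact hg.tl j hj (by rw [← hej]; exact htx)
  rw [g1, g2] at hang
  -- the potential
  obtain ⟨w, hw⟩ := exists_pot hq hD hA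
  obtain ⟨κ, hκ1, hκ2⟩ := pot_two hq hD hA hw
  have hc0 : ∀ e ∉ eds D, c e = 0 := fun y hy => by
    by_contra h
    exact hy (mem_eds.2 (Or.inl (hg.sup y h).1))
  have hF := flow_piece (subset_eds hA) hw hc0 (w (q 0))
  rw [hF] at hang
  obtain ⟨m1, m2⟩ := mass_pot hq hD hw hκ2 (dv c)
  have hbd : ∀ k : ℕ, be q (k : ZMod n) ∈ bS D := fun k => by
    rw [mem_bS]
    rcases be_bd hq hD (k : ZMod n) with h | h
    · exact Or.inl h
    · exact Or.inr h.symm
  have hnot : ∀ k < n, k ≠ i → k ≠ j → be q (k : ZMod n) ∉ piece ω D e := by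
    intro k hk hki hkj hmem
    rcases hent _ hmem (hbd k) with h | h
    · exact be_ne hq hk hi hki (h.trans hei)
    · exact be_ne hq hk hj hkj (h.trans hej)
  have hevi : Even ((q (i : ZMod n)).1 + (q (i : ZMod n)).2) := by
    by_contra h
    obtain ⟨_, _, _, h4⟩ := be_odd hq hD h
    rw [← hei] at h4
    exact h4 h1
  have hsi : ls e = q (i : ZMod n) := by rw [hei]; exact (be_even hq hD hevi).1
  have hodj : ¬ Even ((q (j : ZMod n)).1 + (q (j : ZMod n)).2) := by
    intro h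
    obtain ⟨_, _, h4, _⟩ := be_even hq hD h
    rw [← hej] at h4
    exact hx h4
  have hsj : rs ((nx ω)^[m] e) = q (j : ZMod n) := by rw [hej]; exact (be_odd hq hD hodj).1
  refine ⟨(nx ω)^[m] e, i, j, hi, hj, hij, hei, hej, hevi, hodj, hxA, hx, htx, fun k hk hmem => ?_,
    ?_, fun hlt => ?_, fun hlt => ?_⟩
  · by_contra hcon
    push Not at hcon
    exact hnot k hk hcon.1 hcon.2 hmem
  · rcases Nat.lt_or_ge i j with hlt | hge
    · have hq0 : w (q 0) = κ + 1 := by
        have h4 := pot_arc hq hD hw (Nat.zero_le i) (fun k _ hk => hnot k (by omega) (by omega)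
          (by omega))
        rw [Nat.cast_zero] at h4
        rw [← h4, ← hsi]
        exact (hκ1 e heA).2
      rw [hang, m2 hq0, if_pos hlt, if_pos hlt]
      push_cast
      ring
    · have hq0 : w (q 0) = κ := by
        have h4 := pot_arc hq hD hw (Nat.zero_le j) (fun k _ hk => hnot k (by omega) (by omega)
          (by omega))
        rw [Nat.cast_zero] at h4
        rw [← h4, ← hsj]
        exact (hκ1 _ hxA).1
      rw [hang, m1 hq0, if_neg (by omega), if_neg (by omega)]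
      push_cast
      ring
  · refine ⟨w, hw, fun x hxx => ?_⟩
    have h4 := pot_arc hq hD hw (Nat.zero_le i) (fun k _ hk => hnot k (by omega) (by omega)
      (by omega))
    rw [Nat.cast_zero] at h4
    rw [← h4, ← hsi, (hκ1 e heA).2, (hκ1 x hxx).2]
  · refine ⟨w, hw, fun x hxx => ?_⟩
    have h4 := pot_arc hq hD hw (Nat.zero_le j) (fun k _ hk => hnot k (by omega) (by omega)
      (by omega))
    rw [Nat.cast_zero] at h4
    rw [← h4, ← hsj, (hκ1 _ hxA).1, (hκ1 x hxx).1]

/-! ### loops -/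

/-- The angle of a loop. -/
theorem cang_loop {A : Finset Ed} (h : IsLoop ω A) {a : Ed → Bool → ℝ} {c : Ed → ℝ}
    (hoff : ∀ e ∈ A, a e false + a e true = c e) :
    cang plane θ a ω A = θ / 4 * ((∑ x ∈ A, trn ω x : ℤ) : ℝ) + ∑ x ∈ A, c x * sg x := by
  unfold cang
  rw [sum_add_distrib, sum_add_distrib]
  have e1 : ∑ x ∈ A, θ / 4 * ((plane.turn ω x : ℤ) : ℝ) =
      θ / 4 * ((∑ x ∈ A, trn ω x : ℤ) : ℝ) := by
    simp only [plane_turn]
    rw [← mul_sum, Int.cast_sum]
  have e2 : ∑ x ∈ A, at' plane a (plane.nx ω x) = ∑ x ∈ A, at' plane a x := by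
    simp only [plane_nx]
    have himg : A.image (nx ω) = A := by
      apply eq_of_subset_of_card_le
      · intro y hy
        obtain ⟨x, hx, rfl⟩ := mem_image.1 hy
        exact loop_nx h hx
      · rw [card_image_of_injective _ (s_nx ω).1]
    conv_rhs => rw [← himg, sum_image (fun x _ y _ hxy => (s_nx ω).1 hxy)]
  rw [e1, e2, add_assoc, ← sum_add_distrib]
  congr 1
  exact sum_congr rfl fun x hx => by rw [ah_add_at, hoff x hx]

/-- **The factor of a loop of `D`.** -/
theorem cos_loop (hq : IsPolygon q) (hD : Encloses q D)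
    (hoff : ∀ e ∉ bS D, a e false + a e true = c e)
    (hsup : ∀ e, c e ≠ 0 → hdv e ∈ D ∧ tlv e ∈ D) {A : Finset Ed}
    (hA : A ∈ pcs ω D) (hl : IsLp D A) :
    Real.cos (cang plane θ a ω A) = Real.cos (θ + mass D (q 0) (dv c) A) := by
  classical
  have hloop := hl.isLoop hA
  have hpot : PotD D A (W A) := fun e _ => s_jump ω A hloop e
  have hoff' : ∀ e ∈ A, a e false + a e true = c e := fun e he =>
    hoff e fun h => Finset.disjoint_left.1 (lp_disj hA hl) he h
  have hc0 : ∀ e ∉ eds D, c e = 0 := fun y hy => by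
    by_contra h
    exact hy (mem_eds.2 (Or.inl (hsup y h).1))
  rw [cang_loop hloop hoff', flow_piece (subset_eds hA) hpot hc0 (W A (q 0))]
  have hw0 := W_base hq hD hA hl
  rcases turn_loop hloop with ⟨h1, h2⟩ | ⟨h1, h2⟩
  · obtain ⟨m1, -⟩ := mass_pot hq hD hpot (κ := 0) (fun z _ => by simpa using h2 z) (dv c)
    rw [m1 hw0, h1]
    congr 1
    push_cast
    ring
  · obtain ⟨-, m2⟩ := mass_pot hq hD hpot (κ := -1) (fun z _ => by
      rcases h2 z with h | h
      · exact Or.inr (by rw [h]; norm_num)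
      · exact Or.inl h) (dv c)
    rw [m2 (by rw [hw0]; norm_num), h1, ← Real.cos_neg]
    congr 1
    push_cast
    ring

/-- A loop away from the flow. -/
theorem cos_loop_zero {A : Finset Ed} (h : IsLoop ω A) {a : Ed → Bool → ℝ}
    (hoff : ∀ e ∈ A, a e false + a e true = 0) :
    Real.cos (cang plane θ a ω A) = Real.cos θ := by
  rw [cang_loop (c := fun _ => 0) h hoff]
  simp only [zero_mul, sum_const_zero, add_zero]
  rcases turn_loop h with ⟨h4, _⟩ | ⟨h4, _⟩ <;> rw [h4]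
  · congr 1; push_cast; ring
  · rw [← Real.cos_neg]; congr 1; push_cast; ring

end Vale.Agent.P167.QX
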