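import Vale.Agent.P167.QX.L1D
import Vale.Agent.P167.H871.Q.ValE
import Vale.Agent.P167.H945.Q.HLift
import Vale.Agent.P167.H945.Nrm
import Vale.Agent.P167.H436.Bmp

/-!
# P167, general `q`: **the law-free majorant** (`H945.Q.L1`)
-/

namespace Vale.Agent.P167.QX

open Finset Filter
open Vale.Agent.P167.A (plane plane_nx plane_sg)
open Vale.Agent.P167.BR hiding dv
open Vale.Agent.P167.XDL (bS mem_bS)
open Vale.Agent.P167.FK
open Vale.Agent.P167.H199 (strand ret mem_strand Returns ret_le ret_min strand_unique loop_iter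
  loop_nx self_mem_strand strand_sub)
open Vale.Agent.P167.H685 (LE mem_LE)
open Vale.Agent.P167.H825.Q (Row)
open Vale.Agent.P167.H825 (epos dv)
open Vale.Agent.P167.H680.T (sq_mem sq_inj mem_I rowC uI mem_uI et et_pos et_mem adm_sepd ax nm_ht
  nm_sq sq_hb ax_nx trans_mem' eds_ax axk axk_inj)
open Vale.Agent.P167.H945.Q (sep_sq exists_sq adm_sep adm_box adm_flow nm_sub_le nm_comm TT TT_eq
  Tc_adm tipL tipR jn Plain)
open Vale.Agent.P167.H945 (IsSeg)
open Vale.Agent.P167.H562.QM (MajA)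
open Vale.Agent.P167.H562.MAJ (Sm)

variable {ι : Type} {ω : Cfg} {θ κ R B : ℝ} {n : ℕ} {r : ι → Row} {c : Ed → ℝ}
  {p q : ℤ × ℤ} {w d : ℤ} {i : ι} {e : Ed}

theorem nm_sub_ge (u v w : ℤ × ℤ) : nm (u - w) - nm (v - w) ≤ nm (u - v) := by
  linarith [nm_sub_le u v w]

/-- An exit of a row whose strand leaves the box around it has a long strand. -/
theorem big_strand [Fintype ι] (hg : Good ω) (hA : (rowC θ r c).Adm κ R B n) (hd : 1 ≤ d)
    (hdn : (d : ℝ) ≤ κ * n) (he : tlv e ∈ (r i).I) (he' : hdv e ∉ uI r)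
    (hB : ¬ InB (Bq (tlv e) d) (r i).I ω e) :
    ∃ e1 ∈ strand (nx ω) (bS (uI r)) e, ∃ e2 ∈ strand (nx ω) (bS (uI r)) e,
      d - 2 ≤ nm (hdv e1 - hdv e2) := by
  obtain ⟨ℓ, hl, heℓ⟩ := hg e
  have heI : hdv e ∉ (r i).I := fun h => he' (mem_uI.2 ⟨i, h⟩)
  have hbK : e ∈ bS (uI r) := mem_bS.2 (Or.inr ⟨he', mem_uI.2 ⟨i, he⟩⟩)
  have hbI : e ∈ bS (r i).I := mem_bS.2 (Or.inr ⟨heI, he⟩)
  have hrK := returns_loop hl heℓ hbK
  have hrI := returns_loop hl heℓ hbI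
  set m := ret (nx ω) (bS (uI r)) e with hm
  have hm1 := hrK.spec.1
  rw [← hm] at hm1
  obtain ⟨g1, g2⟩ := exc_last he' hrK
  rw [← hm] at g1 g2
  have key : ∃ k ≤ m, d ≤ nm (hdv ((nx ω)^[k] e) - tlv e) := by
    obtain ⟨j, hj⟩ := mem_uI.1 g1
    by_cases hij : j = i
    · subst hij
      have h1 : ret (nx ω) (bS (r j).I) e ≤ m :=
        ret_le hm1 (mem_bS.2 (Or.inl ⟨hj, fun h => g2 (mem_uI.2 ⟨j, h⟩)⟩))
      have h2 : ∃ k ≤ ret (nx ω) (bS (r j).I) e, hdv ((nx ω)^[k] e) ∉ Bq (tlv e) d := by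
        by_contra hn
        push Not at hn
        refine hB ⟨hrI, ?_, hn⟩
        refine H945.Q.Bq_of_nm ?_
        rw [sub_self]
        have : nm (0 : ℤ × ℤ) = 0 := by simp [nm]
        omega
      obtain ⟨k, hk, hk'⟩ := h2
      refine ⟨k, hk.trans h1, ?_⟩
      by_contra hlt
      exact hk' (H945.Q.Bq_of_nm (not_le.1 hlt))
    · refine ⟨m, le_rfl, ?_⟩
      have h3 := adm_sep hA hij hj he
      have h4 : (d : ℝ) ≤ (nm (hdv ((nx ω)^[m] e) - tlv e) : ℝ) := hdn.trans h3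
      exact_mod_cast h4
  obtain ⟨k, hk, hk'⟩ := key
  have h1 : nm (tlv e - hdv e) ≤ 1 := by
    rw [nm_comm]
    exact nm_ht e
  rcases hk.lt_or_eq with hlt | heq
  · refine ⟨(nx ω)^[k] e, mem_strand.2 ⟨k, hlt, rfl⟩, e, self_mem_strand hrK, ?_⟩
    have h2 := nm_sub_le (hdv ((nx ω)^[k] e)) (hdv e) (tlv e)
    rw [nm_comm (hdv e)] at h2
    linarith
  · obtain ⟨l, hl'⟩ : ∃ l, m = l + 1 := ⟨m - 1, by omega⟩
    refine ⟨(nx ω)^[l] e, mem_strand.2 ⟨l, by omega, rfl⟩, e, self_mem_strand hrK, ?_⟩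
    have h2 := nm_sub_le (hdv ((nx ω)^[k] e)) (hdv ((nx ω)^[l] e)) (tlv e)
    have h3 := nm_sub_le (hdv ((nx ω)^[l] e)) (hdv e) (tlv e)
    rw [nm_comm (hdv e)] at h3
    have h5 : tlv ((nx ω)^[k] e) = hdv ((nx ω)^[l] e) := by
      rw [heq, hl', Function.iterate_succ_apply', tlv_nx]
    have h4 : nm (hdv ((nx ω)^[k] e) - hdv ((nx ω)^[l] e)) ≤ 1 := h5 ▸ nm_ht _
    linarith

/-- A strand is a segment. -/
theorem isSeg_strand {S : Finset Ed} (h : Returns (nx ω) S e) : IsSeg ω (strand (nx ω) S e) := by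
  refine ⟨e, ret (nx ω) S e - 1, fun a => ?_⟩
  rw [mem_strand]
  have := h.spec.1
  constructor
  · rintro ⟨k, hk, rfl⟩
    exact ⟨k, by omega, rfl⟩
  · rintro ⟨k, hk, rfl⟩
    exact ⟨k, by omega, rfl⟩

open Classical in
/-- **The number of the long strands and of the big loops which meet the flow.** -/
theorem big_count [Fintype ι] (hg : Good ω) (hA : (rowC θ r c).Adm κ R B n) (hn1 : 1 ≤ n)
    (hd : 1 ≤ d) (hdn : (d : ℝ) ≤ κ * n) {δ : ℝ} (hδ : δ + 2 ≤ d) {sm : Ed → Prop}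
    (hsm : ∀ i, ∀ e, tlv e ∈ (r i).I → hdv e ∉ uI r → InB (Bq (tlv e) d) (r i).I ω e → sm e)
    {Z : Finset (ℤ × ℤ)} {N : ℕ} (hZ : ∀ v : ℤ × ℤ, (nm v : ℝ) ≤ (R + 1) * n → v ∈ Z)
    (hN : MajA Z δ ω N) {𝓕 : Finset (Finset Ed)}
    (h𝓕 : ∀ ℓ ∈ 𝓕, IsLoop ω ℓ ∧ (∀ e ∈ ℓ, e ∉ eds (uI r)) ∧ ¬ Small δ ℓ ∧ ∃ e ∈ ℓ, c e ≠ 0) :
    𝓕.card + ((bS (uI r)).filter fun e => hdv e ∉ uI r ∧ ¬ sm e).card ≤ N := by
  have hn1' : (1 : ℝ) ≤ n := by exact_mod_cast hn1
  set X := (bS (uI r)).filter fun e => hdv e ∉ uI r ∧ ¬ sm e with hX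
  set g : Ed → Finset Ed := fun e => strand (nx ω) (bS (uI r)) e with hgg
  have hinj : Function.Injective (nx ω) := (s_nx ω).1
  have hret : ∀ e ∈ bS (uI r), Returns (nx ω) (bS (uI r)) e := fun e he => by
    obtain ⟨ℓ, hl, heℓ⟩ := hg e
    exact returns_loop hl heℓ he
  have hself : ∀ e ∈ X, e ∈ g e := fun e he => self_mem_strand (hret e (mem_filter.1 he).1)
  have huniq : ∀ e ∈ X, ∀ e' ∈ X, ∀ x, x ∈ g e → x ∈ g e' → e = e' := fun e he e' he' x h1 h2 =>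
    strand_unique hinj (mem_filter.1 he).1 (mem_filter.1 he').1 h1 h2
  have hgi : Set.InjOn g X := fun e he e' he' h =>
    huniq e he e' he' e (hself e he) (h ▸ hself e he)
  have hexit : ∀ e ∈ X, ∃ i, tlv e ∈ (r i).I := by
    intro e he
    obtain ⟨h1, h2, -⟩ := mem_filter.1 he
    rw [mem_bS] at h1
    rcases h1 with ⟨h1, -⟩ | ⟨-, h1⟩
    · exact absurd h1 h2
    · exact mem_uI.1 h1
  -- loops off the rows and strands are disjoint
  have hdis : ∀ ℓ ∈ 𝓕, ∀ e ∈ X, Disjoint ℓ (g e) := by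
    intro ℓ hℓ e he
    rw [Finset.disjoint_left]
    intro x hx hx'
    obtain ⟨hl, hoff, -, -⟩ := h𝓕 ℓ hℓ
    obtain ⟨ℓ', hl', heℓ'⟩ := hg e
    have h1 : x ∈ ℓ' := strand_sub hl' heℓ' _ hx'
    have h2 : ℓ = ℓ' := hl.eq_of_mem hl' hx h1
    refine hoff e (h2 ▸ heℓ') ?_
    have h3 := (mem_filter.1 he).1
    rw [mem_bS] at h3
    rcases h3 with h3 | h3
    · exact mem_eds.2 (Or.inl h3.1)
    · exact mem_eds.2 (Or.inr h3.2)
  have hd2 : Disjoint 𝓕 (X.image g) := by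
    rw [Finset.disjoint_left]
    intro ℓ hℓ hℓ'
    obtain ⟨e, he, rfl⟩ := mem_image.1 hℓ'
    exact Finset.disjoint_left.1 (hdis _ hℓ e he) (hself e he) (hself e he)
  rw [← card_image_of_injOn hgi, ← card_union_of_disjoint hd2]
  refine hN _ (fun γ hγ => ?_) (fun γ hγ γ' hγ' hne => ?_) fun γ hγ => ?_
  · rcases mem_union.1 hγ with h | h
    · exact H945.isSeg_of_loop (h𝓕 γ h).1
    · obtain ⟨e, he, rfl⟩ := mem_image.1 h
      exact isSeg_strand (hret e (mem_filter.1 he).1)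
  · rcases mem_union.1 hγ with h | h <;> rcases mem_union.1 hγ' with h' | h'
    · rw [Finset.disjoint_left]
      intro x hx hx'
      exact hne ((h𝓕 γ h).1.eq_of_mem (h𝓕 γ' h').1 hx hx')
    · obtain ⟨e, he, rfl⟩ := mem_image.1 h'
      exact hdis γ h e he
    · obtain ⟨e, he, rfl⟩ := mem_image.1 h
      exact (hdis γ' h' e he).symm
    · obtain ⟨e, he, rfl⟩ := mem_image.1 h
      obtain ⟨e', he', rfl⟩ := mem_image.1 h'
      rw [Finset.disjoint_left]
      intro x hx hx'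
      exact hne (by rw [huniq e he e' he' x hx hx'])
  · rcases mem_union.1 hγ with h | h
    · obtain ⟨hl, -, hs, e, he, hce⟩ := h𝓕 γ h
      refine ⟨⟨e, he, hZ _ ?_⟩, ?_⟩
      · have h1 := (adm_flow hA hce).1
        have h2 : (nm (hdv e) : ℝ) ≤ nm (hdv e - epos e) + nm (epos e) := by
          have := nm_sub_le (hdv e) (epos e) 0
          rw [sub_zero, sub_zero] at this
          exact_mod_cast this
        have h3 : (nm (hdv e - epos e) : ℝ) ≤ 1 := by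
          rw [nm_comm]
          exact_mod_cast (nm_pos e).1
        nlinarith
      · unfold Small at hs
        push Not at hs
        obtain ⟨u, hu, v, hv, huv⟩ := hs
        obtain ⟨e1, h1, rfl⟩ := mem_image.1 hu
        obtain ⟨e2, h2, rfl⟩ := mem_image.1 hv
        exact ⟨e1, h1, e2, h2, huv⟩
    · obtain ⟨e, he, rfl⟩ := mem_image.1 h
      obtain ⟨i, hi⟩ := hexit e he
      obtain ⟨h1, h2, h3⟩ := mem_filter.1 he
      refine ⟨⟨e, hself e he, hZ _ ?_⟩, ?_⟩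
      · have h4 := adm_box hA hi
        have h5 : (nm (hdv e) : ℝ) ≤ nm (hdv e - tlv e) + nm (tlv e) := by
          have := nm_sub_le (hdv e) (tlv e) 0
          rw [sub_zero, sub_zero] at this
          exact_mod_cast this
        have h6 : (nm (hdv e - tlv e) : ℝ) ≤ 1 := by exact_mod_cast nm_ht e
        nlinarith
      · obtain ⟨e1, g1, e2, g2, g3⟩ := big_strand hg hA hd hdn hi h2
          (fun hB => h3 (hsm i e hi h2 hB))
        refine ⟨e1, g1, e2, g2, ?_⟩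
        have g4 : ((d - 2 : ℤ) : ℝ) ≤ (nm (hdv e1 - hdv e2) : ℝ) := by exact_mod_cast g3
        push_cast at g4
        linarith

/-- The law-free majorant, for one size. -/
theorem L1_core [Fintype ι] (h0 : 0 < θ) (h1 : θ ≤ Real.pi / 3) (hg : Good ω)
    (hcf : (Function.support c).Finite) (hA : (rowC θ r c).Adm κ R B n) (hn1 : 1 ≤ n)
    (hn : 1 < κ * n) (hr : ∀ i, (r i).Ok θ κ n) (hω : ∀ i, ∀ v ∈ (r i).I, ω v = (r i).fr v)
    {κ' : ℝ} {ρ : ℤ} (hκ' : 0 < κ') (hB : 0 ≤ B) (hBκ : B * κ' ^ 2 ≤ 1 / 2)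
    (hκκ : κ' * n + 4 ≤ κ * n)
    (hd : 1 ≤ d) (hδ : κ' * n + 2 ≤ d) (hdρ : 2 * d + 2 ≤ ρ) (hρ : 16 * (ρ : ℝ) ≤ κ * n)
    {Z : Finset (ℤ × ℤ)} {N : ℕ} (hZ : ∀ v : ℤ × ℤ, (nm v : ℝ) ≤ (R + 1) * n → v ∈ Z)
    (hN : MajA Z (κ' * n) ω N) :
    |RT θ (uI r) (rowC θ r c).ph ω| ≤ (∏ i, (2 * Real.sin θ) ^ ((r i).L + 1)) *
      (((Real.cos θ)⁻¹ * (Real.sin θ)⁻¹) ^ N * ((1 / Real.sin θ) ^ 2) ^ Fintype.card ι *
        Real.exp (-(Real.tan θ * Sm (dv c) (κ' * n) ω)) * ∏ i, TT θ (uI r) (r i) ρ ω) := by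
  classical
  have hpi := Real.pi_pos
  have hs : 0 < Real.sin θ := Real.sin_pos_of_pos_of_lt_pi h0 (by linarith)
  have hc0 : 0 < Real.cos θ := Real.cos_pos_of_mem_Ioo ⟨by linarith, by linarith⟩
  have hc1 : 1 ≤ 2 * Real.cos θ := by
    have := Real.cos_le_cos_of_nonneg_of_le_pi h0.le (by linarith) h1
    rw [Real.cos_pi_div_three] at this
    linarith
  have hρ0 : (0 : ℝ) ≤ ρ := by
    have : (0 : ℤ) ≤ ρ := by omega
    exact_mod_cast this
  have hw : ((2 * ρ : ℤ) : ℝ) < κ * n := by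
    push_cast
    linarith
  have hdn : (d : ℝ) ≤ κ * n := by
    have : (2 * (d : ℝ) + 2) ≤ ρ := by exact_mod_cast hdρ
    have : (0 : ℝ) ≤ d := by
      have : (0 : ℤ) ≤ d := by omega
      exact_mod_cast this
    linarith
  have F := rowFam hg hA hn hr hω hw.le
  set Gs : ι → Finset Ed := fun i => H871.Q.G θ (r i) d ρ ω with hGs
  -- the small strands
  have hGab : ∀ i, ∀ e ∈ Gs i, ∃ p q, AbR r (2 * ρ) i p q ∧ tlv e ∈ (r i).I ∧
      InB (Bx p q) (r i).I ω e := by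
    intro i e he
    obtain ⟨g1, g2, g3⟩ := mem_filter.1 he
    have g4 : tlv e ∈ (r i).I := by
      rw [mem_bS] at g1
      rcases g1 with ⟨g1, -⟩ | ⟨-, g1⟩
      · exact absurd g1 g2
      · exact g1
    rcases g3 with g3 | ⟨s, -, g3⟩
    · rw [Bq_eq] at g3
      exact ⟨_, _, ⟨⟨_, g4, g3.2.1⟩, by simp only; omega, by simp only; omega⟩, g4, g3⟩
    · have h5 : s.bx ρ = Bx (s.c.1 - ρ + s.e.1, s.c.2 - ρ + s.e.2) (s.c.1 + ρ, s.c.2 + ρ) := rfl
      rw [h5] at g3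
      exact ⟨_, _, ⟨⟨_, g4, g3.2.1⟩, by simp only; omega, by simp only; omega⟩, g4, g3⟩
  set sm : Ed → Prop := fun e => ∃ i, e ∈ Gs i with hsmd
  have hsm : ∀ e, sm e → Sml (fun i => (r i).I) (AbR r (2 * ρ)) ω e := by
    rintro e ⟨i, he⟩
    obtain ⟨p, q, g1, g2, g3⟩ := hGab i e he
    exact ⟨i, p, q, g1, g2, g3⟩
  have hplain : ∀ i, ∀ e, tlv e ∈ (r i).I → hdv e ∉ uI r → InB (Bq (tlv e) d) (r i).I ω e →
      sm e := by
    intro i e g1 g2 g3
    have g4 : hdv e ∉ (r i).I := fun h => g2 (mem_uI.2 ⟨i, h⟩)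
    exact ⟨i, mem_filter.2 ⟨mem_bS.2 (Or.inr ⟨g4, g1⟩), g4, Or.inl g3⟩⟩
  have hmaj := F.maj0 (a := (rowC θ r c).ph) hs hc1 hsm
  -- the number of exits
  have hex : ((bS (uI r)).filter fun e => hdv e ∉ uI r).card = ∑ i, ((r i).L + 1) := by
    rw [exits_uI hA hn, card_biUnion]
    · exact sum_congr rfl fun i _ => card_exits (by
        have := (hr i).len
        have h3 : (0 : ℝ) < (r i).L := by linarith
        have h4 : 0 < (r i).L := by exact_mod_cast h3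
        omega)
    · intro i _ j _ hij
      rw [Function.onFun, Finset.disjoint_left]
      intro e he he'
      have tl : ∀ i, e ∈ (bS (r i).I).filter (fun e => hdv e ∉ (r i).I) → tlv e ∈ (r i).I := by
        intro i he
        obtain ⟨g1, g2⟩ := mem_filter.1 he
        rw [mem_bS] at g1
        rcases g1 with ⟨g1, -⟩ | ⟨-, g1⟩
        · exact absurd g1 g2
        · exact g1
      exact hij (F.disj i j _ (tl i he) (tl j he'))
  -- the small strands, row by row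
  have hprod : ∏ e ∈ (bS (uI r)).filter (fun e => hdv e ∉ uI r ∧ sm e),
      rK θ (fun i => (r i).I) (rowC θ r c).ph ω e ≤
      ((1 / Real.sin θ) ^ 2) ^ Fintype.card ι * ∏ i, TT θ (r i).I (r i) ρ ω := by
    have e1 : (bS (uI r)).filter (fun e => hdv e ∉ uI r ∧ sm e) = univ.biUnion Gs := by
      rw [← filter_filter, exits_uI hA hn]
      ext e
      simp only [mem_filter, mem_biUnion, mem_univ, true_and]
      constructor
      · rintro ⟨-, i, he⟩
        exact ⟨i, he⟩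
      · rintro ⟨i, he⟩
        obtain ⟨g1, g2, g3⟩ := mem_filter.1 he
        exact ⟨⟨i, g1, g2⟩, i, he⟩
    rw [e1, prod_biUnion]
    · have e2 : ((1 / Real.sin θ) ^ 2) ^ Fintype.card ι * ∏ i, TT θ (r i).I (r i) ρ ω =
          ∏ i, ((1 / Real.sin θ) ^ 2 * TT θ (r i).I (r i) ρ ω) := by
        rw [prod_mul_distrib, prod_const, Finset.card_univ]
      rw [e2]
      refine prod_le_prod (fun i _ => prod_nonneg fun e he => ?_) fun i _ => ?_
      · obtain ⟨_, _, -, g1, -⟩ := hGab i e he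
        rw [rK_eq F g1]
        exact rS_nonneg hc0 _ _ _ _
      · refine le_trans (le_of_eq ?_)
          (H871.Q.G_prod hs hc1 (hr i) (hω i) hd hdρ hρ 0)
        refine prod_congr rfl fun e he => ?_
        obtain ⟨p, q, g0, g1, g2⟩ := hGab i e he
        rw [rK_eq F g1]
        unfold rS
        rw [wS_ph g2 fun y hy _ => ph_row hA hw g0 hy]
    · intro i _ j _ hij
      rw [Function.onFun, Finset.disjoint_left]
      intro e he he'
      obtain ⟨_, _, -, g1, -⟩ := hGab i e he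
      obtain ⟨_, _, -, g2, -⟩ := hGab j e he'
      exact hij (F.disj i j _ g1 g2)
  -- the loops off the rows
  have hcphi : ∀ e ∉ bS (uI r), (rowC θ r c).ph e false + (rowC θ r c).ph e true = c e := by
    intro e he
    have hS : ∀ k, ((rowC θ r c).w k).a e = 0 := by
      intro k
      apply ((rowC θ r c).w k).off
      intro h
      apply he
      have h2 := H680.T.adm_S hA hn (fun _ => rfl) (r := r) (z := fun _ => 0)
      rw [← h2]
      exact H680.T.mem_S_iff.2 ⟨k, h⟩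
    show (∑ k, ((rowC θ r c).w k).a e false + c e / 2) +
      (∑ k, ((rowC θ r c).w k).a e true + c e / 2) = c e
    rw [sum_eq_zero fun k _ => by rw [hS k]; rfl, sum_eq_zero fun k _ => by rw [hS k]; rfl]
    ring
  obtain ⟨𝓕, h𝓕, hLp⟩ := LpO_le (ω := ω) (K := uI r) h0 h1 hcf hcphi (d := κ' * n)
    (fun ℓ hl hsl => H436.G_small hκ' hB hBκ (by omega) hA.dle hl hsl) (by
      rintro ℓ hl hsl ⟨e, he, hce⟩ e' he' hK
      have key : ∀ v ∈ uI r, ∀ y ∈ ℓ, κ * n - 1 ≤ (nm (hdv y - v) : ℝ) + κ' * n := by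
        intro v hv y hy
        obtain ⟨i, hi⟩ := mem_uI.1 hv
        have g1 := (adm_flow hA hce).2 i v hi
        have g2 : (nm (epos e - v) : ℝ) ≤ nm (epos e - hdv e) + nm (hdv e - hdv y) +
            nm (hdv y - v) := by
          have a1 := nm_sub_le (epos e) (hdv e) v
          have a2 := nm_sub_le (hdv e) (hdv y) v
          have : nm (epos e - v) ≤ nm (epos e - hdv e) + nm (hdv e - hdv y) +
            nm (hdv y - v) := by linarith
          exact_mod_cast this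
        have g3 : (nm (epos e - hdv e) : ℝ) ≤ 1 := by exact_mod_cast (nm_pos e).1
        have g4 := hsl _ (mem_image_of_mem hdv he) _ (mem_image_of_mem hdv hy)
        linarith
      rcases mem_eds.1 hK with h | h
      · have g := key _ h e' he'
        rw [sub_self] at g
        have : (nm (0 : ℤ × ℤ) : ℝ) = 0 := by simp [nm]
        rw [this] at g
        linarith
      · have g := key _ h e' he'
        have : (nm (hdv e' - tlv e') : ℝ) ≤ 1 := by exact_mod_cast nm_ht e'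
        linarith)
  have hcount := big_count hg hA hn1 hd hdn (δ := κ' * n) hδ hplain hZ hN h𝓕
  -- conclusion
  have hTT : ∏ i, TT θ (uI r) (r i) ρ ω = ∏ i, TT θ (r i).I (r i) ρ ω := by
    refine prod_congr rfl fun i _ => ?_
    rw [TT_eq, TT_eq]
    exact prod_congr rfl fun k _ => Tc_adm hA hr hn (p := (i, k)) (by linarith) ω
  have hT0 : 0 ≤ ∏ i, TT θ (r i).I (r i) ρ ω := prod_nonneg fun i _ => by
    rw [TT_eq]
    exact prod_nonneg fun k _ => H945.Q.Tc_nonneg h0 h1 _ _ _ _ _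
  obtain ⟨nb, hcount', hmaj'⟩ : ∃ nb : ℕ, 𝓕.card + nb ≤ N ∧
      |∏ ℓ ∈ LE ω (bS (uI r)), fLp θ (uI r) (rowC θ r c).ph ω ℓ| ≤
      (∏ e ∈ (bS (uI r)).filter (fun e => hdv e ∉ uI r ∧ sm e),
        rK θ (fun i => (r i).I) (rowC θ r c).ph ω e) * ((Real.sin θ)⁻¹) ^ nb :=
    ⟨_, hcount, by convert hmaj⟩
  have ha : 1 ≤ (Real.cos θ)⁻¹ := (one_le_inv₀ hc0).2 (Real.cos_le_one _)
  have hb : 1 ≤ (Real.sin θ)⁻¹ := one_le_inv_sin hs
  have hab : ((Real.cos θ)⁻¹) ^ 𝓕.card * ((Real.sin θ)⁻¹) ^ nb ≤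
      ((Real.cos θ)⁻¹ * (Real.sin θ)⁻¹) ^ N := by
    rw [mul_pow]
    exact mul_le_mul (pow_le_pow_right₀ ha (by omega)) (pow_le_pow_right₀ hb (by omega))
      (by positivity) (by positivity)
  have hP1 : 0 ≤ ∏ i, (2 * Real.sin θ) ^ ((r i).L + 1) := prod_nonneg fun _ _ => by positivity
  have hin : |((2 * Real.cos θ) ^ ((pcs ω (uI r)).filter (IsLp (uI r))).card)⁻¹| ≤ 1 := by
    rw [abs_of_nonneg (by positivity)]
    exact inv_le_one_of_one_le₀ (one_le_pow₀ hc1)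
  rw [RT_prod hg hs.ne' hc0.ne', hex, abs_mul, abs_mul, abs_mul, hTT,
    abs_of_nonneg (by positivity : 0 ≤ (2 * Real.sin θ) ^ (∑ i, ((r i).L + 1))),
    ← prod_pow_eq_pow_sum]
  set E := Real.exp (-(Real.tan θ * Sm (dv c) (κ' * n) ω)) with hE
  have hE0 : 0 < E := Real.exp_pos _
  set C := ((1 / Real.sin θ) ^ 2) ^ Fintype.card ι with hC
  have hC0 : 0 < C := by positivity
  set T := ∏ i, TT θ (r i).I (r i) ρ ω with hT
  calc (∏ i, (2 * Real.sin θ) ^ ((r i).L + 1)) *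
        |((2 * Real.cos θ) ^ ((pcs ω (uI r)).filter (IsLp (uI r))).card)⁻¹| *
        |LpO θ (uI r) (rowC θ r c).ph ω| *
        |∏ ℓ ∈ LE ω (bS (uI r)), fLp θ (uI r) (rowC θ r c).ph ω ℓ|
      ≤ (∏ i, (2 * Real.sin θ) ^ ((r i).L + 1)) * 1 * (((Real.cos θ)⁻¹) ^ 𝓕.card * E) *
        ((C * T) * ((Real.sin θ)⁻¹) ^ nb) := by
        refine mul_le_mul (mul_le_mul (mul_le_mul_of_nonneg_left hin hP1) hLp (abs_nonneg _)
          (by positivity)) (hmaj'.trans (mul_le_mul_of_nonneg_right hprod (by positivity)))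
          (abs_nonneg _) (by positivity)
    _ = (∏ i, (2 * Real.sin θ) ^ ((r i).L + 1)) *
        ((((Real.cos θ)⁻¹) ^ 𝓕.card * ((Real.sin θ)⁻¹) ^ nb) * (C * E * T)) := by ring
    _ ≤ (∏ i, (2 * Real.sin θ) ^ ((r i).L + 1)) *
        (((Real.cos θ)⁻¹ * (Real.sin θ)⁻¹) ^ N * (C * E * T)) := by
        refine mul_le_mul_of_nonneg_left (mul_le_mul_of_nonneg_right hab (by positivity)) hP1
    _ = _ := by ring

/-- **The law-free majorant.** -/
theorem l1 (h0 : 0 < θ) (h1 : θ ≤ Real.pi / 3) : H945.Q.L1 θ := by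
  intro κ R B M hκ
  have hpi := Real.pi_pos
  have hs : 0 < Real.sin θ := Real.sin_pos_of_pos_of_lt_pi h0 (by linarith)
  have hc0 : 0 < Real.cos θ := Real.cos_pos_of_mem_Ioo ⟨by linarith, by linarith⟩
  have ha : 1 ≤ (Real.cos θ)⁻¹ := (one_le_inv₀ hc0).2 (Real.cos_le_one _)
  have hb : 1 ≤ (Real.sin θ)⁻¹ := one_le_inv_sin hs
  have hb2 : 1 ≤ (1 / Real.sin θ) ^ 2 := one_le_pow₀ (by rwa [one_div])
  refine ⟨min (κ / 64) (1 / (2 * (|B| + 1))), by positivity, fun κ' hκ' hκ1 => ?_⟩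
  have k1 : κ' < κ / 64 := lt_of_lt_of_le hκ1 (min_le_left _ _)
  have k2 : κ' < 1 / (2 * (|B| + 1)) := lt_of_lt_of_le hκ1 (min_le_right _ _)
  have hBk : |B| * κ' ^ 2 ≤ 1 / 2 := by
    have g0 := abs_nonneg B
    rw [lt_div_iff₀ (by positivity)] at k2
    have g1 : κ' * (|B| + 1) < 1 / 2 := by linarith
    have g2 : κ' < 1 := by nlinarith
    nlinarith
  refine ⟨((Real.cos θ)⁻¹ * (Real.sin θ)⁻¹) * ((1 / Real.sin θ) ^ 2) ^ M, ?_, ?_⟩
  · exact one_le_mul_of_one_le_of_one_le (one_le_mul_of_one_le_of_one_le ha hb) (one_le_pow₀ hb2)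
  have hlim : Tendsto (fun n : ℕ => κ * (n : ℝ)) atTop atTop :=
    tendsto_natCast_atTop_atTop.const_mul_atTop hκ
  filter_upwards [hlim.eventually_ge_atTop 1024, eventually_ge_atTop 1] with n hn hn1
  intro ι _ r c hcf hM hA hr ω hg hω Z N hZ hN
  have hn0 : (0 : ℝ) < n := by exact_mod_cast hn1
  have hκn : κ' * n < κ * n / 64 := by
    have := mul_lt_mul_of_pos_right k1 hn0
    linarith
  have hκ0 : 0 < κ' * n := by positivity
  set d : ℤ := ⌈κ' * n⌉ + 2 with hd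
  set ρ : ℤ := ⌊κ * n / 16⌋ with hρ
  have d1 : κ' * n + 2 ≤ d := by
    rw [hd]
    push_cast
    linarith [Int.le_ceil (κ' * n)]
  have d2 : (d : ℝ) < κ' * n + 3 := by
    rw [hd]
    push_cast
    linarith [Int.ceil_lt_add_one (κ' * n)]
  have r1 : (ρ : ℝ) ≤ κ * n / 16 := Int.floor_le _
  have r2 : κ * n / 16 - 1 < ρ := Int.sub_one_lt_floor _
  have d3 : 2 * d + 2 ≤ ρ := by
    have : (2 * (d : ℝ) + 2) ≤ ρ := by linarith
    exact_mod_cast this
  have d4 : 1 ≤ d := by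
    have : (1 : ℝ) ≤ d := by linarith
    exact_mod_cast this
  have hA' : (rowC θ r c).Adm κ R |B| n :=
    H680.T.Adm.mono hA le_rfl le_rfl (le_abs_self B)
  have hmain := L1_core (d := d) (ρ := ρ) h0 h1 hg hcf hA' hn1 (by linarith) hr hω hκ'
    (abs_nonneg B) hBk (by linarith) d4 d1 d3 (by linarith) hZ hN
  refine hmain.trans (mul_le_mul_of_nonneg_left ?_ (prod_nonneg fun _ _ => by positivity))
  have hT0 : 0 ≤ ∏ i, TT θ (uI r) (r i) ρ ω := prod_nonneg fun i _ => by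
    rw [TT_eq]
    exact prod_nonneg fun k _ => H945.Q.Tc_nonneg h0 h1 _ _ _ _ _
  refine mul_le_mul_of_nonneg_right (mul_le_mul_of_nonneg_right ?_ (Real.exp_nonneg _)) hT0
  have hab1 := one_le_mul_of_one_le_of_one_le ha hb
  set x := (Real.cos θ)⁻¹ * (Real.sin θ)⁻¹ with hx
  set y := (1 / Real.sin θ) ^ 2 with hy
  have hxy : (x * y ^ M) ^ (N + 1) = x ^ (N + 1) * y ^ (M * (N + 1)) := by
    rw [mul_pow, ← pow_mul]
  rw [hxy]
  exact mul_le_mul (pow_le_pow_right₀ hab1 (by omega))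
    (pow_le_pow_right₀ hb2 (hM.trans (Nat.le_mul_of_pos_right _ (by omega))))
    (by positivity) (by positivity)

end Vale.Agent.P167.QX
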