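import Vale.Agent.P167.QX.Hole

/-!
# P167, general `q`, START (S2b): the functional of a frame is a product over loops
-/

namespace Vale.Agent.P167.QX

open Finset
open Vale.Agent.P167.A (plane plane_nx plane_sg)
open Vale.Agent.P167.BR
open Vale.Agent.P167.XDL (bS mem_bS loop_cases lp_disj)
open Vale.Agent.P167.FK
open Vale.Agent.P167.H199 (cang strand ret mem_strand loop_nx loop_iter ret_min ret_le ah at' hb
  cang_congr strand_congr strand_sub iter_congr sum_strand Returns)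
open Vale.Agent.P167.H685 (LE mem_LE nx_loc loop_loc)

variable {D I : Finset (ℤ × ℤ)} {ω ω' : Cfg} {θ : ℝ} {a a' : Ed → Bool → ℝ} {B : Set (ℤ × ℤ)}
  {ℓ : Finset Ed} {S : Finset Ed}

/-- The normalised factor of an outer strand. -/
noncomputable def wS (θ : ℝ) (I : Finset (ℤ × ℤ)) (a : Ed → Bool → ℝ) (ω : Cfg) (e : Ed) : ℝ :=
  Real.cos (cang plane θ a ω (strand (nx ω) (bS I) e)) / Real.sin θ

/-- The normalised factor of a loop. -/
noncomputable def fLp (θ : ℝ) (I : Finset (ℤ × ℤ)) (a : Ed → Bool → ℝ) (ω : Cfg) (ℓ : Finset Ed) : ℝ :=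
  (∏ e ∈ (bS I).filter (fun e => hdv e ∉ I ∧ e ∈ ℓ), wS θ I a ω e) / (2 * Real.cos θ)

theorem nS_eq (S : Finset Ed) (ω : Cfg) : nS S ω = (LE ω S).card := by
  unfold nS
  rw [← Set.ncard_coe_finset]
  congr 1
  ext ℓ
  rw [mem_coe, mem_LE, Set.mem_ofPred_eq, Finset.not_disjoint_iff]
  exact and_congr_right fun _ => ⟨fun ⟨x, h1, h2⟩ => ⟨x, h2, h1⟩, fun ⟨x, h1, h2⟩ => ⟨x, h2, h1⟩⟩

/-- A product over cut edges as a product over the loops. -/
theorem prod_by_loops (hg : Good ω) (S : Finset Ed) (p : Ed → Prop) [DecidablePred p]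
    (g : Ed → ℝ) :
    ∏ e ∈ S.filter p, g e = ∏ ℓ ∈ LE ω S, ∏ e ∈ S.filter (fun e => p e ∧ e ∈ ℓ), g e := by
  classical
  have h : S.filter p = (LE ω S).biUnion fun ℓ => S.filter (fun e => p e ∧ e ∈ ℓ) := by
    ext e
    simp only [mem_filter, mem_biUnion, mem_LE]
    constructor
    · rintro ⟨h1, h2⟩
      obtain ⟨ℓ, h3, h4⟩ := hg e
      exact ⟨ℓ, ⟨h3, e, h1, h4⟩, h1, h2, h4⟩
    · rintro ⟨ℓ, -, h1, h2, -⟩
      exact ⟨h1, h2⟩
  rw [h, prod_biUnion]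
  intro ℓ h1 ℓ' h2 hne
  rw [Function.onFun, Finset.disjoint_left]
  intro e h3 h4
  rw [mem_filter] at h3 h4
  exact hne (IsLoop.eq_of_mem (mem_LE.1 h1).1 (mem_LE.1 h2).1 h3.2.2 h4.2.2)

open Classical in
/-- **The functional without flow as a product over the loops which meet the cuts.** -/
theorem RT_loops (hg : Good ω) (hoff : ∀ e ∉ bS I, ∀ b, a e b = 0) (hs : Real.sin θ ≠ 0)
    (hc : Real.cos θ ≠ 0) :
    RT θ I a ω = (2 * Real.sin θ) ^ ((bS I).filter fun e => hdv e ∉ I).card *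
      ((2 * Real.cos θ) ^ ((pcs ω I).filter (IsLp I)).card)⁻¹ *
      ∏ ℓ ∈ LE ω (bS I), fLp θ I a ω ℓ := by
  have hl : (∏ᶠ ℓ ∈ {ℓ : Finset Ed | IsLoop ω ℓ ∧ ∀ e ∈ ℓ, e ∉ eds I},
      (2 * Real.cos (cang plane θ a ω ℓ)) / (2 * Real.cos θ)) = 1 := by
    apply finprod_mem_eq_one_of_forall_eq_one
    rintro ℓ ⟨h1, h3⟩
    rw [cos_loop_zero h1 (fun x hx => ?_), div_self (mul_ne_zero two_ne_zero hc)]
    have h4 : x ∉ bS I := fun h => h3 x hx (by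
      rw [mem_bS] at h
      rcases h with h | h
      · exact mem_eds.2 (Or.inl h.1)
      · exact mem_eds.2 (Or.inr h.2))
    rw [hoff x h4, hoff x h4, add_zero]
  have h1 : XoutQ θ I a ω = (2 * Real.sin θ) ^ ((bS I).filter fun e => hdv e ∉ I).card *
      ∏ e ∈ (bS I).filter (fun e => hdv e ∉ I), wS θ I a ω e := by
    unfold XoutQ wS
    rw [← prod_const, ← prod_mul_distrib]
    refine prod_congr rfl fun e _ => ?_
    field_simp
  unfold RT XoT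
  rw [hl, one_mul, h1, prod_by_loops hg, LD_eq, nS_eq, pow_add]
  unfold fLp
  rw [prod_div_distrib, prod_const]
  have h3 : (2 * Real.cos θ) ≠ 0 := mul_ne_zero two_ne_zero hc
  field_simp

/-! ### locality of the factor of a loop -/

theorem wS_congr (hl : IsLoop ω ℓ) (h : ∀ v ∈ vs ℓ, ω v = ω' v) {e : Ed} (he : e ∈ ℓ) :
    wS θ I a ω e = wS θ I a ω' e := by
  unfold wS
  rw [← strand_congr (S := bS I) fun k => iter_congr hl h he k]
  rw [cang_congr (fun x hx => h _ (mem_image_of_mem _ (strand_sub hl he _ hx))) θ]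

theorem fLp_congr (hl : IsLoop ω ℓ) (h : ∀ v ∈ vs ℓ, ω v = ω' v) :
    fLp θ I a ω ℓ = fLp θ I a ω' ℓ := by
  unfold fLp
  congr 1
  refine prod_congr rfl fun e he => ?_
  exact wS_congr hl h (mem_filter.1 he).2.2

/-- The loop visits `B`. -/
def VisL (B : Set (ℤ × ℤ)) (ℓ : Finset Ed) : Prop := ∃ x ∈ ℓ, hdv x ∈ B

open Classical in
/-- The product over the loops which visit `B`. -/
noncomputable def TB (θ : ℝ) (I : Finset (ℤ × ℤ)) (a : Ed → Bool → ℝ) (B : Set (ℤ × ℤ)) (ω : Cfg) :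
    ℝ := ∏ ℓ ∈ (LE ω (bS I)).filter (VisL B), fLp θ I a ω ℓ

open Classical in
/-- The product over the loops which do not visit `B`. -/
noncomputable def TO (θ : ℝ) (I : Finset (ℤ × ℤ)) (a : Ed → Bool → ℝ) (B : Set (ℤ × ℤ)) (ω : Cfg) :
    ℝ := ∏ ℓ ∈ (LE ω (bS I)).filter (fun ℓ => ¬ VisL B ℓ), fLp θ I a ω ℓ

theorem TB_mul_TO (B : Set (ℤ × ℤ)) (ω : Cfg) :
    ∏ ℓ ∈ LE ω (bS I), fLp θ I a ω ℓ = TB θ I a B ω * TO θ I a B ω := by
  classical
  unfold TB TO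
  rw [prod_filter_mul_prod_filter_not]

theorem vs_off (h : ∀ v ∉ B, ω v = ω' v) (hv : ¬ VisL B ℓ) : ∀ v ∈ vs ℓ, ω v = ω' v := by
  intro v hv'
  unfold vs at hv'
  obtain ⟨x, hx, rfl⟩ := mem_image.1 hv'
  exact h _ fun hb => hv ⟨x, hx, hb⟩

/-- The loops which do not visit `B` do not depend on the squares of `B`. -/
theorem TO_congr (h : ∀ v ∉ B, ω v = ω' v) : TO θ I a B ω = TO θ I a B ω' := by
  classical
  have h' : ∀ v ∉ B, ω' v = ω v := fun v hv => (h v hv).symm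
  have hs : (LE ω (bS I)).filter (fun ℓ => ¬ VisL B ℓ) =
      (LE ω' (bS I)).filter (fun ℓ => ¬ VisL B ℓ) := by
    ext ℓ
    simp only [mem_filter, mem_LE]
    constructor
    · rintro ⟨⟨h1, h2⟩, h3⟩
      exact ⟨⟨loop_loc h1 (vs_off h h3), h2⟩, h3⟩
    · rintro ⟨⟨h1, h2⟩, h3⟩
      exact ⟨⟨loop_loc h1 (vs_off h' h3), h2⟩, h3⟩
  unfold TO
  rw [← hs]
  refine prod_congr rfl fun ℓ hℓ => ?_
  obtain ⟨h1, h2⟩ := mem_filter.1 hℓ
  exact fLp_congr (mem_LE.1 h1).1 (vs_off h h2)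

/-- If the loops which visit `B` stay in `B'`, their product depends on the squares of `B'`. -/
theorem TB_congr {B' : Set (ℤ × ℤ)} (h : ∀ v ∈ B', ω v = ω' v)
    (h1 : ∀ ℓ, IsLoop ω ℓ → VisL B ℓ → ∀ v ∈ vs ℓ, v ∈ B')
    (h2 : ∀ ℓ, IsLoop ω' ℓ → VisL B ℓ → ∀ v ∈ vs ℓ, v ∈ B') :
    TB θ I a B ω = TB θ I a B ω' := by
  classical
  have hs : (LE ω (bS I)).filter (VisL B) = (LE ω' (bS I)).filter (VisL B) := by
    ext ℓ
    simp only [mem_filter, mem_LE]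
    constructor
    · rintro ⟨⟨h3, h4⟩, h5⟩
      exact ⟨⟨loop_loc h3 fun v hv => h v (h1 ℓ h3 h5 v hv), h4⟩, h5⟩
    · rintro ⟨⟨h3, h4⟩, h5⟩
      exact ⟨⟨loop_loc h3 fun v hv => (h v (h2 ℓ h3 h5 v hv)).symm, h4⟩, h5⟩
  unfold TB
  rw [← hs]
  refine prod_congr rfl fun ℓ hℓ => ?_
  obtain ⟨h3, h4⟩ := mem_filter.1 hℓ
  have h5 := (mem_LE.1 h3).1
  exact fLp_congr h5 fun v hv => h v (h1 ℓ h5 h4 v hv)

end Vale.Agent.P167.QX
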