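import Vale.Agent.P167.QX.Defs
import Vale.Agent.P167.QX.Strand

/-!
# P167, general `q`, block Q-XDL (X1): the closed cut polygon, pointwise identity
-/

namespace Vale.Agent.P167.QX

open Finset
open Vale.Agent.P167.A (plane plane_nx)
open Vale.Agent.P167.H199 (cang strand ret ah at' loop_nx)
open Vale.Agent.P167.E6 (IsPolygon Encloses)
open Vale.Agent.P167.H871 (Bd)
open Vale.Agent.P167.BR
open Vale.Agent.P167.H825 (dv)
open Vale.Agent.P167.XDL
open Vale.Agent.P167.FK (LD)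

variable {D : Finset (ℤ × ℤ)} {ω : Cfg} {e e' : Ed} {θ : ℝ} {n : ℕ} {q : ZMod n → ℤ × ℤ} {u : ℕ → ℤ}
  {ψ : ℕ → ℝ} {a : Ed → Bool → ℝ} {c : Ed → ℝ} {K : ℝ} {i j : ℕ}

theorem Str.sides (h : Str θ q D ψ a c ω e e' i j) :
    {k | k < n ∧ be q (k : ZMod n) ∈ piece ω D e} = {i, j} := by
  ext k
  simp only [Set.mem_ofPred_eq, Set.mem_insert_iff, Set.mem_singleton_iff]
  constructor
  · rintro ⟨h1, h2⟩
    exact h.uniq k h1 h2
  · rintro (rfl | rfl)
    · refine ⟨h.hi, ?_⟩
      have he : e ∈ eds D := by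
        have h1 : e' ∈ eds D := mem_eds.2 (Or.inr h.inn)
        have h2 := mem_piece.1 h.mem
        exact (mem_eds_of_eqvGen h2.2).2 h1
      rw [← h.ei]
      exact self_mem_piece he
    · exact ⟨h.hj, by rw [← h.ej]; exact h.mem⟩

theorem Str.lo_eq (h : Str θ q D ψ a c ω e e' i j) : lo q (piece ω D e) = min i j := by
  unfold lo
  rw [h.sides]
  apply le_antisymm
  · rcases le_total i j with h1 | h1
    · rw [min_eq_left h1]; exact Nat.sInf_le (Or.inl rfl)
    · rw [min_eq_right h1]; exact Nat.sInf_le (Or.inr rfl)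
  · rcases (Nat.sInf_mem (s := {i, j}) ⟨i, Or.inl rfl⟩) with h1 | h1 <;> rw [h1]
    · exact min_le_left _ _
    · exact min_le_right _ _

theorem Str.hi_eq (h : Str θ q D ψ a c ω e e' i j) : QX.hi q (piece ω D e) = max i j := by
  unfold QX.hi
  rw [h.sides]
  have hb : BddAbove ({i, j} : Set ℕ) := ⟨max i j, by
    rintro k (rfl | rfl)
    · exact le_max_left _ _
    · exact le_max_right _ _⟩
  apply le_antisymm
  · refine csSup_le ⟨i, Or.inl rfl⟩ ?_
    rintro k (rfl | rfl)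
    · exact le_max_left _ _
    · exact le_max_right _ _
  · rcases le_total i j with h1 | h1
    · rw [max_eq_right h1]; exact le_csSup hb (Or.inr rfl)
    · rw [max_eq_left h1]; exact le_csSup hb (Or.inl rfl)

/-- **The factor of a strand of `D`.** -/
theorem cos_strand (hq : IsPolygon q) (hD : Encloses q D)
    (hu : Bd (D : Set (ℤ × ℤ)) n (fun k => q (k : ZMod n)) u 1) (hg : GauQ θ q D u ψ a c K)
    (h1 : hdv e ∈ D) (h2 : tlv e ∉ D) :
    2 * Real.cos (cang plane θ a ω (strand (nx ω) (bS D) e)) =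
      wQ θ q D ψ (piece ω D e) (mass D (q 0) (dv c) (piece ω D e)) := by
  obtain ⟨e', i, j, h⟩ := exists_str (ω := ω) hq hD hu hg h1 h2
  have he : e ∈ eds D := mem_eds.2 (Or.inl h1)
  have hA := piece_mem_pcs (ω := ω) he
  have heA := self_mem_piece (ω := ω) he
  have hnl : ¬ IsLp D (piece ω D e) := fun h => h2 (h.tl hA heA)
  unfold wQ
  rw [if_neg hnl, h.lo_eq, h.hi_eq, h.ang]
  rcases lt_or_gt_of_ne h.ne with h3 | h3
  · rw [if_pos h3, max_eq_right h3.le, min_eq_left h3.le, Real.cos_neg]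
  · rw [if_neg (by omega), max_eq_left h3.le, min_eq_right h3.le]

/-- **The product over the strands of `D`.** -/
theorem prod_strands (hq : IsPolygon q) (hD : Encloses q D)
    (hu : Bd (D : Set (ℤ × ℤ)) n (fun k => q (k : ZMod n)) u 1) (hg : GauQ θ q D u ψ a c K)
    (ω : Cfg) [DecidablePred (IsLp D)] :
    ∏ e ∈ (bS D).filter (fun e => hdv e ∈ D),
      2 * Real.cos (cang plane θ a ω (strand (nx ω) (bS D) e)) =
      ∏ A ∈ (pcs ω D).filter (fun A => ¬ IsLp D A),
        wQ θ q D ψ A (mass D (q 0) (dv c) A) := by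
  have hmem : ∀ e ∈ (bS D).filter (fun e => hdv e ∈ D), hdv e ∈ D ∧ tlv e ∉ D := by
    intro e he
    rw [mem_filter, mem_bS] at he
    tauto
  rw [prod_congr rfl (fun e he => cos_strand hq hD hu hg (hmem e he).1 (hmem e he).2)]
  refine prod_bij (fun e _ => piece ω D e) ?_ ?_ ?_ ?_
  · intro e he
    obtain ⟨h1, h2⟩ := hmem e he
    have h3 : e ∈ eds D := mem_eds.2 (Or.inl h1)
    rw [mem_filter]
    exact ⟨piece_mem_pcs h3, fun h => h2 (h.tl (piece_mem_pcs h3) (self_mem_piece h3))⟩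
  · intro e he e' he' h
    obtain ⟨h1, h2⟩ := hmem e he
    obtain ⟨h1', h2'⟩ := hmem e' he'
    have h3 : e ∈ eds D := mem_eds.2 (Or.inl h1)
    have h3' : e' ∈ eds D := mem_eds.2 (Or.inl h1')
    refine entry_unique (piece_mem_pcs (ω := ω) h3) (self_mem_piece h3) ?_ h2 h2'
    rw [h]
    exact self_mem_piece h3'
  · intro A hA
    rw [mem_filter] at hA
    obtain ⟨e, he, h2⟩ := exists_entry hA.1 hA.2
    have h1 : hdv e ∈ D := (mem_eds.1 (subset_eds hA.1 he)).resolve_right h2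
    refine ⟨e, ?_, (eq_piece_of_mem hA.1 he).symm⟩
    rw [mem_filter, mem_bS]
    exact ⟨Or.inl ⟨h1, h2⟩, h1⟩
  · intro e _
    rfl

/-- The number of the loops which visit `D`. -/
theorem LD_eq (ω : Cfg) [DecidablePred (IsLp D)] :
    LD D ω = ((pcs ω D).filter (IsLp D)).card + nS (bS D) ω := by
  classical
  unfold LD nS
  have h1 : {ℓ : Finset Ed | IsLoop ω ℓ ∧ ∃ v ∈ vs ℓ, v ∈ D} =
      (((pcs ω D).filter (IsLp D) : Finset (Finset Ed)) : Set (Finset Ed)) ∪
        {ℓ | IsLoop ω ℓ ∧ ¬ Disjoint ℓ (bS D)} := by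
    ext ℓ
    simp only [Set.mem_ofPred_eq, Set.mem_union, mem_coe, mem_filter]
    constructor
    · rintro ⟨h1, v, hv, hvD⟩
      by_cases h2 : Disjoint ℓ (bS D)
      · left
        rcases loop_cases h1 h2 with h | h
        · exact h
        · exfalso
          unfold vs at hv
          obtain ⟨x, hx, rfl⟩ := mem_image.1 hv
          exact h x hx (mem_eds.2 (Or.inl hvD))
      · exact Or.inr ⟨h1, h2⟩
    · rintro (⟨h1, h2⟩ | ⟨h1, h2⟩)
      · obtain ⟨x, hx⟩ := pcs_nonempty h1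
        exact ⟨h2.isLoop h1, hdv x, mem_image_of_mem _ hx, h2 x hx⟩
      · refine ⟨h1, ?_⟩
        rw [Finset.not_disjoint_iff] at h2
        obtain ⟨x, hx, hxS⟩ := h2
        rw [mem_bS] at hxS
        rcases hxS with ⟨h3, _⟩ | ⟨h3, h4⟩
        · exact ⟨hdv x, mem_image_of_mem _ hx, h3⟩
        · -- the previous edge
          have himg : ℓ.image (nx ω) = ℓ := by
            apply eq_of_subset_of_card_le
            · intro y hy
              obtain ⟨z, hz, rfl⟩ := mem_image.1 hy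
              exact loop_nx h1 hz
            · rw [card_image_of_injective _ (s_nx ω).1]
          rw [← himg] at hx
          obtain ⟨y, hy, rfl⟩ := mem_image.1 hx
          rw [tlv_nx] at h4
          exact ⟨hdv y, mem_image_of_mem _ hy, h4⟩
  have hfin : {ℓ : Finset Ed | IsLoop ω ℓ ∧ ¬ Disjoint ℓ (bS D)}.Finite := by
    apply (Finset.finite_toSet (H685.LE ω (bS D))).subset
    intro ℓ hℓ
    rw [mem_coe, H685.mem_LE]
    refine ⟨hℓ.1, ?_⟩
    obtain ⟨x, hx, hxS⟩ := Finset.not_disjoint_iff.1 hℓ.2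
    exact ⟨x, hxS, hx⟩
  have hdis : Disjoint (((pcs ω D).filter (IsLp D) : Finset (Finset Ed)) : Set (Finset Ed))
      {ℓ : Finset Ed | IsLoop ω ℓ ∧ ¬ Disjoint ℓ (bS D)} := by
    rw [Set.disjoint_left]
    intro ℓ h2 h3
    rw [mem_coe, mem_filter] at h2
    exact h3.2 (lp_disj h2.1 h2.2)
  rw [h1, Set.ncard_union_eq hdis (Finset.finite_toSet _) hfin, Set.ncard_coe_finset]

/-- The product over the loops which do not meet the boundary. -/
theorem prod_loops (hq : IsPolygon q) (hD : Encloses q D) (hg : GauQ θ q D u ψ a c K)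
    (hθ : Real.cos θ ≠ 0) (ω : Cfg) [DecidablePred (IsLp D)] :
    (∏ᶠ ℓ ∈ {ℓ : Finset Ed | IsLoop ω ℓ ∧ Disjoint ℓ (bS D)},
      (2 * Real.cos (cang plane θ a ω ℓ)) / (2 * Real.cos θ)) =
      ∏ A ∈ (pcs ω D).filter (IsLp D),
        (2 * Real.cos (θ + mass D (q 0) (dv c) A)) / (2 * Real.cos θ) := by
  classical
  rw [← prod_congr rfl (f := fun A => (2 * Real.cos (cang plane θ a ω A)) / (2 * Real.cos θ))
    (fun A hA => by
      rw [cos_loop hq hD hg.off hg.sup (mem_filter.1 hA).1 (mem_filter.1 hA).2])]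
  apply finprod_mem_eq_prod_of_inter_mulSupport_eq
  ext ℓ
  simp only [Set.mem_inter_iff, Set.mem_ofPred_eq, Function.mem_mulSupport, mem_coe, mem_filter]
  constructor
  · rintro ⟨⟨h1, h2⟩, h3⟩
    refine ⟨?_, h3⟩
    rcases loop_cases h1 h2 with h | h
    · exact h
    · exfalso
      apply h3
      have hc0 : ∀ e ∈ ℓ, a e false + a e true = 0 := fun e he => by
        rw [hg.off e (Finset.disjoint_left.1 h2 he)]
        by_contra h4
        exact h e he (mem_eds.2 (Or.inl (hg.sup e h4).1))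
      rw [cos_loop_zero h1 hc0]
      exact div_self (mul_ne_zero two_ne_zero hθ)
  · rintro ⟨⟨h1, h2⟩, h3⟩
    exact ⟨⟨h2.isLoop h1, lp_disj h1 h2⟩, h3⟩

/-- **(X1)** The closed cut polygon: the weight of the loops which visit `D` times the cut functional
is the inner product times the product over the outer strands. -/
theorem xcQ (hq : IsPolygon q) (hD : Encloses q D)
    (hu : Bd (D : Set (ℤ × ℤ)) n (fun k => q (k : ZMod n)) u 1) (hg : GauQ θ q D u ψ a c K)
    (hθ : Real.cos θ ≠ 0) (ω : Cfg) :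
    (2 * Real.cos θ) ^ LD D ω * XcQ θ (bS D) a ω =
      XQ θ q D ψ (dv c) ω * XoutQ θ D a ω := by
  classical
  have h2 : (2 * Real.cos θ) ≠ 0 := mul_ne_zero two_ne_zero hθ
  unfold XcQ XoutQ XQ
  rw [prod_loops hq hD hg hθ ω, LD_eq, prod_div_distrib, prod_const, pow_add,
    ← prod_filter_mul_prod_filter_not (bS D) (fun e => hdv e ∈ D),
    prod_strands hq hD hu hg ω, ← prod_filter_mul_prod_filter_not (pcs ω D) (IsLp D)]
  have e1 : ∏ A ∈ (pcs ω D).filter (IsLp D), wQ θ q D ψ A (mass D (q 0) (dv c) A) =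
      ∏ A ∈ (pcs ω D).filter (IsLp D), 2 * Real.cos (θ + mass D (q 0) (dv c) A) := by
    refine prod_congr rfl fun A hA => ?_
    unfold wQ
    rw [if_pos (mem_filter.1 hA).2]
  rw [e1]
  have h3 : (2 * Real.cos θ) ^ ((pcs ω D).filter (IsLp D)).card ≠ 0 := pow_ne_zero _ h2
  have h4 : (2 * Real.cos θ) ^ nS (bS D) ω ≠ 0 := pow_ne_zero _ h2
  generalize ∏ A ∈ (pcs ω D).filter (IsLp D), 2 * Real.cos (θ + mass D (q 0) (dv c) A) = P1
  generalize ∏ A ∈ (pcs ω D).filter (fun A => ¬ IsLp D A),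
    wQ θ q D ψ A (mass D (q 0) (dv c) A) = P2
  generalize ∏ e ∈ (bS D).filter (fun e => ¬ hdv e ∈ D),
    2 * Real.cos (cang plane θ a ω (strand (nx ω) (bS D) e)) = P3
  generalize (2 * Real.cos θ) ^ ((pcs ω D).filter (IsLp D)).card = y1 at h3 ⊢
  generalize (2 * Real.cos θ) ^ nS (bS D) ω = y2 at h4 ⊢
  field_simp

end Vale.Agent.P167.QX
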