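import Vale.Agent.P167.QX.Ql
import Vale.Agent.P167.QX.Cut
import Vale.Agent.P167.XDL.Int

/-!
# P167, general `q`, block Q-XDL: the cut functional is bounded and quasi-local
-/

namespace Vale.Agent.P167.QX

open Finset Filter Topology MeasureTheory
open Vale.Agent.P167.A (plane plane_nx)
open Vale.Agent.P167.FK
open Vale.Agent.P167.H199 (cang strand ret mem_strand loop_nx loop_iter iter_congr strand_congr
  cang_congr strand_sub)
open Vale.Agent.P167.H685 (LE mem_LE nx_loc card_LE_le)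

variable {θ : ℝ} {S E : Finset Ed} {a : Ed → Bool → ℝ}

theorem XcQ_eq (ω : Cfg) (ha : ∀ e ∉ E, ∀ b, a e b = 0) (hθ : Real.cos θ ≠ 0) :
    XcQ θ S a ω = (∏ ℓ ∈ (LE ω E).filter (fun ℓ => Disjoint ℓ S),
      (2 * Real.cos (cang plane θ a ω ℓ)) / (2 * Real.cos θ)) *
      ((2 * Real.cos θ) ^ nS S ω)⁻¹ *
      ∏ e ∈ S, 2 * Real.cos (cang plane θ a ω (strand (nx ω) S e)) := by
  classical
  unfold XcQ
  congr 2
  apply finprod_mem_eq_prod_of_inter_mulSupport_eq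
  ext ℓ
  simp only [Set.mem_inter_iff, Set.mem_ofPred_eq, Function.mem_mulSupport, mem_coe, mem_filter,
    mem_LE]
  constructor
  · rintro ⟨⟨h1, h3⟩, h2⟩
    refine ⟨⟨⟨h1, ?_⟩, h3⟩, h2⟩
    by_contra hn
    apply h2
    push Not at hn
    rw [cos_loop_zero h1 fun x hx => by
      rw [ha x fun hE => hn x hE hx, ha x fun hE => hn x hE hx, add_zero]]
    exact div_self (mul_ne_zero two_ne_zero hθ)
  · rintro ⟨⟨⟨h1, _⟩, h3⟩, h2⟩
    exact ⟨⟨h1, h3⟩, h2⟩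

theorem abs_XcQ_le (ω : Cfg) (ha : ∀ e ∉ E, ∀ b, a e b = 0) (hθ : 1 ≤ 2 * Real.cos θ) :
    |XcQ θ S a ω| ≤ 2 ^ E.card * 2 ^ S.card := by
  classical
  have h0 : (0 : ℝ) < 2 * Real.cos θ := by linarith
  have hc : Real.cos θ ≠ 0 := by intro h; rw [h] at h0; norm_num at h0
  rw [XcQ_eq ω ha hc, abs_mul, abs_mul, abs_prod, abs_prod]
  refine mul_le_mul ?_ ?_ (prod_nonneg fun _ _ => abs_nonneg _) (by positivity)
  · have h1 : |((2 * Real.cos θ) ^ nS S ω)⁻¹| ≤ 1 := by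
      rw [abs_inv, abs_of_pos (pow_pos h0 _)]
      exact inv_le_one_of_one_le₀ (one_le_pow₀ hθ)
    have h2 : ∏ ℓ ∈ (LE ω E).filter (fun ℓ => Disjoint ℓ S),
        |(2 * Real.cos (cang plane θ a ω ℓ)) / (2 * Real.cos θ)| ≤ 2 ^ E.card := by
      calc ∏ ℓ ∈ (LE ω E).filter (fun ℓ => Disjoint ℓ S),
          |(2 * Real.cos (cang plane θ a ω ℓ)) / (2 * Real.cos θ)|
          ≤ ∏ _ℓ ∈ (LE ω E).filter (fun ℓ => Disjoint ℓ S), (2 : ℝ) :=
            prod_le_prod (fun _ _ => abs_nonneg _) fun ℓ _ => by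
              rw [abs_div, abs_of_pos h0, div_le_iff₀ h0]
              refine (H199.abs_two_cos _).trans ?_
              linarith
        _ = 2 ^ ((LE ω E).filter (fun ℓ => Disjoint ℓ S)).card := by rw [prod_const]
        _ ≤ 2 ^ E.card := pow_le_pow_right₀ (by norm_num)
            ((card_filter_le _ _).trans (card_LE_le ω E))
    calc _ ≤ (2 : ℝ) ^ E.card * 1 := mul_le_mul h2 h1 (abs_nonneg _) (by positivity)
      _ = _ := mul_one _
  · calc ∏ e ∈ S, |2 * Real.cos (cang plane θ a ω (strand (nx ω) S e))|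
        ≤ ∏ _e ∈ S, (2 : ℝ) := prod_le_prod (fun _ _ => abs_nonneg _) fun _ _ => H199.abs_two_cos _
      _ = 2 ^ S.card := by rw [prod_const]

/-- The strand factor of an edge of `E`. -/
theorem strand_factor {ω ω' : Cfg} (hω : Good ω)
    (h : ∀ ℓ, IsLoop ω ℓ → (∃ e ∈ E, e ∈ ℓ) → ∀ v ∈ vs ℓ, ω' v = ω v) {e : Ed} (he : e ∈ E) :
    cang plane θ a ω' (strand (nx ω') S e) = cang plane θ a ω (strand (nx ω) S e) := by
  obtain ⟨ℓ, h1, h2⟩ := hω e
  have h3 : ∀ v ∈ vs ℓ, ω v = ω' v := fun v hv => (h ℓ h1 ⟨e, he, h2⟩ v hv).symm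
  have h4 : strand (nx ω) S e = strand (nx ω') S e :=
    strand_congr fun k => iter_congr h1 h3 h2 k
  rw [← h4]
  refine (cang_congr (fun x hx => h3 _ ?_) θ).symm
  exact mem_image_of_mem _ (strand_sub h1 h2 S hx)

theorem ql_strand (θ : ℝ) (S : Finset Ed) (a : Ed → Bool → ℝ) (e : Ed) :
    QL (fun ω => cang plane θ a ω (strand (nx ω) S e)) :=
  QL.of_loops {e} fun _ _ hω _ h => strand_factor hω h (mem_singleton_self e)

theorem ql_nS (S : Finset Ed) : QL (nS S) := by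
  refine QL.of_loops S fun ω ω' hω hω' h => ?_
  unfold nS
  congr 1
  ext ℓ
  constructor
  · rintro ⟨h1, h2⟩
    obtain ⟨x, hx, hxS⟩ := Finset.not_disjoint_iff.1 h2
    exact ⟨(loops_iff hω h ⟨x, hxS, hx⟩).1 h1, h2⟩
  · rintro ⟨h1, h2⟩
    obtain ⟨x, hx, hxS⟩ := Finset.not_disjoint_iff.1 h2
    exact ⟨(loops_iff hω h ⟨x, hxS, hx⟩).2 h1, h2⟩

/-- **The cut functional is quasi-local.** -/
theorem ql_XcQ (ha : ∀ e ∉ E, ∀ b, a e b = 0) (hθ : Real.cos θ ≠ 0) : QL (XcQ θ S a) := by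
  classical
  have h1 : QL (fun ω => ∏ ℓ ∈ (LE ω E).filter (fun ℓ => Disjoint ℓ S),
      (2 * Real.cos (cang plane θ a ω ℓ)) / (2 * Real.cos θ)) := by
    refine QL.of_loops E fun ω ω' hω hω' h => ?_
    have hL : LE ω' E = LE ω E := by
      ext ℓ
      rw [mem_LE, mem_LE]
      constructor
      · rintro ⟨h1, h2⟩
        exact ⟨(loops_iff hω h h2).1 h1, h2⟩
      · rintro ⟨h1, h2⟩
        exact ⟨(loops_iff hω h h2).2 h1, h2⟩
    rw [hL]
    refine prod_congr rfl fun ℓ hℓ => ?_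
    obtain ⟨h2, h3⟩ := mem_LE.1 (mem_filter.1 hℓ).1
    rw [cang_congr (fun x hx => h ℓ h2 h3 _ (mem_image_of_mem _ hx)) θ]
  have h2 : QL (fun ω => ((2 * Real.cos θ) ^ nS S ω)⁻¹) :=
    (ql_nS S).comp fun k => ((2 * Real.cos θ) ^ k)⁻¹
  have h3 : QL (fun ω => ∏ e ∈ S, 2 * Real.cos (cang plane θ a ω (strand (nx ω) S e))) :=
    QL.prod S fun e _ => (ql_strand θ S a e).comp fun x => 2 * Real.cos x
  exact ((h1.mul h2).mul h3).congr fun ω _ => (XcQ_eq ω ha hθ).symm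

theorem ql_XoutQ (D : Finset (ℤ × ℤ)) : QL (XoutQ θ D a) :=
  QL.prod _ fun e _ => (ql_strand θ (XDL.bS D) a e).comp fun x => 2 * Real.cos x

end Vale.Agent.P167.QX
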