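import Vale.Agent.P167.QX.ExtPot

/-!
# P167, general `q`, (T2): the outside of a rectangle is connected
-/

namespace Vale.Agent.P167.QX

theorem const_le {f : ℤ → ℤ} {m : ℤ} (h : ∀ x < m, f x = f (x + 1)) : ∀ x ≤ m, f x = f m := by
  intro x hx
  obtain ⟨k, rfl⟩ : ∃ k : ℕ, x = m - k := ⟨(m - x).toNat, by omega⟩
  clear hx
  induction k with
  | zero => simp
  | succ k ih =>
    rw [h (m - ((k + 1 : ℕ) : ℤ)) (by push_cast; omega), ← ih]
    congr 1
    push_cast
    ring

theorem const_ge {f : ℤ → ℤ} {m : ℤ} (h : ∀ x, m ≤ x → f x = f (x + 1)) : ∀ x, m ≤ x → f x = f m := by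
  intro x hx
  obtain ⟨k, rfl⟩ : ∃ k : ℕ, x = m + k := ⟨(x - m).toNat, by omega⟩
  clear hx
  induction k with
  | zero => simp
  | succ k ih =>
    rw [← ih, h (m + k) (by omega)]
    congr 1
    push_cast
    ring

theorem extConn_rect {I : Finset (ℤ × ℤ)} {a b c d : ℤ}
    (hI : ∀ v, v ∈ I ↔ (a ≤ v.1 ∧ v.1 ≤ b) ∧ c ≤ v.2 ∧ v.2 ≤ d) : ExtConn I := by
  intro g hg
  have hor : ∀ x y : ℤ, ((x, y - 1) ∉ I ∨ (x, y) ∉ I) → g (x, y) = g (x + 1, y) := by
    intro x y h
    have h1 := hg (Sum.inr (x, y - 1))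
    simp only [hdv, tlv, ls, rs] at h1
    split_ifs at h1
    · simp only [sub_add_cancel] at h1
      exact (h1 h).symm
    · simp only [sub_add_cancel] at h1
      exact h1 h.symm
  have ver : ∀ x y : ℤ, ((x - 1, y) ∉ I ∨ (x, y) ∉ I) → g (x, y) = g (x, y + 1) := by
    intro x y h
    have h1 := hg (Sum.inl (x - 1, y))
    simp only [hdv, tlv, ls, rs] at h1
    split_ifs at h1
    · simp only [sub_add_cancel] at h1
      exact (h1 h.symm).symm
    · simp only [sub_add_cancel] at h1
      exact h1 h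
  have hL : ∀ x ≤ a, ∀ y, g (x, y) = g (a, c) := by
    intro x hx y
    rw [const_le (f := fun x => g (x, y)) (m := a) (fun x hx => hor x y
      (Or.inr fun h => by rw [hI] at h; simp only at h; omega)) x hx]
    have hv : ∀ y, g (a, y) = g (a, y + 1) := fun y => ver a y
      (Or.inl fun h => by rw [hI] at h; simp only at h; omega)
    rcases le_total y c with h | h
    · exact const_le (f := fun y => g (a, y)) (fun y _ => hv y) y h
    · exact const_ge (f := fun y => g (a, y)) (fun y _ => hv y) y h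
  have hB : ∀ y ≤ c, ∀ x, g (x, y) = g (a, c) := by
    intro y hy x
    rw [const_le (f := fun y => g (x, y)) (m := c) (fun y hy => ver x y
      (Or.inr fun h => by rw [hI] at h; simp only at h; omega)) y hy]
    have hv : ∀ x, g (x, c) = g (x + 1, c) := fun x => hor x c
      (Or.inl fun h => by rw [hI] at h; simp only at h; omega)
    rcases le_total x a with h | h
    · exact const_le (f := fun x => g (x, c)) (fun x _ => hv x) x h
    · exact const_ge (f := fun x => g (x, c)) (fun x _ => hv x) x h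
  have hR : ∀ x, b + 1 ≤ x → ∀ y, g (x, y) = g (a, c) := by
    intro x hx y
    rw [← hB c le_rfl x]
    have hv : ∀ y, g (x, y) = g (x, y + 1) := fun y => ver x y
      (Or.inr fun h => by rw [hI] at h; simp only at h; omega)
    rcases le_total y c with h | h
    · exact const_le (f := fun y => g (x, y)) (fun y _ => hv y) y h
    · exact const_ge (f := fun y => g (x, y)) (fun y _ => hv y) y h
  have hT : ∀ y, d + 1 ≤ y → ∀ x, g (x, y) = g (a, c) := by
    intro y hy x
    rw [← hL a le_rfl y]
    have hv : ∀ x, g (x, y) = g (x + 1, y) := fun x => hor x y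
      (Or.inr fun h => by rw [hI] at h; simp only at h; omega)
    rcases le_total x a with h | h
    · exact const_le (f := fun x => g (x, y)) (fun x _ => hv x) x h
    · exact const_ge (f := fun x => g (x, y)) (fun x _ => hv x) x h
  have hall : ∀ z : ℤ × ℤ, (z.1 ≤ a ∨ b + 1 ≤ z.1 ∨ z.2 ≤ c ∨ d + 1 ≤ z.2) → g z = g (a, c) := by
    rintro ⟨x, y⟩ h
    rcases h with h | h | h | h
    · exact hL x h y
    · exact hR x h y
    · exact hB y h x
    · exact hT y h x
  refine ⟨g (a, c), fun x hx => ?_⟩
  rcases x with ⟨x, y⟩ | ⟨x, y⟩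
  · simp only [hdv, tlv, hI] at hx
    simp only [ls, rs]
    constructor <;> apply hall <;> split_ifs at hx ⊢ <;> simp only at hx ⊢ <;> omega
  · simp only [hdv, tlv, hI] at hx
    simp only [ls, rs]
    constructor <;> apply hall <;> split_ifs at hx ⊢ <;> simp only at hx ⊢ <;> omega

end Vale.Agent.P167.QX
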