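import Vale.Agent.P167.QX.TS

/-!
# P167, general `q`, (TRAP): a loop with a small excursion of closed type is trapped

`I` is a thin set of squares (a row). If an excursion of the loop which stays in the box `Bx p q` starts
and ends at closed squares and has its bounded side on the left, then the whole loop stays in the box,
visits only closed squares of `I`, and no other excursion of the loop is of closed type. The same with
open squares and the right side.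
-/

namespace Vale.Agent.P167.QX

open Finset
open Vale.Agent.P167.BR
open Vale.Agent.P167.XDL (bS mem_bS)
open Vale.Agent.P167.FK
open Vale.Agent.P167.H199 (strand ret mem_strand loop_nx loop_iter ret_min ret_le Returns)

variable {I : Finset (ℤ × ℤ)} {ω : Cfg} {ℓ A : Finset Ed} {e e' y : Ed} {φ φ' : ℤ × ℤ → ℤ} {σ : ℤ}
  {p q z : ℤ × ℤ}

theorem const_leA {f : ℤ → ℤ} {m : ℤ} (h : ∀ x < m, f x = f (x + 1)) : ∀ x ≤ m, f x = f m := by
  intro x hx
  obtain ⟨k, rfl⟩ : ∃ k : ℕ, x = m - k := ⟨(m - x).toNat, by omega⟩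
  clear hx
  induction k with
  | zero => simp
  | succ k ih =>
    rw [h (m - ((k + 1 : ℕ) : ℤ)) (by push_cast; omega), ← ih]
    congr 1
    push_cast
    ring

theorem const_geA {f : ℤ → ℤ} {m : ℤ} (h : ∀ x, m ≤ x → f x = f (x + 1)) : ∀ x, m ≤ x → f x = f m := by
  intro x hx
  obtain ⟨k, rfl⟩ : ∃ k : ℕ, x = m + k := ⟨(x - m).toNat, by omega⟩
  clear hx
  induction k with
  | zero => simp
  | succ k ih =>
    rw [← ih, h (m + k) (by omega)]
    congr 1
    push_cast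
    ring

/-- The set is thin (contained in a line of squares). -/
def Thin (I : Finset (ℤ × ℤ)) : Prop := (∃ c, ∀ v ∈ I, v.2 = c) ∨ ∃ c, ∀ v ∈ I, v.1 = c

/-- The squares of the box with the corners `p`, `q`. -/
noncomputable def Bx (p q : ℤ × ℤ) : Finset (ℤ × ℤ) := Ico p.1 q.1 ×ˢ Ico p.2 q.2

/-- The site is in the open box. -/
def Ins (p q : ℤ × ℤ) (z : ℤ × ℤ) : Prop := (p.1 < z.1 ∧ z.1 < q.1) ∧ p.2 < z.2 ∧ z.2 < q.2

theorem mem_Bx {v : ℤ × ℤ} : v ∈ Bx p q ↔ (p.1 ≤ v.1 ∧ v.1 < q.1) ∧ p.2 ≤ v.2 ∧ v.2 < q.2 := by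
  unfold Bx
  rw [mem_product, mem_Ico, mem_Ico]

theorem Bq_eq (x : ℤ × ℤ) (R : ℤ) : Bq x R = Bx (x.1 - R, x.2 - R) (x.1 + R, x.2 + R) := rfl

/-- A square at a site of the open box is in the box. -/
theorem bq_of_ins (hz : Ins p q z) {v : ℤ × ℤ} (h1 : v.1 = z.1 ∨ v.1 = z.1 - 1)
    (h2 : v.2 = z.2 ∨ v.2 = z.2 - 1) : v ∈ Bx p q := by
  rw [mem_Bx]
  obtain ⟨⟨a, b⟩, c, f⟩ := hz
  omega

/-- The squares at an edge and the sites of the edge. -/
theorem corners (y : Ed) :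
    (((hdv y).1 = (ls y).1 ∨ (hdv y).1 = (ls y).1 - 1) ∧
      ((hdv y).2 = (ls y).2 ∨ (hdv y).2 = (ls y).2 - 1)) ∧
    (((tlv y).1 = (ls y).1 ∨ (tlv y).1 = (ls y).1 - 1) ∧
      ((tlv y).2 = (ls y).2 ∨ (tlv y).2 = (ls y).2 - 1)) ∧
    (((hdv y).1 = (rs y).1 ∨ (hdv y).1 = (rs y).1 - 1) ∧
      ((hdv y).2 = (rs y).2 ∨ (hdv y).2 = (rs y).2 - 1)) ∧
    (((tlv y).1 = (rs y).1 ∨ (tlv y).1 = (rs y).1 - 1) ∧
      ((tlv y).2 = (rs y).2 ∨ (tlv y).2 = (rs y).2 - 1)) := by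
  rcases y with ⟨a, b⟩ | ⟨a, b⟩ <;> by_cases h : Even (a + b) <;> simp [hdv, tlv, ls, rs, h]

/-- No jump of the potential across a horizontal lattice edge. -/
theorem pot_hor (hφ : ExtPot I A σ φ) {a b : ℤ} (h : (a, b - 1) ∉ I ∨ (a, b) ∉ I)
    (hA : ∀ y ∈ A, (hdv y ≠ (a, b - 1) ∧ tlv y ≠ (a, b - 1)) ∨ (hdv y ≠ (a, b) ∧ tlv y ≠ (a, b))) :
    φ (a, b) = φ (a + 1, b) := by
  have h1 := hφ.jump (Sum.inr (a, b - 1))
  have h2 : (Sum.inr (a, b - 1) : Ed) ∉ A := by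
    intro hy
    have := hA _ hy
    simp only [hdv, tlv] at this
    split_ifs at this <;> simp at this
  rw [if_neg h2] at h1
  simp only [hdv, tlv, ls, rs] at h1
  split_ifs at h1
  · simp only [sub_add_cancel] at h1
    have := h1 h
    omega
  · simp only [sub_add_cancel] at h1
    have := h1 h.symm
    omega

/-- No jump of the potential across a vertical lattice edge. -/
theorem pot_ver (hφ : ExtPot I A σ φ) {a b : ℤ} (h : (a - 1, b) ∉ I ∨ (a, b) ∉ I)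
    (hA : ∀ y ∈ A, (hdv y ≠ (a - 1, b) ∧ tlv y ≠ (a - 1, b)) ∨ (hdv y ≠ (a, b) ∧ tlv y ≠ (a, b))) :
    φ (a, b) = φ (a, b + 1) := by
  have h1 := hφ.jump (Sum.inl (a - 1, b))
  have h2 : (Sum.inl (a - 1, b) : Ed) ∉ A := by
    intro hy
    have := hA _ hy
    simp only [hdv, tlv] at this
    split_ifs at this <;> simp at this
  rw [if_neg h2] at h1
  simp only [hdv, tlv, ls, rs] at h1
  split_ifs at h1
  · simp only [sub_add_cancel] at h1
    have := h1 h.symm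
    omega
  · simp only [sub_add_cancel] at h1
    have := h1 h
    omega

/-- **The potential vanishes off the open box.** -/
theorem ins_of_pot (hI : Thin I) (hφ : ExtPot I A σ φ)
    (hA : ∀ y ∈ A, hdv y ∈ Bx p q ∧ tlv y ∈ Bx p q) (hne : ∃ v ∈ I, v ∈ Bx p q) (hz : φ z ≠ 0) :
    Ins p q z := by
  obtain ⟨R, hR⟩ := hφ.far
  obtain ⟨v0, hv0, hv0B⟩ := hne
  rw [mem_Bx] at hv0B
  have nb : ∀ w : ℤ × ℤ, w ∉ Bx p q → ∀ y ∈ A, hdv y ≠ w ∧ tlv y ≠ w := fun w hw y hy =>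
    ⟨fun h => hw (h ▸ (hA y hy).1), fun h => hw (h ▸ (hA y hy).2)⟩
  -- rays
  have right : q.1 ≤ z.1 → (∀ a, z.1 ≤ a → (a, z.2 - 1) ∉ I ∨ (a, z.2) ∉ I) → φ z = 0 := by
    intro h1 h2
    have h3 : ∀ a, z.1 ≤ a → φ (a, z.2) = φ (a + 1, z.2) := fun a ha =>
      pot_hor hφ (h2 a ha) fun y hy => Or.inr (nb _ (by rw [mem_Bx]; simp only; omega) y hy)
    have h4 := const_geA h3 (z.1 + (|R| + |z.1| + 1)) (by have := abs_nonneg R; have := abs_nonneg z.1; omega)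
    rw [hR (z.1 + (|R| + |z.1| + 1), z.2) (Or.inl (by
      have := neg_abs_le z.1; have := le_abs_self R; have := abs_nonneg R
      rw [abs_of_nonneg] <;> simp only <;> omega))] at h4
    exact h4.symm
  have left : z.1 ≤ p.1 → (∀ a, a < z.1 → (a, z.2 - 1) ∉ I ∨ (a, z.2) ∉ I) → φ z = 0 := by
    intro h1 h2
    have h3 : ∀ a, a < z.1 → φ (a, z.2) = φ (a + 1, z.2) := fun a ha =>
      pot_hor hφ (h2 a ha) fun y hy => Or.inr (nb _ (by rw [mem_Bx]; simp only; omega) y hy)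
    have h4 := const_leA h3 (z.1 - (|R| + |z.1| + 1)) (by have := abs_nonneg R; have := abs_nonneg z.1; omega)
    rw [hR (z.1 - (|R| + |z.1| + 1), z.2) (Or.inl (by
      have := le_abs_self z.1; have := le_abs_self R; have := abs_nonneg R
      rw [abs_of_nonpos] <;> simp only <;> omega))] at h4
    exact h4.symm
  have up : q.2 ≤ z.2 → (∀ b, z.2 ≤ b → (z.1 - 1, b) ∉ I ∨ (z.1, b) ∉ I) → φ z = 0 := by
    intro h1 h2
    have h3 : ∀ b, z.2 ≤ b → φ (z.1, b) = φ (z.1, b + 1) := fun b hb =>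
      pot_ver hφ (h2 b hb) fun y hy => Or.inr (nb _ (by rw [mem_Bx]; simp only; omega) y hy)
    have h4 := const_geA h3 (z.2 + (|R| + |z.2| + 1)) (by have := abs_nonneg R; have := abs_nonneg z.2; omega)
    rw [hR (z.1, z.2 + (|R| + |z.2| + 1)) (Or.inr (by
      have := neg_abs_le z.2; have := le_abs_self R; have := abs_nonneg R
      rw [abs_of_nonneg] <;> simp only <;> omega))] at h4
    exact h4.symm
  have down : z.2 ≤ p.2 → (∀ b, b < z.2 → (z.1 - 1, b) ∉ I ∨ (z.1, b) ∉ I) → φ z = 0 := by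
    intro h1 h2
    have h3 : ∀ b, b < z.2 → φ (z.1, b) = φ (z.1, b + 1) := fun b hb =>
      pot_ver hφ (h2 b hb) fun y hy => Or.inr (nb _ (by rw [mem_Bx]; simp only; omega) y hy)
    have h4 := const_leA h3 (z.2 - (|R| + |z.2| + 1)) (by have := abs_nonneg R; have := abs_nonneg z.2; omega)
    rw [hR (z.1, z.2 - (|R| + |z.2| + 1)) (Or.inr (by
      have := le_abs_self z.2; have := le_abs_self R; have := abs_nonneg R
      rw [abs_of_nonpos] <;> simp only <;> omega))] at h4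
    exact h4.symm
  unfold Ins
  rcases hI with ⟨c, hc⟩ | ⟨c, hc⟩
  · have hv := hc v0 hv0
    have k1 : ∀ a : ℤ, (a, z.2 - 1) ∉ I ∨ (a, z.2) ∉ I := by
      intro a
      by_contra h
      push Not at h
      have g1 := hc _ h.1
      have g2 := hc _ h.2
      simp only at g1 g2
      omega
    have k2 : ∀ b : ℤ, b ≠ c → (z.1 - 1, b) ∉ I := fun b hb h => hb (hc _ h)
    refine ⟨⟨?_, ?_⟩, ?_, ?_⟩
    · by_contra h
      exact hz (left (by omega) fun a _ => k1 a)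
    · by_contra h
      exact hz (right (by omega) fun a _ => k1 a)
    · by_contra h
      exact hz (down (by omega) fun b hb => Or.inl (k2 b (by omega)))
    · by_contra h
      exact hz (up (by omega) fun b hb => Or.inl (k2 b (by omega)))
  · have hv := hc v0 hv0
    have k1 : ∀ b : ℤ, (z.1 - 1, b) ∉ I ∨ (z.1, b) ∉ I := by
      intro b
      by_contra h
      push Not at h
      have g1 := hc _ h.1
      have g2 := hc _ h.2
      simp only at g1 g2
      omega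
    have k2 : ∀ a : ℤ, a ≠ c → (a, z.2 - 1) ∉ I := fun a ha h => ha (hc _ h)
    refine ⟨⟨?_, ?_⟩, ?_, ?_⟩
    · by_contra h
      exact hz (left (by omega) fun a ha => Or.inl (k2 a (by omega)))
    · by_contra h
      exact hz (right (by omega) fun a ha => Or.inl (k2 a (by omega)))
    · by_contra h
      exact hz (down (by omega) fun b _ => k1 b)
    · by_contra h
      exact hz (up (by omega) fun b _ => k1 b)

/-! ### chains along the sides of the squares of one colour -/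

/-- The two sites of a boundary edge of `I` whose square in `I` has the colour `b`. -/
def Chn (I : Finset (ℤ × ℤ)) (ω : Cfg) (b : Bool) (z z' : ℤ × ℤ) : Prop :=
  ∃ y, ((hdv y ∈ I ∧ tlv y ∉ I ∧ ω (hdv y) = b) ∨ (tlv y ∈ I ∧ hdv y ∉ I ∧ ω (tlv y) = b)) ∧
    ((z = ls y ∧ z' = rs y) ∨ (z = rs y ∧ z' = ls y))

/-- The sites of the squares of colour `b` are connected, along boundary sides of squares of colour
`b`, to sites off the open box. -/
def Esc (I : Finset (ℤ × ℤ)) (ω : Cfg) (b : Bool) (p q : ℤ × ℤ) : Prop :=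
  ∀ y, hdv y ∈ I → ω (hdv y) = b →
    (∃ z', Relation.ReflTransGen (Chn I ω b) (ls y) z' ∧ ¬ Ins p q z') ∧
      ∃ z', Relation.ReflTransGen (Chn I ω b) (rs y) z' ∧ ¬ Ins p q z'

/-- The edges of an excursion at `I` are its ends. -/
theorem exc_bS (hy : y ∈ exc I ω e) (hyS : y ∈ bS I) : y = e ∨ y = lst I ω e := by
  obtain ⟨k, hk, rfl⟩ := mem_exc.1 hy
  rcases Nat.eq_zero_or_pos k with rfl | h0
  · exact Or.inl rfl
  · right
    rcases hk.lt_or_eq with h | h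
    · exact absurd hyS (ret_min h0 h)
    · unfold lst
      rw [h]

/-- The potential is constant along chains of the other colour. -/
theorem pot_chn {b : Bool} (h2 : tlv e ∈ I) (h2' : hdv (lst I ω e) ∈ I) (h1 : hdv e ∉ I)
    (h1' : tlv (lst I ω e) ∉ I) (hc1 : ω (tlv e) ≠ b) (hc2 : ω (hdv (lst I ω e)) ≠ b)
    (hφ : ExtPot I (exc I ω e) σ φ) {z z' : ℤ × ℤ} (h : Relation.ReflTransGen (Chn I ω b) z z') :
    φ z = φ z' := by
  induction h with
  | refl => rfl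
  | tail _ h ih =>
    rw [ih]
    obtain ⟨y, hy, hz⟩ := h
    have hj : φ (ls y) = φ (rs y) := by
      have hyA : y ∉ exc I ω e := by
        intro hyA
        have hyS : y ∈ bS I := by
          rw [mem_bS]
          rcases hy with ⟨a, b, -⟩ | ⟨a, b, -⟩
          · exact Or.inl ⟨a, b⟩
          · exact Or.inr ⟨b, a⟩
        rcases exc_bS hyA hyS with rfl | rfl
        · rcases hy with ⟨a, b, c⟩ | ⟨a, b, c⟩
          · exact h1 a
          · exact hc1 c
        · rcases hy with ⟨a, b, c⟩ | ⟨a, b, c⟩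
          · exact hc2 c
          · exact h1' a
      have := hφ.jump y (by
        rcases hy with ⟨_, b, _⟩ | ⟨_, b, _⟩
        · exact Or.inr b
        · exact Or.inl b)
      rw [if_neg hyA, add_zero] at this
      exact this
    rcases hz with ⟨rfl, rfl⟩ | ⟨rfl, rfl⟩
    · exact hj
    · exact hj.symm

theorem lst_in (h1 : hdv e ∉ I) (hr : Returns (nx ω) (bS I) e) :
    hdv (lst I ω e) ∈ I ∧ tlv (lst I ω e) ∉ I := exc_last h1 hr

theorem exc_box {B : Finset (ℤ × ℤ)} (hB : InB B I ω e) : ∀ y ∈ exc I ω e, hdv y ∈ B ∧ tlv y ∈ B := by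
  intro y hy
  obtain ⟨k, hk, rfl⟩ := mem_exc.1 hy
  refine ⟨hB.2.2 k hk, ?_⟩
  rcases Nat.eq_zero_or_pos k with rfl | h0
  · exact hB.2.1
  · obtain ⟨j, rfl⟩ : ∃ j, k = j + 1 := ⟨k - 1, by omega⟩
    rw [Function.iterate_succ_apply', tlv_nx]
    exact hB.2.2 j (by omega)

/-! ### the loop is trapped -/

/-- The potential of a small excursion between closed squares vanishes at the sites of the open
squares (and conversely). -/
theorem pot_zero {b : Bool} (hI : Thin I) (h1 : hdv e ∉ I) (h2 : tlv e ∈ I) (hB : InB (Bx p q) I ω e)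
    (hφ : ExtPot I (exc I ω e) σ φ) (hc1 : ω (tlv e) ≠ b) (hc2 : ω (hdv (lst I ω e)) ≠ b)
    (hesc : Esc I ω b p q) (hy : hdv y ∈ I) (hyb : ω (hdv y) = b) : φ (ls y) = 0 ∧ φ (rs y) = 0 := by
  obtain ⟨g1, g2⟩ := lst_in h1 hB.1
  obtain ⟨⟨z, hz1, hz2⟩, z', hz3, hz4⟩ := hesc y hy hyb
  have key : ∀ z, ¬ Ins p q z → φ z = 0 := fun z hz => by
    by_contra h
    exact hz (ins_of_pot hI hφ (exc_box hB) ⟨tlv e, h2, hB.2.1⟩ h)
  rw [pot_chn h2 g1 h1 g2 hc1 hc2 hφ hz1, pot_chn h2 g1 h1 g2 hc1 hc2 hφ hz3]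
  exact ⟨key _ hz2, key _ hz4⟩

theorem pot_ls' (hcl : ∀ y ∈ ℓ, hdv y ∈ I → φ (ls y) = (1 + σ) / 2 → ω (hdv y) = false)
    (hl : IsLoop ω ℓ) (heℓ : e ∈ ℓ) (h1 : hdv e ∉ I)
    (h2 : tlv e ∈ I) (hφ : ExtPot I (exc I ω e) σ φ) (hx : y ∈ ℓ) : φ (ls y) = (1 + σ) / 2 := by
  have hr : Returns (nx ω) (bS I) e := returns_loop hl heℓ (mem_bS.2 (Or.inr ⟨h1, h2⟩))
  have hstep : ∀ y ∈ ℓ, φ (ls y) = (1 + σ) / 2 → φ (ls (nx ω y)) = φ (ls y) := by
    intro y hyℓ hy1
    by_cases hy : hdv y ∈ I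
    · rw [ls_nx (hcl _ hyℓ hy hy1)]
    · cases hω : ω (hdv y) with
      | false => rw [ls_nx hω]
      | true =>
        have g1 := hφ.jump y (Or.inl hy)
        have g2 := hφ.jump (nx ω y) (Or.inr (by rw [tlv_nx]; exact hy))
        rw [rs_nx hω] at g2
        rw [g1, g2, if_congr (exc_nx h1 h2 hr hy) rfl rfl]
  obtain ⟨m, rfl⟩ := (H685.loop_gen hl heℓ y).1 hx
  have h0 : φ (ls e) = (1 + σ) / 2 := hφ.left e ((mem_exc).2 ⟨0, Nat.zero_le _, rfl⟩)
  clear hx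
  induction m with
  | zero => exact h0
  | succ m ih => rw [Function.iterate_succ_apply', hstep _ (loop_iter hl heℓ m) ih, ih]

theorem pot_rs' (hop : ∀ y ∈ ℓ, hdv y ∈ I → φ (rs y) = (σ - 1) / 2 → ω (hdv y) = true)
    (hl : IsLoop ω ℓ) (heℓ : e ∈ ℓ) (h1 : hdv e ∉ I)
    (h2 : tlv e ∈ I) (hφ : ExtPot I (exc I ω e) σ φ) (hx : y ∈ ℓ) : φ (rs y) = (σ - 1) / 2 := by
  have hr : Returns (nx ω) (bS I) e := returns_loop hl heℓ (mem_bS.2 (Or.inr ⟨h1, h2⟩))
  have hstep : ∀ y ∈ ℓ, φ (rs y) = (σ - 1) / 2 → φ (rs (nx ω y)) = φ (rs y) := by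
    intro y hyℓ hy1
    by_cases hy : hdv y ∈ I
    · rw [rs_nx (hop _ hyℓ hy hy1)]
    · cases hω : ω (hdv y) with
      | true => rw [rs_nx hω]
      | false =>
        have g1 := hφ.jump y (Or.inl hy)
        have g2 := hφ.jump (nx ω y) (Or.inr (by rw [tlv_nx]; exact hy))
        rw [ls_nx hω, if_congr (exc_nx h1 h2 hr hy) rfl rfl] at g2
        linarith
  obtain ⟨m, rfl⟩ := (H685.loop_gen hl heℓ y).1 hx
  have h0 : φ (rs e) = (σ - 1) / 2 := hφ.right e ((mem_exc).2 ⟨0, Nat.zero_le _, rfl⟩)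
  clear hx
  induction m with
  | zero => exact h0
  | succ m ih => rw [Function.iterate_succ_apply', hstep _ (loop_iter hl heℓ m) ih, ih]

/-- Uniqueness of the excursion of closed type for loops which visit only closed squares of `I`. -/
theorem uniq_closed' (hI : ExtConn I) (hcl : ∀ y ∈ ℓ, hdv y ∈ I → ω (hdv y) = false)
    (hl : IsLoop ω ℓ) (heℓ : e ∈ ℓ) (heℓ' : e' ∈ ℓ) (h1 : hdv e ∉ I) (h2 : tlv e ∈ I)
    (h1' : hdv e' ∉ I) (h2' : tlv e' ∈ I)
    (hφ : ExtPot I (exc I ω e) 1 φ) (hφ' : ExtPot I (exc I ω e') 1 φ') : e = e' := by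
  by_contra hne
  have hr : Returns (nx ω) (bS I) e := returns_loop hl heℓ (mem_bS.2 (Or.inr ⟨h1, h2⟩))
  have hr' : Returns (nx ω) (bS I) e' := returns_loop hl heℓ' (mem_bS.2 (Or.inr ⟨h1', h2'⟩))
  have hA : ∀ x ∈ exc I ω e, x ∈ ℓ := fun x hx => by
    obtain ⟨k, -, rfl⟩ := (mem_exc).1 hx
    exact loop_iter hl heℓ k
  have hB : ∀ x ∈ exc I ω e', x ∈ ℓ := fun x hx => by
    obtain ⟨k, -, rfl⟩ := (mem_exc).1 hx
    exact loop_iter hl heℓ' k
  have kA : ∀ x ∈ ℓ, φ (ls x) = 1 := fun x hx => by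
    have := pot_ls' (fun y hy hyI _ => hcl y hy hyI) hl heℓ h1 h2 hφ hx
    rw [this]; norm_num
  have kB : ∀ x ∈ ℓ, φ' (ls x) = 1 := fun x hx => by
    have := pot_ls' (fun y hy hyI _ => hcl y hy hyI) hl heℓ' h1' h2' hφ' hx
    rw [this]; norm_num
  obtain ⟨c, hc⟩ := hI (fun z => if φ z = 1 then 0 else 1 - φ' z) (fun x hx => by
    have j := hφ.jump x hx
    have j' := hφ'.jump x hx
    by_cases hxA : x ∈ exc I ω e
    · have hxB : x ∉ exc I ω e' := exc_disj h1 h2 hr h1' h2' hr' hne hxA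
      rw [if_pos hxA] at j
      rw [if_neg hxB, add_zero] at j'
      have k1 := kA x (hA x hxA)
      have k2 := kB x (hA x hxA)
      rw [if_pos k1, if_neg (by omega)]
      omega
    · rw [if_neg hxA, add_zero] at j
      rw [← j]
      by_cases h3 : φ (ls x) = 1
      · rw [if_pos h3, if_pos h3]
      · have hxB : x ∉ exc I ω e' := fun hx' => h3 (kA x (hB x hx'))
        rw [if_neg hxB, add_zero] at j'
        rw [if_neg h3, if_neg h3, j'])
  have hc0 := (hc e (Or.inl h1)).1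
  beta_reduce at hc0
  rw [if_pos (kA e heℓ)] at hc0
  obtain ⟨R, hR⟩ := hφ.far
  obtain ⟨R', hR'⟩ := hφ'.far
  obtain ⟨x, hx, hx1, hx2⟩ := far_edge I R R'
  have hc1 := (hc x hx).1
  beta_reduce at hc1
  rw [hR _ (Or.inl hx1), hR' _ (Or.inl hx2), if_neg (by norm_num)] at hc1
  omega

/-- Uniqueness of the excursion of closed type for loops which visit only open squares of `I`. -/
theorem uniq_open' (hI : ExtConn I) (hop : ∀ y ∈ ℓ, hdv y ∈ I → ω (hdv y) = true)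
    (hl : IsLoop ω ℓ) (heℓ : e ∈ ℓ) (heℓ' : e' ∈ ℓ) (h1 : hdv e ∉ I) (h2 : tlv e ∈ I)
    (h1' : hdv e' ∉ I) (h2' : tlv e' ∈ I)
    (hφ : ExtPot I (exc I ω e) (-1) φ) (hφ' : ExtPot I (exc I ω e') (-1) φ') : e = e' := by
  by_contra hne
  have hr : Returns (nx ω) (bS I) e := returns_loop hl heℓ (mem_bS.2 (Or.inr ⟨h1, h2⟩))
  have hr' : Returns (nx ω) (bS I) e' := returns_loop hl heℓ' (mem_bS.2 (Or.inr ⟨h1', h2'⟩))
  have hA : ∀ x ∈ exc I ω e, x ∈ ℓ := fun x hx => by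
    obtain ⟨k, -, rfl⟩ := (mem_exc).1 hx
    exact loop_iter hl heℓ k
  have hB : ∀ x ∈ exc I ω e', x ∈ ℓ := fun x hx => by
    obtain ⟨k, -, rfl⟩ := (mem_exc).1 hx
    exact loop_iter hl heℓ' k
  have kA : ∀ x ∈ ℓ, φ (rs x) = -1 := fun x hx => by
    have := pot_rs' (fun y hy hyI _ => hop y hy hyI) hl heℓ h1 h2 hφ hx
    rw [this]; norm_num
  have kB : ∀ x ∈ ℓ, φ' (rs x) = -1 := fun x hx => by
    have := pot_rs' (fun y hy hyI _ => hop y hy hyI) hl heℓ' h1' h2' hφ' hx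
    rw [this]; norm_num
  obtain ⟨c, hc⟩ := hI (fun z => if φ z = -1 then 0 else -1 - φ' z) (fun x hx => by
    have j := hφ.jump x hx
    have j' := hφ'.jump x hx
    by_cases hxA : x ∈ exc I ω e
    · have hxB : x ∉ exc I ω e' := exc_disj h1 h2 hr h1' h2' hr' hne hxA
      rw [if_pos hxA] at j
      rw [if_neg hxB, add_zero] at j'
      have k1 := kA x (hA x hxA)
      have k2 := kB x (hA x hxA)
      rw [if_pos k1, if_neg (by omega)]
      omega
    · rw [if_neg hxA, add_zero] at j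
      rw [← j]
      by_cases h3 : φ (ls x) = -1
      · rw [if_pos h3, if_pos h3]
      · have hxB : x ∉ exc I ω e' := fun hx' => h3 (by rw [j]; exact kA x (hB x hx'))
        rw [if_neg hxB, add_zero] at j'
        rw [if_neg h3, if_neg h3, j'])
  have hc0 := (hc e (Or.inl h1)).2
  beta_reduce at hc0
  rw [if_pos (kA e heℓ)] at hc0
  obtain ⟨R, hR⟩ := hφ.far
  obtain ⟨R', hR'⟩ := hφ'.far
  obtain ⟨x, hx, hx1, hx2⟩ := far_edge I R R'
  have hc1 := (hc x hx).1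
  beta_reduce at hc1
  rw [hR _ (Or.inl hx1), hR' _ (Or.inl hx2), if_neg (by norm_num)] at hc1
  omega

/-- **TRAP.** A loop with a small excursion of closed type is trapped: it stays in the box, and all its
other excursions are small and not of closed type. -/
theorem trap (hI : Thin I) (hc : ExtConn I) (hl : IsLoop ω ℓ) (heℓ : e ∈ ℓ) (h1 : hdv e ∉ I)
    (h2 : tlv e ∈ I) (hB : InB (Bx p q) I ω e) (hcl : ClT I ω e) (hesc : ∀ b, Esc I ω b p q) :
    (∀ y ∈ ℓ, hdv y ∈ Bx p q ∧ tlv y ∈ Bx p q) ∧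
      ∀ e' ∈ ℓ, hdv e' ∉ I → tlv e' ∈ I → InB (Bx p q) I ω e' ∧ (ClT I ω e' → e' = e) := by
  classical
  have hr : Returns (nx ω) (bS I) e := returns_loop hl heℓ (mem_bS.2 (Or.inr ⟨h1, h2⟩))
  -- the predecessor of an edge of the loop
  have hpre : ∀ y ∈ ℓ, ∃ y' ∈ ℓ, nx ω y' = y := by
    intro y hy
    have hb : ℓ.image (nx ω) = ℓ := by
      apply eq_of_subset_of_card_le
      · intro y hy
        obtain ⟨x, hx, rfl⟩ := mem_image.1 hy
        exact loop_nx hl hx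
      · rw [card_image_of_injective _ (s_nx ω).1]
    rw [← hb, mem_image] at hy
    obtain ⟨x, hx, rfl⟩ := hy
    exact ⟨x, hx, rfl⟩
  have fin : (∀ y ∈ ℓ, hdv y ∈ Bx p q ∧ tlv y ∈ Bx p q) → ∀ e' ∈ ℓ, hdv e' ∉ I → tlv e' ∈ I →
      InB (Bx p q) I ω e' := fun h e' he' g1 g2 =>
    ⟨returns_loop hl he' (mem_bS.2 (Or.inr ⟨g1, g2⟩)), (h e' he').2,
      fun k _ => (h _ (loop_iter hl he' k)).1⟩
  rcases hcl with ⟨c1, c2, φ, hφ⟩ | ⟨c1, c2, φ, hφ⟩
  · have hcl' : ∀ y ∈ ℓ, hdv y ∈ I → φ (ls y) = (1 + 1) / 2 → ω (hdv y) = false := by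
      intro y _ hy hy1
      by_contra hne
      have := (pot_zero hI h1 h2 hB hφ (b := true) (by simp [c1]) (by simp [c2]) (hesc true) hy
        (by simpa using hne)).1
      rw [this] at hy1
      norm_num at hy1
    have hls : ∀ y ∈ ℓ, φ (ls y) = 1 := fun y hy => by
      rw [pot_ls' hcl' hl heℓ h1 h2 hφ hy]; norm_num
    have hcl2 : ∀ y ∈ ℓ, hdv y ∈ I → ω (hdv y) = false := fun y hy hyI =>
      hcl' y hy hyI (by rw [hls y hy]; norm_num)
    have hbox : ∀ y ∈ ℓ, hdv y ∈ Bx p q ∧ tlv y ∈ Bx p q := by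
      intro y hy
      have hins := ins_of_pot (z := ls y) hI hφ (exc_box hB) ⟨tlv e, h2, hB.2.1⟩
        (by rw [hls y hy]; norm_num)
      obtain ⟨⟨k1, k2⟩, ⟨k3, k4⟩, -⟩ := corners y
      exact ⟨bq_of_ins hins k1 k2, bq_of_ins hins k3 k4⟩
    refine ⟨hbox, fun e' he' g1 g2 => ⟨fin hbox e' he' g1 g2, fun h => ?_⟩⟩
    rcases h with ⟨-, -, φ', hφ'⟩ | ⟨h3, -, -⟩
    · exact (uniq_closed' hc hcl2 hl heℓ he' h1 h2 g1 g2 hφ hφ').symm
    · exfalso
      obtain ⟨y', hy', rfl⟩ := hpre e' he'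
      rw [tlv_nx] at h3 g2
      rw [hcl2 y' hy' g2] at h3
      exact absurd h3 (by simp)
  · have hcl' : ∀ y ∈ ℓ, hdv y ∈ I → φ (rs y) = (-1 - 1) / 2 → ω (hdv y) = true := by
      intro y _ hy hy1
      by_contra hne
      have := (pot_zero hI h1 h2 hB hφ (b := false) (by simp [c1]) (by simp [c2]) (hesc false) hy
        (by simpa using hne)).2
      rw [this] at hy1
      norm_num at hy1
    have hrs : ∀ y ∈ ℓ, φ (rs y) = -1 := fun y hy => by
      rw [pot_rs' hcl' hl heℓ h1 h2 hφ hy]; norm_num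
    have hcl2 : ∀ y ∈ ℓ, hdv y ∈ I → ω (hdv y) = true := fun y hy hyI =>
      hcl' y hy hyI (by rw [hrs y hy]; norm_num)
    have hbox : ∀ y ∈ ℓ, hdv y ∈ Bx p q ∧ tlv y ∈ Bx p q := by
      intro y hy
      have hins := ins_of_pot (z := rs y) hI hφ (exc_box hB) ⟨tlv e, h2, hB.2.1⟩
        (by rw [hrs y hy]; norm_num)
      obtain ⟨-, -, ⟨k1, k2⟩, k3, k4⟩ := corners y
      exact ⟨bq_of_ins hins k1 k2, bq_of_ins hins k3 k4⟩
    refine ⟨hbox, fun e' he' g1 g2 => ⟨fin hbox e' he' g1 g2, fun h => ?_⟩⟩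
    rcases h with ⟨h3, -, -⟩ | ⟨-, -, φ', hφ'⟩
    · exfalso
      obtain ⟨y', hy', rfl⟩ := hpre e' he'
      rw [tlv_nx] at h3 g2
      rw [hcl2 y' hy' g2] at h3
      exact absurd h3 (by simp)
    · exact (uniq_open' hc hcl2 hl heℓ he' h1 h2 g1 g2 hφ hφ').symm

end Vale.Agent.P167.QX
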