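import Vale.Agent.P167.QX.S2
import Vale.Agent.P167.QX.Trap

/-!
# P167, general `q`: no path off the holes between two strands of closed type of a frame
-/

namespace Vale.Agent.P167.QX

open Finset
open Vale.Agent.P167.A (plane plane_nx plane_sg)
open Vale.Agent.P167.E6 (IsPolygon Encloses)
open Vale.Agent.P167.BR hiding dv
open Vale.Agent.P167.XDL (bS mem_bS)
open Vale.Agent.P167.FK
open Vale.Agent.P167.H871 (Bd)
open Vale.Agent.P167.H199 (strand ret mem_strand Returns ret_le ret_min)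

variable {D K H : Finset (ℤ × ℤ)} {ω : Cfg} {e e' y : Ed} {n m m' k M : ℕ} {q : ZMod n → ℤ × ℤ}
  {u : ℕ → ℤ} {b : Bool} {Reg : ℤ × ℤ → Prop}

/-- The site which is kept at the squares of the state `b`. -/
def cs (b : Bool) (y : Ed) : ℤ × ℤ := if b then rs y else ls y

theorem cs_nx (h : ω (hdv y) = b) : cs b (nx ω y) = cs b y := by
  unfold cs
  cases b
  · exact ls_nx h
  · exact rs_nx h

/-- `z` is a corner of the square `v`. -/
def Cor (z v : ℤ × ℤ) : Prop := (v.1 = z.1 ∨ v.1 = z.1 - 1) ∧ (v.2 = z.2 ∨ v.2 = z.2 - 1)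

theorem cor_hd (b : Bool) (y : Ed) : Cor (cs b y) (hdv y) := by
  have h := corners y
  unfold cs
  cases b
  · exact h.1
  · exact h.2.2.1

theorem cor_tl (b : Bool) (y : Ed) : Cor (cs b y) (tlv y) := by
  have h := corners y
  unfold cs
  cases b
  · exact h.2.1
  · exact h.2.2.2

theorem sites_of_cor {z v : ℤ × ℤ} (h : Cor z v) (hv : v ∈ D) : z ∈ sites D := by
  rw [mem_sites]
  obtain ⟨h1, h2⟩ := h
  exact ⟨v, hv, by omega, by omega⟩

/-- The squares at the boundary of `D` are in the frame `K` or in the holes `H`. -/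
structure FrmG (D K H : Finset (ℤ × ℤ)) : Prop where
  disj : Disjoint D K
  cov : ∀ v ∉ D, ∀ z ∈ sites D, Cor z v → v ∈ K ∨ v ∈ H

theorem FrmG.iff (G : FrmG D K H) (h1 : hdv y ∉ H) (h2 : hdv y ∈ K → ω (hdv y) = b) :
    cs b (nx ω y) ∈ sites D ↔ cs b y ∈ sites D := by
  by_cases hK : hdv y ∈ K
  · rw [cs_nx (h2 hK)]
  · by_cases hD : hdv y ∈ D
    · have a1 := sites_of_cor (cor_hd b y) hD
      have a2 : cs b (nx ω y) ∈ sites D :=
        sites_of_cor (cor_tl b (nx ω y)) (by rw [tlv_nx]; exact hD)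
      exact ⟨fun _ => a1, fun _ => a2⟩
    · have key : ∀ z, Cor z (hdv y) → z ∉ sites D := fun z hz hzD => by
        rcases G.cov _ hD z hzD hz with h | h
        · exact hK h
        · exact h1 h
      have a1 := key _ (cor_hd b y)
      have a2 := key (cs b (nx ω y)) (by
        have := cor_tl b (nx ω y)
        rwa [tlv_nx] at this)
      exact ⟨fun h => absurd h a2, fun h => absurd h a1⟩

/-- Along a path off the holes. -/
theorem FrmG.path (G : FrmG D K H) (h1 : ∀ k < M, hdv ((nx ω)^[k] y) ∉ H)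
    (h2 : ∀ k < M, hdv ((nx ω)^[k] y) ∈ K → ω (hdv ((nx ω)^[k] y)) = b) (hk : k ≤ M) :
    cs b ((nx ω)^[k] y) ∈ sites D ↔ cs b y ∈ sites D := by
  induction k with
  | zero => rfl
  | succ k ih =>
    rw [← ih (by omega), Function.iterate_succ_apply']
    exact G.iff (h1 k (by omega)) (h2 k (by omega))

theorem FrmG.near (G : FrmG D K H) (h0 : cs b y ∈ sites D) (h1 : ∀ k < M, hdv ((nx ω)^[k] y) ∉ H)
    (h2 : ∀ k < M, hdv ((nx ω)^[k] y) ∈ K → ω (hdv ((nx ω)^[k] y)) = b) (hk : k < M) :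
    hdv ((nx ω)^[k] y) ∈ D ∨ hdv ((nx ω)^[k] y) ∈ K := by
  by_contra hn
  push Not at hn
  have h3 := (G.path h1 h2 hk.le).2 h0
  rcases G.cov _ hn.1 _ h3 (cor_hd b _) with h | h
  · exact hn.2 h
  · exact h1 k hk h

theorem FrmG.far (G : FrmG D K H) (h0 : cs b y ∉ sites D) (h1 : ∀ k < M, hdv ((nx ω)^[k] y) ∉ H)
    (h2 : ∀ k < M, hdv ((nx ω)^[k] y) ∈ K → ω (hdv ((nx ω)^[k] y)) = b) (hk : k < M) :
    hdv ((nx ω)^[k] y) ∉ D := fun h =>
  h0 ((G.path h1 h2 hk.le).1 (sites_of_cor (cor_hd b _) h))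

/-- Different strands are disjoint. -/
theorem RStr.disj (h : RStr Reg ω e m) (h' : RStr Reg ω e' m') (hne : e ≠ e') :
    Disjoint (orbs ω e m) (orbs ω e' m') := by
  have key : ∀ {e e' : Ed} {m m' : ℕ}, RStr Reg ω e m → RStr Reg ω e' m' → e ≠ e' →
      ∀ k ≤ m, ∀ j ≤ m', k ≤ j → (nx ω)^[k] e ≠ (nx ω)^[j] e' := by
    intro e e' m m' h h' hne k hk j hj hkj heq
    obtain ⟨l, rfl⟩ : ∃ l, j = k + l := ⟨j - k, by omega⟩
    rw [Function.iterate_add_apply] at heq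
    have h1 := (s_nx ω).1.iterate k heq
    rcases Nat.eq_zero_or_pos l with rfl | hl
    · exact hne h1
    · obtain ⟨i, rfl⟩ : ∃ i, l = i + 1 := ⟨l - 1, by omega⟩
      apply h.tl
      rw [h1, Function.iterate_succ_apply', tlv_nx]
      exact h'.inn i (by omega)
  rw [Finset.disjoint_left]
  intro x hx hx'
  obtain ⟨k, hk, hkx⟩ := mem_orbs.1 hx
  obtain ⟨j, hj, hjx⟩ := mem_orbs.1 hx'
  rcases le_total k j with h1 | h1
  · exact key h h' hne k hk j hj h1 (hkx.trans hjx.symm)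
  · exact key h' h hne.symm j hj k hk h1 (hjx.trans hkx.symm)

/-- The potential of the strand which starts at `e` is `1` on the left bank (`b = false`), `-1` on the
right bank (`b = true`). -/
def CB (b : Bool) (φ : ℤ × ℤ → ℤ) (e : Ed) : Prop := if b then φ (rs e) = -1 else φ (ls e) = 1

/-- **Closed type** for the colour `b`, inside the domain. -/
def ClN (q : ZMod n → ℤ × ℤ) (D : Finset (ℤ × ℤ)) (b : Bool) (ω : Cfg) (e : Ed) (m : ℕ) : Prop :=
  RStr (· ∈ D) ω e m ∧ ∃ φ, RPot (· ∈ D) (orbs ω e m) φ ∧ φ (q 0) = 0 ∧ CB b φ e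

/-- **Closed type** for the colour `b`, outside of `I`. -/
def ClF (I : Finset (ℤ × ℤ)) (b : Bool) (ω : Cfg) (e : Ed) (m : ℕ) : Prop :=
  RStr (· ∉ I) ω e m ∧ ∃ φ, RPot (· ∉ I) (orbs ω e m) φ ∧
    (∃ R : ℤ, ∀ z : ℤ × ℤ, (R < |z.1| ∨ R < |z.2|) → φ z = 0) ∧ CB b φ e

theorem no_two_near (hq : IsPolygon q) (hD : Encloses q D) (h : ClN q D b ω e m)
    (h' : ClN q D b ω e' m') (hne : e ≠ e') (hM : (nx ω)^[M] e = e')
    (hp : ∀ k < M, hdv ((nx ω)^[k] e) ∈ D ∨ ω (hdv ((nx ω)^[k] e)) = b) : False := by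
  obtain ⟨g1, φ, g2, g3, g4⟩ := h
  obtain ⟨g1', φ', g2', g3', g4'⟩ := h'
  have hdj := g1.disj g1' hne
  have hx0 : hdv (be q 0) ∈ D ∨ tlv (be q 0) ∈ D := mem_eds.1 (be_mem hq hD 0)
  have h0 : (φ (ls (be q 0)) = 0 ∧ φ' (ls (be q 0)) = 0) ∨
      (φ (rs (be q 0)) = 0 ∧ φ' (rs (be q 0)) = 0) := by
    rcases be_sides hq 0 with ⟨h2, -⟩ | ⟨h2, -⟩
    · left; rw [h2]; exact ⟨g3, g3'⟩
    · right; rw [h2]; exact ⟨g3, g3'⟩
  unfold CB at g4 g4'
  cases b
  · simp only [Bool.false_eq_true, if_false] at g4 g4'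
    exact no_two_ls (rconn_D hq hD) g1 g1' g2 g2' g4 g4' hdj hx0 h0 hM hp
  · simp only [if_true] at g4 g4'
    exact no_two_rs (rconn_D hq hD) g1 g1' g2 g2' g4 g4' hdj hx0 h0 hM hp

theorem no_two_far {I : Finset (ℤ × ℤ)} (hI : ExtConn I) (h : ClF I b ω e m)
    (h' : ClF I b ω e' m') (hne : e ≠ e') (hM : (nx ω)^[M] e = e')
    (hp : ∀ k < M, hdv ((nx ω)^[k] e) ∉ I ∨ ω (hdv ((nx ω)^[k] e)) = b) : False := by
  obtain ⟨g1, φ, g2, ⟨R, hR⟩, g4⟩ := h
  obtain ⟨g1', φ', g2', ⟨R', hR'⟩, g4'⟩ := h'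
  have hdj := g1.disj g1' hne
  obtain ⟨N, hN⟩ : ∃ N : ℤ, ∀ v ∈ I, v.1 < N := by
    refine ⟨∑ v ∈ I, |v.1| + 1, fun v hv => ?_⟩
    have h1 := single_le_sum (f := fun v : ℤ × ℤ => |v.1|) (fun v _ => abs_nonneg _) hv
    have h2 := le_abs_self v.1
    try simp only at h1
    omega
  set X : ℤ := |N| + |R| + |R'| + 1 with hX
  have hXa : N < X ∧ R < X ∧ R' < X ∧ 0 < X := by
    have a1 := le_abs_self N
    have a2 := le_abs_self R
    have a3 := le_abs_self R'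
    have b1 := abs_nonneg N
    have b2 := abs_nonneg R
    have b3 := abs_nonneg R'
    omega
  set x0 : Ed := Sum.inl (X, 0) with hx0d
  have hs : ∀ z : ℤ × ℤ, X ≤ z.1 → φ z = 0 ∧ φ' z = 0 := by
    intro z hz
    have h1 : X ≤ |z.1| := hz.trans (le_abs_self _)
    exact ⟨hR z (Or.inl (by omega)), hR' z (Or.inl (by omega))⟩
  have hx0 : hdv x0 ∉ I ∨ tlv x0 ∉ I := by
    left
    intro hh
    have := hN _ hh
    rw [hx0d] at this
    simp only [hdv] at this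
    split_ifs at this <;> simp only at this <;> omega
  have h0 : (φ (ls x0) = 0 ∧ φ' (ls x0) = 0) ∨ (φ (rs x0) = 0 ∧ φ' (rs x0) = 0) := by
    left
    apply hs
    rw [hx0d]
    simp only [ls]
    split_ifs <;> simp
  unfold CB at g4 g4'
  cases b
  · simp only [Bool.false_eq_true, if_false] at g4 g4'
    exact no_two_ls (Reg := (· ∉ I)) hI g1 g1' g2 g2' g4 g4' hdj hx0 h0 hM hp
  · simp only [if_true] at g4 g4'
    exact no_two_rs (Reg := (· ∉ I)) hI g1 g1' g2 g2' g4 g4' hdj hx0 h0 hM hp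

/-- **No path off the holes between two strands of closed type.** -/
theorem no_two (hq : IsPolygon q) (hD : Encloses q D) (G : FrmG D K H) (hI : ExtConn (D ∪ K))
    (h : ClN q D b ω e m ∨ ClF (D ∪ K) b ω e m) (h' : ClN q D b ω e' m' ∨ ClF (D ∪ K) b ω e' m')
    (heH : hdv e ∉ H) (heH' : hdv e' ∉ H) (hne : e ≠ e') (hM : (nx ω)^[M] e = e')
    (h1 : ∀ k < M, hdv ((nx ω)^[k] e) ∉ H)
    (h2 : ∀ k < M, hdv ((nx ω)^[k] e) ∈ K → ω (hdv ((nx ω)^[k] e)) = b) : False := by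
  have hN : ∀ {e m}, ClN q D b ω e m → cs b e ∈ sites D := fun {e m} h =>
    sites_of_cor (cor_hd b e) (h.1.inn 0 h.1.pos)
  have hF : ∀ {e m}, hdv e ∉ H → ClF (D ∪ K) b ω e m → cs b e ∉ sites D := fun {e m} he h hs => by
    have h3 := h.1.inn 0 h.1.pos
    rw [Function.iterate_zero, id, mem_union, not_or] at h3
    rcases G.cov _ h3.1 _ hs (cor_hd b e) with h4 | h4
    · exact h3.2 h4
    · exact he h4
  have hpath := G.path h1 h2 le_rfl
  rw [hM] at hpath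
  rcases h with h | h <;> rcases h' with h' | h'
  · refine no_two_near hq hD h h' hne hM fun k hk => ?_
    rcases G.near (hN h) h1 h2 hk with h3 | h3
    · exact Or.inl h3
    · exact Or.inr (h2 k hk h3)
  · exact hF heH' h' (hpath.2 (hN h))
  · exact hF heH h (hpath.1 (hN h'))
  · refine no_two_far hI h h' hne hM fun k hk => ?_
    by_cases hK : hdv ((nx ω)^[k] e) ∈ K
    · exact Or.inr (h2 k hk hK)
    · left
      rw [mem_union, not_or]
      exact ⟨G.far (hF heH h) h1 h2 hk, hK⟩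

end Vale.Agent.P167.QX
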