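import Vale.Agent.P167.QX.S7
import Vale.Agent.P167.H871.Q.FlowF
import Vale.Agent.P167.H871.Q.NatF
import Vale.Agent.P167.H945.S.FrI944

/-!
# P167, general `q`: **the law-free majorant of the functional of a frame** (`H398.Q.L1S`)
-/

namespace Vale.Agent.P167.QX

open Finset Filter
open Vale.Agent.P167.BR hiding dv
open Vale.Agent.P167.XDL (bS mem_bS)
open Vale.Agent.P167.FK
open Vale.Agent.P167.E6 (IsPolygon Encloses)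
open Vale.Agent.P167.H199 (Gap exists_Gap ret)
open Vale.Agent.P167.H685 (LE mem_LE)
open Vale.Agent.P167.H825 (epos dv enl Marks FlowIn)
open Vale.Agent.P167.H825.Q (Row Bc)
open Vale.Agent.P167.H680.T (rowC uI mem_uI frows)
open Vale.Agent.P167.H662 (hsite)
open Vale.Agent.P167.H945.Q (Tc Tc_nonneg nm_sub_le adm_box)
open Vale.Agent.P167.H562.QM (MajA)
open Vale.Agent.P167.H562.MAJ (Sm)
open Vale.Agent.P167.H398.Q (hB Ttip Tjun L1S)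
open Vale.Agent.P167.Enl (R0 BGap exists_BGap frame_flow frame_nat frame_adm row_flow mem_hB)

/-- The sizes. -/
theorem scales {x x4 y y4 G Kn : ℝ} {d : ℕ} (hx : 4096 ≤ x) (hxy : x ≤ y)
    (h2 : 64 * x ≤ Kn) (h3 : 256 * y ≤ G) (h4 : 64 * y ≤ Kn) (hx4 : x4 = 4 * x) (hy4 : y4 = 4 * y)
    (hd : (d : ℝ) ≤ x) (hd' : x < d + 1) : ∃ d1 d2 : ℤ, ∃ R : ℕ,
    x / 64 + 2 ≤ d1 ∧ y + 2 ≤ d2 ∧ 1 ≤ d1 ∧ d1 ≤ (d : ℤ) - 4 ∧ ⌊x / 16⌋ ≤ (d : ℤ) - 4 ∧ 3 ≤ d2 ∧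
    d1 ≤ d2 ∧ 2 * d1 + 2 ≤ ⌊x / 16⌋ ∧ 2 * d2 + 2 ≤ ⌊y4⌋ ∧ 16 * ((⌊x / 16⌋ : ℤ) : ℝ) ≤ G / 4 ∧
    16 * ((⌊y4⌋ : ℤ) : ℝ) ≤ G / 4 ∧ (R : ℤ) = d2 + (2 * d2 + d + 2) ∧
    2 * ⌊x / 16⌋ ≤ 2 * ⌊y4⌋ ∧ ((2 * ⌊y4⌋ : ℤ) : ℝ) ≤ G / 4 ∧
    ((2 * (R : ℤ) + 1 + 2 * ⌊y4⌋ : ℤ) : ℝ) ≤ Kn ∧ d + 3 ≤ R ∧ (2 * R : ℝ) + 8 < G ∧
    8 * ((2 * ⌊y4⌋ : ℤ) : ℝ) ≤ G ∧ 8 * ((2 * d2 + d + 2 : ℤ) : ℝ) ≤ G ∧ (d : ℤ) + 4 ≤ ⌊x4⌋ ∧
    0 ≤ ⌊y4⌋ := by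
  have a1 := Int.le_ceil (x / 64)
  have a2 := Int.ceil_lt_add_one (x / 64)
  have a3 := Int.le_ceil y
  have a4 := Int.ceil_lt_add_one y
  have a5 := Int.floor_le (x / 16)
  have a6 := Int.sub_one_lt_floor (x / 16)
  have a7 := Int.floor_le y4
  have a8 := Int.sub_one_lt_floor y4
  have a9 := Int.sub_one_lt_floor x4
  rw [hy4] at a7 a8
  rw [hx4] at a9
  rw [← hy4] at a7 a8
  rw [← hx4] at a9
  obtain ⟨R, hR⟩ : ∃ R : ℕ, (R : ℤ) = (⌈y⌉ + 2) + (2 * (⌈y⌉ + 2) + d + 2) := by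
    refine ⟨((⌈y⌉ + 2) + (2 * (⌈y⌉ + 2) + d + 2)).toNat, Int.toNat_of_nonneg ?_⟩
    have : (0 : ℤ) ≤ ⌈y⌉ := Int.ceil_nonneg (by linarith)
    omega
  have hR' : (R : ℝ) = ((⌈y⌉ : ℤ) : ℝ) + 2 + (2 * (((⌈y⌉ : ℤ) : ℝ) + 2) + d + 2) := by
    have : ((R : ℤ) : ℝ) = (((⌈y⌉ + 2) + (2 * (⌈y⌉ + 2) + d + 2) : ℤ) : ℝ) := by rw [hR]
    push_cast at this
    exact this
  refine ⟨⌈x / 64⌉ + 2, ⌈y⌉ + 2, R, ?_, ?_, ?_, ?_, ?_, ?_, ?_, ?_, ?_, ?_, ?_, hR, ?_, ?_, ?_, ?_,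
    ?_, ?_, ?_, ?_, ?_⟩
  · push_cast; linarith
  · push_cast; linarith
  · have : (1 : ℝ) ≤ ((⌈x / 64⌉ + 2 : ℤ) : ℝ) := by push_cast; linarith
    exact_mod_cast this
  · have : ((⌈x / 64⌉ + 2 : ℤ) : ℝ) ≤ (((d : ℤ) - 4 : ℤ) : ℝ) := by push_cast; linarith
    exact_mod_cast this
  · have : ((⌊x / 16⌋ : ℤ) : ℝ) ≤ (((d : ℤ) - 4 : ℤ) : ℝ) := by push_cast; linarith
    exact_mod_cast this
  · have : (3 : ℝ) ≤ ((⌈y⌉ + 2 : ℤ) : ℝ) := by push_cast; linarith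
    exact_mod_cast this
  · have : ((⌈x / 64⌉ + 2 : ℤ) : ℝ) ≤ ((⌈y⌉ + 2 : ℤ) : ℝ) := by push_cast; linarith
    exact_mod_cast this
  · have : ((2 * (⌈x / 64⌉ + 2) + 2 : ℤ) : ℝ) ≤ ((⌊x / 16⌋ : ℤ) : ℝ) := by push_cast; linarith
    exact_mod_cast this
  · have : ((2 * (⌈y⌉ + 2) + 2 : ℤ) : ℝ) ≤ ((⌊y4⌋ : ℤ) : ℝ) := by push_cast; linarith
    exact_mod_cast this
  · linarith
  · linarith
  · have : ((2 * ⌊x / 16⌋ : ℤ) : ℝ) ≤ ((2 * ⌊y4⌋ : ℤ) : ℝ) := by push_cast; linarith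
    exact_mod_cast this
  · push_cast; linarith
  · push_cast; linarith
  · have : ((d + 3 : ℕ) : ℝ) ≤ (R : ℝ) := by push_cast; linarith
    exact_mod_cast this
  · linarith
  · push_cast; linarith
  · push_cast; linarith
  · have : (((d : ℤ) + 4 : ℤ) : ℝ) ≤ ((⌊x4⌋ : ℤ) : ℝ) := by push_cast; linarith
    exact_mod_cast this
  · exact Int.floor_nonneg.2 (by linarith)

variable {l : ℕ} {p : ZMod l → ℤ × ℤ} {n : ℕ} {S₀ : Finset (ℤ × ℤ)} {Q : Marks} {bc : Bc}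
  {θ β κ κ' B : ℝ} {c : Ed → ℝ} {ω : Cfg}

/-- The majorant of the product over the loops of a frame, for one size. -/
theorem maj_frame (hp : IsPolygon p) (hD : Encloses p S₀) (hQ : Q.Ok) {g δ : ℝ}
    (hg : Gap Q l g) (hδ : 0 < δ) (hδg : 4 * δ ≤ g) (hn16 : 16 ≤ δ * n) (hb : bc.Ok l Q)
    (hbg : BGap l Q g bc) (h0 : 0 < θ) (h1 : θ ≤ Real.pi / 3)
    (hβ : β = (θ - Real.pi) / 2 ∨ β = (Real.pi - 3 * θ) / 2) (hgd : Good ω)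
    (hfz : H398.Q.Frz (frows θ β p Q n ⌊δ * (n : ℝ)⌋₊ bc) ω) (hfl : FlowIn (enl S₀ n) κ B n c)
    (hn : 4096 ≤ δ * n) (j1 : δ ≤ κ') (j2 : 64 * κ' ≤ κ) (j3 : 256 * κ' ≤ g)
    {Z : Finset (ℤ × ℤ)} {N₁ N₂ : ℕ} (hZ : ∀ v : ℤ × ℤ, (nm v : ℝ) ≤ (R0 p S₀ + 4) * n → v ∈ Z)
    (hN1 : MajA (hB p Q n ⌊4 * δ * n⌋) (δ * n / 64) ω N₁) (hN2 : MajA Z (κ' * n) ω N₂) :
    |∏ ℓ ∈ LE ω (bS (uI (frows θ β p Q n ⌊δ * (n : ℝ)⌋₊ bc))),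
        fLp θ (uI (frows θ β p Q n ⌊δ * (n : ℝ)⌋₊ bc))
          (rowC θ (frows θ β p Q n ⌊δ * (n : ℝ)⌋₊ bc) c).ph ω ℓ| ≤
      ((Real.sin θ)⁻¹ * (2 * Real.cos θ)) ^ (N₁ + N₂) *
        (((1 / Real.sin θ) ^ 2) ^ Fintype.card (Fin l × Fin (Q.m + 1)) *
          (Ttip θ (frows θ β p Q n ⌊δ * (n : ℝ)⌋₊ bc) ⌊δ * n / 16⌋ ω *
            Tjun θ (frows θ β p Q n ⌊δ * (n : ℝ)⌋₊ bc) ⌊4 * κ' * n⌋ ω)) ∧
      0 ≤ Ttip θ (frows θ β p Q n ⌊δ * (n : ℝ)⌋₊ bc) ⌊δ * n / 16⌋ ω *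
            Tjun θ (frows θ β p Q n ⌊δ * (n : ℝ)⌋₊ bc) ⌊4 * κ' * n⌋ ω := by
  have hθ3 : 3 * θ ≤ Real.pi := by linarith
  have hn0 : (0 : ℝ) ≤ n := Nat.cast_nonneg n
  have hn1 : (1 : ℝ) ≤ n := by
    rcases Nat.eq_zero_or_pos n with h | h
    · rw [h] at hn; norm_num at hn
    · exact_mod_cast h
  obtain ⟨d1, d2, R, s1, s2, s3, s4, s5, s6, s7, s8, s9, s10, s11, s12, s13, s14, s15, s16, s17,
    s18, s19, s20, s21⟩ := scales (x := δ * n) (x4 := 4 * δ * n) (y := κ' * n)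
      (y4 := 4 * κ' * n) (G := g * n) (Kn := κ * n) (d := ⌊δ * (n : ℝ)⌋₊) hn
      (mul_le_mul_of_nonneg_right j1 hn0) (by nlinarith) (by nlinarith) (by nlinarith)
      (by ring) (by ring) (Nat.floor_le (by linarith)) (Nat.lt_floor_add_one _)
  have F := Enl.frI (β := β) (θ := θ) (bc := bc) hp hD hQ hg hδ hδg hn16 hb hbg h0 hθ3 hβ
    hgd hfz (R := R) s16 s17
  have hA : (rowC θ (frows θ β p Q n ⌊δ * (n : ℝ)⌋₊ bc) 0).Adm (δ / 2) (R0 p S₀ + 3) 0 n :=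
    frame_adm hp hD hQ hg hδ hδg hn16
  have hfr : ∀ y, c y ≠ 0 → ∀ v ∈ uI (frows θ β p Q n ⌊δ * (n : ℝ)⌋₊ bc),
      ((2 * (R : ℤ) + 1 + 2 * ⌊4 * κ' * n⌋ : ℤ) : ℝ) < (nm (v - epos y) : ℝ) :=
    fun y hy v hv => lt_of_le_of_lt s15 (row_flow hp hD hQ hg hδ hδg hn16 hfl hv hy)
  have hnat : ∀ i, ∀ x ∈ bS (uI (frows θ β p Q n ⌊δ * (n : ℝ)⌋₊ bc)),
      hdv x ∉ uI (frows θ β p Q n ⌊δ * (n : ℝ)⌋₊ bc) →
      tlv x ∈ (frows θ β p Q n ⌊δ * (n : ℝ)⌋₊ bc i).I → ∀ p' q',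
      AbF (frows θ β p Q n ⌊δ * (n : ℝ)⌋₊ bc) (2 * ⌊4 * κ' * n⌋) i p' q' →
      InB (Bx p' q') (frows θ β p Q n ⌊δ * (n : ℝ)⌋₊ bc i).I ω x →
      ∀ m, nm (tlv x - hsite p Q n m) ≤ 2 * d2 + (⌊δ * (n : ℝ)⌋₊ : ℤ) + 2 →
      (∀ k < ret (nx ω) (bS (uI (frows θ β p Q n ⌊δ * (n : ℝ)⌋₊ bc))) x,
        hdv ((nx ω)^[k] x) ∉ hB p Q n (⌊δ * n⌋₊ + 4)) →
      rS θ (frows θ β p Q n ⌊δ * (n : ℝ)⌋₊ bc i).I
        ((frows θ β p Q n ⌊δ * (n : ℝ)⌋₊ bc i).wall θ 0).a ω x = 1 := by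
    intro i x hx hx2 hxi p' q' hab hI m hm hH
    refine frame_nat hp hD hQ hg hδ hδg hn16 hb hbg h0 h1 hβ hgd hfz i m hx hx2 hxi hI
      hab.2.1 hab.2.2.1 s18 hab.2.2.2 hm ?_ hH
    exact_mod_cast s19
  have hKZ : ∀ v ∈ uI (frows θ β p Q n ⌊δ * (n : ℝ)⌋₊ bc), ∀ v', nm (v' - v) ≤ 1 → v' ∈ Z := by
    intro v hv v' hv'
    obtain ⟨i, hi⟩ := mem_uI.1 hv
    have e1 := adm_box hA hi
    have e2 := nm_sub_le v' v 0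
    rw [sub_zero, sub_zero] at e2
    have e3 : (nm v' : ℝ) ≤ 1 + nm v := by exact_mod_cast (by omega : nm v' ≤ 1 + nm v)
    refine hZ v' ?_
    linarith
  have hV : hB p Q n (⌊δ * n⌋₊ + 4) ⊆ hB p Q n ⌊4 * δ * n⌋ := by
    intro v hv
    rw [mem_hB] at hv ⊢
    obtain ⟨x, hx⟩ := hv
    refine ⟨x, ?_⟩
    unfold Bq at hx ⊢
    rw [mem_product, mem_Ico, mem_Ico] at hx ⊢
    omega
  have hg4 : g / 4 * n = g * n / 4 := by ring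
  have hgn : 0 < g / 4 * n := by
    rw [hg4]
    linarith
  generalize hr : frows θ β p Q n ⌊δ * (n : ℝ)⌋₊ bc = r at *
  have hmaj := F.major h0 h1 s4 s3 s5 s6 s7 s8 s9 (by rw [hg4]; exact s10)
    (by rw [hg4]; exact s11) le_rfl s12.ge s13 le_rfl (by rw [hg4]; exact s14)
    (W := 2 * (R : ℤ) + 1 + 2 * ⌊4 * κ' * n⌋) (by omega) (by omega) hfr hnat hKZ hV hN1 hN2 s1 s2
  have hL : ∀ i, 0 < (r i).L := fun i => by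
    have h2 := (F.ok i).len
    have h3 : (0 : ℝ) < (r i).L := lt_of_lt_of_le hgn h2
    exact_mod_cast h3
  have h4y : ((⌊4 * κ' * n⌋ : ℤ) : ℝ) < g / 4 * n := by
    rw [hg4]
    have h5 : (0 : ℝ) ≤ ((⌊4 * κ' * n⌋ : ℤ) : ℝ) := by exact_mod_cast s21
    rw [hg4] at hgn
    linarith
  have hT : ∏ i, (Tc θ (r i).I (r i) 0 ⌊δ * n / 16⌋ ω * Tc θ (r i).I (r i) 1 ⌊δ * n / 16⌋ ω *
      Tc θ (r i).I (r i) 2 ⌊4 * κ' * n⌋ ω) =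
      Ttip θ r ⌊δ * n / 16⌋ ω * Tjun θ r ⌊4 * κ' * n⌋ ω := by
    unfold Ttip Tjun
    rw [← prod_mul_distrib]
    refine prod_congr rfl fun i _ => ?_
    rw [F.Tc_own (by omega) hgn hL (k := 0) (fun _ => s5) (fun h => absurd h (by decide)) i,
      F.Tc_own (by omega) hgn hL (k := 1) (fun _ => s5) (fun h => absurd h (by decide)) i,
      F.Tc_own (by omega) hgn hL (k := 2) (fun h => absurd rfl h) (fun _ => h4y) i]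
  rw [← hT]
  exact ⟨hmaj, prod_nonneg fun i _ => mul_nonneg (mul_nonneg (Tc_nonneg h0 h1 _ _ _ _ _)
      (Tc_nonneg h0 h1 _ _ _ _ _)) (Tc_nonneg h0 h1 _ _ _ _ _)⟩

/-- **The law-free majorant of the functional of a frame.** -/
theorem l1S (h0 : 0 < θ) (h1 : θ ≤ Real.pi / 3)
    (hβ : β = (θ - Real.pi) / 2 ∨ β = (Real.pi - 3 * θ) / 2) : L1S θ β := by
  intro l _ p S₀ hp hD Q hQ bc hbc κ B hκ
  have hpi := Real.pi_pos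
  have hs : 0 < Real.sin θ := Real.sin_pos_of_pos_of_lt_pi h0 (by linarith)
  have hc0 : 0 < Real.cos θ := Real.cos_pos_of_mem_Ioo ⟨by linarith, by linarith⟩
  have hc1 : 1 ≤ 2 * Real.cos θ := by
    have := Real.cos_le_cos_of_nonneg_of_le_pi h0.le (by linarith) h1
    rw [Real.cos_pi_div_three] at this
    linarith
  have ha : 1 ≤ (Real.cos θ)⁻¹ := (one_le_inv₀ hc0).2 (Real.cos_le_one _)
  have hb : 1 ≤ (Real.sin θ)⁻¹ := one_le_inv_sin hs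
  have hb2 : 1 ≤ (1 / Real.sin θ) ^ 2 := one_le_pow₀ (by rwa [one_div])
  have hX : 1 ≤ (Real.sin θ)⁻¹ * (2 * Real.cos θ) := one_le_mul_of_one_le_of_one_le hb hc1
  obtain ⟨g1, hg1, hG⟩ := exists_Gap hQ l
  obtain ⟨g2, hg2, hBg⟩ := exists_BGap hbc
  obtain ⟨g, hg0, hg, hbg⟩ : ∃ g : ℝ, 0 < g ∧ Gap Q l g ∧ BGap l Q g bc :=
    ⟨min g1 g2, lt_min hg1 hg2, hG.mono (min_le_left _ _), hBg.mono (min_le_right _ _)⟩
  refine ⟨min (min (κ / 64) (g / 256)) (1 / (2 * (|B| + 1))), by positivity,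
    fun κ' hκ' hκ1 => ?_⟩
  have k1 : κ' < κ / 64 := lt_of_lt_of_le hκ1 ((min_le_left _ _).trans (min_le_left _ _))
  have k2 : κ' < g / 256 := lt_of_lt_of_le hκ1 ((min_le_left _ _).trans (min_le_right _ _))
  have k3 : κ' < 1 / (2 * (|B| + 1)) := lt_of_lt_of_le hκ1 (min_le_right _ _)
  have hBk : |B| * κ' ^ 2 ≤ 1 / 2 := by
    have g0 := abs_nonneg B
    rw [lt_div_iff₀ (by positivity)] at k3
    have g1 : κ' * (|B| + 1) < 1 / 2 := by linarith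
    have g2 : κ' < 1 := by nlinarith
    nlinarith
  refine ⟨((Real.cos θ)⁻¹ * ((Real.sin θ)⁻¹ * (2 * Real.cos θ))) *
    ((1 / Real.sin θ) ^ 2) ^ Fintype.card (Fin l × Fin (Q.m + 1)), min κ' (g / 4), ?_,
    by positivity, fun δ hδ hδ0 => ?_⟩
  · exact one_le_mul_of_one_le_of_one_le (one_le_mul_of_one_le_of_one_le ha hX)
      (one_le_pow₀ hb2)
  have j1 : δ < κ' := lt_of_lt_of_le hδ0 (min_le_left _ _)
  have j2 : δ < g / 4 := lt_of_lt_of_le hδ0 (min_le_right _ _)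
  have hlim : Tendsto (fun n : ℕ => δ * (n : ℝ)) atTop atTop :=
    tendsto_natCast_atTop_atTop.const_mul_atTop hδ
  filter_upwards [hlim.eventually_ge_atTop 4096, eventually_ge_atTop 1] with n hn hn1
  intro c hcf hfl ω hgd hfz Z N₁ N₂ hZ hN1 hN2
  have hn0 : (0 : ℝ) < n := by exact_mod_cast hn1
  have hδg : 4 * δ ≤ g := by linarith
  have hn16 : 16 ≤ δ * n := by linarith
  have hfl' : FlowIn (enl S₀ n) κ |B| n c :=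
    ⟨hfl.sup, fun e => (hfl.cle e).trans (div_le_div_of_nonneg_right (le_abs_self B) hn0.le),
      fun z => (hfl.dle z).trans (div_le_div_of_nonneg_right (le_abs_self B) (by positivity))⟩
  have hκn : κ' * n + 16 ≤ κ * n := by
    have e1 : 64 * κ' * n ≤ κ * n := mul_le_mul_of_nonneg_right (by linarith) hn0.le
    have e2 : δ * n ≤ κ' * n := mul_le_mul_of_nonneg_right j1.le hn0.le
    linarith
  obtain ⟨hmaj, hT0⟩ := maj_frame hp hD hQ hg hδ hδg hn16 hbc hbg h0 h1 hβ hgd hfz hfl hn j1.le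
    (by linarith) (by linarith) hZ hN1 hN2
  have hflow := frame_flow (θ := θ) (β := β) (bc := bc) hp hD hQ hg hδ hδg hn16 hbg h0 h1 hβ hgd
    hcf hfl' hκ' (abs_nonneg B) hBk hκn hZ hN2
  have hP1 : 0 ≤ ∏ i, (2 * Real.sin θ) ^ ((frows θ β p Q n ⌊δ * (n : ℝ)⌋₊ bc i).L + 1) :=
    prod_nonneg fun _ _ => by positivity
  refine hflow.trans (mul_le_mul_of_nonneg_left ?_ hP1)
  generalize |∏ ℓ ∈ LE ω (bS (uI (frows θ β p Q n ⌊δ * (n : ℝ)⌋₊ bc))),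
        fLp θ (uI (frows θ β p Q n ⌊δ * (n : ℝ)⌋₊ bc))
          (rowC θ (frows θ β p Q n ⌊δ * (n : ℝ)⌋₊ bc) c).ph ω ℓ| = P at *
  generalize Ttip θ (frows θ β p Q n ⌊δ * (n : ℝ)⌋₊ bc) ⌊δ * n / 16⌋ ω *
            Tjun θ (frows θ β p Q n ⌊δ * (n : ℝ)⌋₊ bc) ⌊4 * κ' * n⌋ ω = T at *
  have hE0 : 0 < Real.exp (-(Real.tan θ * Sm (dv c) (κ' * n) ω)) := Real.exp_pos _
  generalize Real.exp (-(Real.tan θ * Sm (dv c) (κ' * n) ω)) = E at *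
  have hC1 : 1 ≤ ((1 / Real.sin θ) ^ 2) ^ Fintype.card (Fin l × Fin (Q.m + 1)) :=
    one_le_pow₀ hb2
  generalize ((1 / Real.sin θ) ^ 2) ^ Fintype.card (Fin l × Fin (Q.m + 1)) = C at *
  generalize (Real.sin θ)⁻¹ * (2 * Real.cos θ) = X at *
  generalize (Real.cos θ)⁻¹ = Y at *
  calc Y ^ N₂ * E * P ≤ Y ^ N₂ * E * (X ^ (N₁ + N₂) * (C * T)) :=
        mul_le_mul_of_nonneg_left hmaj (by positivity)
    _ = (Y ^ N₂ * X ^ (N₁ + N₂) * C) * (E * T) := by ring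
    _ ≤ (Y * X * C) ^ (N₁ + N₂ + 1) * (E * T) := by
        refine mul_le_mul_of_nonneg_right ?_ (mul_nonneg hE0.le hT0)
        rw [mul_pow, mul_pow]
        have e1 : Y ^ N₂ ≤ Y ^ (N₁ + N₂ + 1) := pow_le_pow_right₀ ha (by omega)
        have e2 : X ^ (N₁ + N₂) ≤ X ^ (N₁ + N₂ + 1) := pow_le_pow_right₀ hX (by omega)
        have e3 : C ≤ C ^ (N₁ + N₂ + 1) := le_self_pow₀ hC1 (by omega)
        exact mul_le_mul (mul_le_mul e1 e2 (by positivity) (by positivity)) e3 (by positivity)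
          (by positivity)
    _ = _ := by ring

end Vale.Agent.P167.QX
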