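import Vale.Agent.P167.QX.RFam
import Vale.Agent.P167.H562.Q.MQ3
import Vale.Agent.P167.H562.Q.MQ1

/-!
# P167, general `q`: the loops off the rows, with a flow
-/

namespace Vale.Agent.P167.QX

open Finset
open Vale.Agent.P167.A (plane plane_nx plane_sg)
open Vale.Agent.P167.BR hiding dv
open Vale.Agent.P167.XDL (bS mem_bS lp_disj us ds)
open Vale.Agent.P167.FK
open Vale.Agent.P167.H825 (dv epos)
open Vale.Agent.P167.H562.MAJ (Sm)
open Vale.Agent.P167.H562.SML (smf mem_smf)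
open Vale.Agent.P167.H199 (cang strand ret mem_strand loop_nx loop_iter ret_min ret_le Returns
  strand_sub cang_congr ah at')
open Vale.Agent.P167.H685 (LE mem_LE)

variable {K : Finset (ℤ × ℤ)} {ω : Cfg} {θ : ℝ} {a : Ed → Bool → ℝ} {ℓ : Finset Ed} {c : Ed → ℝ}

theorem fs_dv (c : Ed → ℝ) : H685.fs c = dv c := by
  funext z
  unfold H685.fs H685.dv dv
  simp

theorem dv_fin (hc : (Function.support c).Finite) : (dv c).support.Finite := by
  rw [← fs_dv]
  have h1 : (H685.fs c).support ⊆ ((fun e : Ed => us e) '' Function.support c) ∪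
      ((fun e : Ed => ds e) '' Function.support c) := by
    intro z hz
    by_contra hn
    rw [Set.mem_union, not_or] at hn
    apply hz
    have hu : ∀ e, us e = z → c e = 0 := fun e he => by
      by_contra h
      exact hn.1 ⟨e, h, he⟩
    have hd : ∀ e, ds e = z → c e = 0 := fun e he => by
      by_contra h
      exact hn.2 ⟨e, h, he⟩
    rw [fs_dv]
    unfold dv
    have e1 := hu (Sum.inl (z.1 - 1, z.2 - 1))
    have e2 := hd (Sum.inl (z.1 - 1, z.2))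
    have e3 := hu (Sum.inr (z.1, z.2 - 1))
    have e4 := hd (Sum.inr (z.1 - 1, z.2 - 1))
    simp only [us, ds, sub_add_cancel] at e1 e2 e3 e4
    simp_all
  exact (((hc.image _).union (hc.image _)).subset h1)

/-- The flux of a finite flow through a loop. -/
theorem flux_loop (hl : IsLoop ω ℓ) (hc : (Function.support c).Finite) {s : ℤ}
    (hs : ∀ z, W ℓ z = 0 ∨ W ℓ z = s) :
    ∑ x ∈ ℓ, c x * sg x = s * G (dv c) ℓ := by
  classical
  have hfin : (dv c).support.Finite := dv_fin hc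

  have hE : ∀ e ∉ hc.toFinset, c e = 0 := fun e he => by
    by_contra h
    exact he (hc.mem_toFinset.2 h)
  rw [H685.stokes s_jump hl hE, fs_dv]
  have hG : G (dv c) ℓ = ∑' z : ℤ × ℤ, (ins ℓ).indicator (dv c) z := by
    unfold G
    rw [finsum_mem_def, tsum_eq_finsum]
    exact hfin.subset fun z hz => by
      rw [Function.mem_support] at hz ⊢
      intro h0
      apply hz
      by_cases hm : z ∈ ins ℓ
      · rw [Set.indicator_of_mem hm, h0]
      · rw [Set.indicator_of_notMem hm]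
  rw [hG, ← tsum_mul_left]
  refine tsum_congr fun z => ?_
  by_cases hm : z ∈ ins ℓ
  · rw [Set.indicator_of_mem hm]
    rcases hs z with h1 | h1
    · exact absurd h1 hm
    · rw [h1]
  · rw [Set.indicator_of_notMem hm]
    have : W ℓ z = 0 := by
      by_contra hn
      exact hm hn
    rw [this]
    simp

/-- **The angle of a loop with flow.** -/
theorem cos_flow (hl : IsLoop ω ℓ) (hc : (Function.support c).Finite)
    (hoff : ∀ e ∈ ℓ, a e false + a e true = c e) :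
    Real.cos (cang plane θ a ω ℓ) = Real.cos (θ + G (dv c) ℓ) := by
  rw [cang_loop hl hoff]
  rcases turn_loop hl with ⟨h1, h2⟩ | ⟨h1, h2⟩
  · rw [h1, flux_loop hl hc h2]
    congr 1
    push_cast
    ring
  · rw [h1, flux_loop hl hc h2, ← Real.cos_neg]
    congr 1
    push_cast
    ring

/-- A loop which does not meet the flow surrounds no mass. -/
theorem G_zero (hl : IsLoop ω ℓ) (hc : (Function.support c).Finite) (h : ∀ e ∈ ℓ, c e = 0) :
    G (dv c) ℓ = 0 := by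
  have h0 : ∑ x ∈ ℓ, c x * (sg x : ℝ) = 0 := sum_eq_zero fun x hx => by rw [h x hx, zero_mul]
  rcases turn_loop hl with ⟨-, h2⟩ | ⟨-, h2⟩
  · rw [flux_loop hl hc h2] at h0
    simpa using h0
  · rw [flux_loop hl hc h2] at h0
    simpa using h0

/-- **The product over the loops off the rows.** -/
theorem LpO_le (h0 : 0 < θ) (h1 : θ ≤ Real.pi / 3) (hc : (Function.support c).Finite)
    (hoff : ∀ e ∉ bS K, a e false + a e true = c e) {d : ℝ}
    (hG : ∀ ℓ, IsLoop ω ℓ → Small d ℓ → |G (dv c) ℓ| ≤ 1 / 2)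
    (hfar : ∀ ℓ, IsLoop ω ℓ → Small d ℓ → (∃ e ∈ ℓ, c e ≠ 0) → ∀ e ∈ ℓ, e ∉ eds K) :
    ∃ 𝓕 : Finset (Finset Ed), (∀ ℓ ∈ 𝓕, IsLoop ω ℓ ∧ (∀ e ∈ ℓ, e ∉ eds K) ∧ ¬ Small d ℓ ∧
      ∃ e ∈ ℓ, c e ≠ 0) ∧
      |LpO θ K a ω| ≤ ((Real.cos θ)⁻¹) ^ 𝓕.card * Real.exp (-(Real.tan θ * Sm (dv c) d ω)) := by
  classical
  have hp := Real.pi_pos
  have hcos : 0 < Real.cos θ := Real.cos_pos_of_mem_Ioo ⟨by linarith, by linarith⟩
  have h2 : (2 * Real.cos θ) ≠ 0 := by positivity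
  set E := hc.toFinset with hE
  have hEc : ∀ e ∉ E, c e = 0 := fun e he => by
    by_contra h
    exact he (hc.mem_toFinset.2 h)
  have hedge : ∀ ℓ : Finset Ed, (∀ e ∈ ℓ, e ∉ eds K) → ∀ e ∈ ℓ, a e false + a e true = c e := by
    intro ℓ h e he
    refine hoff e fun hS => h e he ?_
    rw [mem_bS] at hS
    rcases hS with hS | hS
    · exact mem_eds.2 (Or.inl hS.1)
    · exact mem_eds.2 (Or.inr hS.2)
  set val : Finset Ed → ℝ := fun ℓ => (2 * Real.cos (cang plane θ a ω ℓ)) / (2 * Real.cos θ)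
    with hval
  set 𝓛 := (LE ω E).filter (fun ℓ => ∀ e ∈ ℓ, e ∉ eds K) with h𝓛
  have hL : LpO θ K a ω = ∏ ℓ ∈ 𝓛, val ℓ := by
    unfold LpO
    apply finprod_mem_eq_prod_of_inter_mulSupport_eq
    ext ℓ
    simp only [Set.mem_inter_iff, Set.mem_ofPred_eq, Function.mem_mulSupport, mem_coe, h𝓛,
      mem_filter, mem_LE]
    constructor
    · rintro ⟨⟨k1, k3⟩, k2⟩
      refine ⟨⟨⟨k1, ?_⟩, k3⟩, k2⟩
      by_contra hn
      apply k2
      push Not at hn
      rw [cos_loop_zero k1 fun x hx => by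
        rw [hedge ℓ k3 x hx]
        exact hEc x fun hE => hn x hE hx]
      exact div_self h2
    · rintro ⟨⟨⟨k1, _⟩, k3⟩, k2⟩
      exact ⟨⟨k1, k3⟩, k2⟩
  have hv : ∀ ℓ ∈ 𝓛, val ℓ = Real.cos (θ + G (dv c) ℓ) / Real.cos θ := by
    intro ℓ hℓ
    obtain ⟨k1, k2⟩ := mem_filter.1 hℓ
    rw [hval]
    simp only
    rw [cos_flow (mem_LE.1 k1).1 hc (hedge ℓ k2)]
    field_simp
  -- the sum over the small loops
  have hsum : ∑ ℓ ∈ 𝓛.filter (Small d), G (dv c) ℓ = Sm (dv c) d ω := by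
    set F := (dv_fin hc).toFinset with hF
    have hF' : ∀ s, dv c s ≠ 0 → s ∈ F := fun s hs => (dv_fin hc).mem_toFinset.2 hs
    obtain ⟨A0, hA0⟩ : ∃ A0 : Finset (ℤ × ℤ), ∀ s, dv c s ≠ 0 → ∀ v : ℤ × ℤ,
        (nm (v - s) : ℝ) < d → v ∈ A0 := by
      refine ⟨F.biUnion fun s => Bq s (⌈d⌉ + 1), fun s hs v hv => ?_⟩
      rw [mem_biUnion]
      refine ⟨s, hF' s hs, ?_⟩
      have k1 : nm (v - s) < ⌈d⌉ + 1 := by
        have : (nm (v - s) : ℝ) < ((⌈d⌉ + 1 : ℤ) : ℝ) := by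
          push_cast
          linarith [Int.le_ceil d]
        exact_mod_cast this
      change max |v.1 - s.1| |v.2 - s.2| < _ at k1
      rw [max_lt_iff, abs_lt, abs_lt] at k1
      rw [Bq_eq, mem_Bx]
      simp only
      omega
    rw [← H562.MAJ.sum_G (A := A0 ∪ (LE ω E).biUnion vs) hF' (d := d)
      (fun s hs v hv => mem_union_left _ (hA0 s hs v hv)) ω]
    have key : ∀ ℓ, IsLoop ω ℓ → G (dv c) ℓ ≠ 0 → ∃ e ∈ E, e ∈ ℓ := by
      intro ℓ hl hG0
      by_contra hn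
      push Not at hn
      exact hG0 (G_zero hl hc fun e he => hEc e fun h => hn e h he)
    refine sum_subset_zero_on_sdiff ?_ ?_ fun _ _ => rfl
    · intro ℓ hℓ
      obtain ⟨k1, k2⟩ := mem_filter.1 hℓ
      obtain ⟨k3, k4⟩ := mem_filter.1 k1
      rw [mem_smf]
      refine ⟨(mem_LE.1 k3).1, ?_, k2⟩
      obtain ⟨e, he⟩ := (mem_LE.1 k3).1.nonempty
      exact ⟨hdv e, mem_image_of_mem _ he, mem_union_right _
        (mem_biUnion.2 ⟨ℓ, k3, mem_image_of_mem _ he⟩)⟩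
    · intro ℓ hℓ
      obtain ⟨k1, k2⟩ := mem_sdiff.1 hℓ
      obtain ⟨k3, -, k4⟩ := mem_smf.1 k1
      by_contra hG0
      apply k2
      obtain ⟨e, he, heℓ⟩ := key ℓ k3 hG0
      have he' : c e ≠ 0 := hc.mem_toFinset.1 he
      exact mem_filter.2 ⟨mem_filter.2 ⟨mem_LE.2 ⟨k3, e, he, heℓ⟩,
        hfar ℓ k3 k4 ⟨e, heℓ, he'⟩⟩, k4⟩
  refine ⟨𝓛.filter (fun ℓ => ¬ Small d ℓ), fun ℓ hℓ => ?_, ?_⟩
  · obtain ⟨k1, k2⟩ := mem_filter.1 hℓ
    obtain ⟨k3, k4⟩ := mem_filter.1 k1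
    obtain ⟨k5, e, k6, k7⟩ := mem_LE.1 k3
    exact ⟨k5, k4, k2, e, k7, hc.mem_toFinset.1 k6⟩
  · rw [hL, abs_prod, ← prod_filter_mul_prod_filter_not 𝓛 (Small d), mul_comm]
    have e1 : ∏ ℓ ∈ 𝓛.filter (fun ℓ => ¬ Small d ℓ), |val ℓ| ≤
        ((Real.cos θ)⁻¹) ^ (𝓛.filter (fun ℓ => ¬ Small d ℓ)).card := by
      rw [← prod_const]
      refine prod_le_prod (fun _ _ => abs_nonneg _) fun ℓ hℓ => ?_
      rw [hv ℓ (mem_filter.1 hℓ).1, abs_div, abs_of_pos hcos, div_eq_mul_inv]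
      exact mul_le_of_le_one_left (by positivity) (Real.abs_cos_le_one _)
    have e2 : ∏ ℓ ∈ 𝓛.filter (Small d), |val ℓ| ≤ Real.exp (-(Real.tan θ * Sm (dv c) d ω)) := by
      rw [← hsum, mul_sum, ← sum_neg_distrib, Real.exp_sum]
      refine prod_le_prod (fun _ _ => abs_nonneg _) fun ℓ hℓ => ?_
      obtain ⟨k1, k2⟩ := mem_filter.1 hℓ
      have k3 := hG ℓ (mem_LE.1 (mem_filter.1 k1).1).1 k2
      have k4 := Vale.Agent.P167.H562.QM.wt_nonneg' h0 h1 k3
      have k5 := Vale.Agent.P167.H562.QM.wt_le_exp h0 (by linarith) (t := G (dv c) ℓ)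
        (k3.trans (by linarith [Real.pi_gt_three]))
      rw [hv ℓ k1]
      unfold Vale.Agent.P167.H562.wt at k4 k5
      rw [abs_of_nonneg k4]
      exact k5
    exact mul_le_mul e1 e2 (prod_nonneg fun _ _ => abs_nonneg _) (by positivity)

end Vale.Agent.P167.QX
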