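import Vale.Agent.P167.QX.Thick
import Vale.Agent.P167.QX.Stag

/-!
# P167, general `q`, START (S2): the functional of a frame with holes

`D` is a polygon domain, `I` (the rows) a finite set of squares outside `D`. Away from the squares
`B` (the holes) the sides of `D` are sides of `I`. If the flow `c` vanishes on the orbits which visit
`B`, then the outer product of the frame with the flow is the outer product without flow times the
functional `XB` of the domain `D`.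
-/

namespace Vale.Agent.P167.QX

open Finset
open Vale.Agent.P167.A (plane plane_nx plane_sg)
open Vale.Agent.P167.E6 (IsPolygon Encloses)
open Vale.Agent.P167.H871 (Bd)
open Vale.Agent.P167.BR
open Vale.Agent.P167.H825 (dv)
open Vale.Agent.P167.XDL (bS mem_bS loop_cases lp_disj be_ne exists_idx pot_two mass_pot flow_piece
  strand_in ah_add_at)
open Vale.Agent.P167.FK
open Vale.Agent.P167.H199 (cang strand ret mem_strand loop_nx loop_iter ret_min ret_le ah at' hb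
  cang_congr)
open Vale.Agent.P167.H685 (LE mem_LE nx_loc)

variable {n : ℕ} {D I : Finset (ℤ × ℤ)} {ω ω' : Cfg} {θ β : ℝ} {q : ZMod n → ℤ × ℤ} {u : ℕ → ℤ}
  {ψ : ℕ → ℝ} {a a' a0 : Ed → Bool → ℝ} {c : Ed → ℝ} {K : ℝ} {B : Set (ℤ × ℤ)} {k : ℕ}

/-- The orbit of `e` visits `B`. -/
def Vis (B : Set (ℤ × ℤ)) (ω : Cfg) (e : Ed) : Prop := ∃ k : ℕ, hdv ((nx ω)^[k] e) ∈ B

/-- The phases `a0` with the flow `c`. -/
noncomputable def aF (a0 : Ed → Bool → ℝ) (c : Ed → ℝ) : Ed → Bool → ℝ := fun e b => a0 e b + c e / 2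

open Classical in
/-- The phases of the closed polygon with the values `v` on the sides. -/
noncomputable def aP (q : ZMod n → ℤ × ℤ) (v : ℕ → ℝ) (e : Ed) (b : Bool) : ℝ :=
  if h : ∃ k < n, be q (k : ZMod n) = e then
    (if b = hb plane e then 1 else -1) * v h.choose * (sg e : ℝ) else 0

/-- A frame `I` around `D` with holes in `B`. -/
structure Frame (θ : ℝ) (q : ZMod n → ℤ × ℤ) (D I : Finset (ℤ × ℤ)) (u : ℕ → ℤ) (ψ : ℕ → ℝ)
    (a0 : Ed → Bool → ℝ) (c : Ed → ℝ) (K : ℝ) (B : Set (ℤ × ℤ)) (ω : Cfg) : Prop where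
  good : Good ω
  disj : Disjoint D I
  hole : ∀ e ∈ bS D, e ∉ bS I → hdv e ∈ B
  far : ∀ e, Vis B ω e → c e = 0
  sup : ∀ e, c e ≠ 0 → hdv e ∈ D ∧ tlv e ∈ D
  off : ∀ e ∉ bS I, ∀ b, a0 e b = 0
  hd : ∀ k < n, be q (k : ZMod n) ∈ bS I → hdv (be q (k : ZMod n)) ∈ D →
    ah plane a0 (be q (k : ZMod n)) = θ / 4 * u k + ψ k + K
  tl : ∀ k < n, be q (k : ZMod n) ∈ bS I → tlv (be q (k : ZMod n)) ∈ D →
    at' plane a0 (be q (k : ZMod n)) = -(θ / 4 * u k + ψ k + K)

/-! ### phases -/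

theorem sg_or (e : Ed) : sg e = 1 ∨ sg e = -1 := by
  rcases e with ⟨x, y⟩ | ⟨x, y⟩ <;> simp only [sg] <;> split_ifs <;> simp

theorem sg_sq (e : Ed) : (sg e : ℝ) * sg e = 1 := by
  rcases sg_or e with h | h <;> rw [h] <;> norm_num

theorem ah_aF (e : Ed) : ah plane (aF a0 c) e = ah plane a0 e + c e / 2 * sg e := by
  unfold ah aF
  rw [plane_sg]
  ring

theorem at_aF (e : Ed) : at' plane (aF a0 c) e = at' plane a0 e + c e / 2 * sg e := by
  unfold at' aF
  rw [plane_sg]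
  ring

theorem choose_eq (hq : IsPolygon q) {k : ℕ} (hk : k < n)
    (h : ∃ j < n, be q (j : ZMod n) = be q (k : ZMod n)) : h.choose = k := by
  by_contra hne
  exact be_ne hq h.choose_spec.1 hk hne h.choose_spec.2

theorem ah_aP (hq : IsPolygon q) (v : ℕ → ℝ) {k : ℕ} (hk : k < n) :
    ah plane (aP q v) (be q (k : ZMod n)) = v k := by
  have h : ∃ j < n, be q (j : ZMod n) = be q (k : ZMod n) := ⟨k, hk, rfl⟩
  unfold ah aP
  rw [dif_pos h, if_pos rfl, choose_eq hq hk h, plane_sg, one_mul, mul_assoc, sg_sq, mul_one]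

theorem at_aP (hq : IsPolygon q) (v : ℕ → ℝ) {k : ℕ} (hk : k < n) :
    at' plane (aP q v) (be q (k : ZMod n)) = - v k := by
  have h : ∃ j < n, be q (j : ZMod n) = be q (k : ZMod n) := ⟨k, hk, rfl⟩
  unfold at' aP
  rw [dif_pos h, if_neg (by cases hb plane (be q (k : ZMod n)) <;> simp), choose_eq hq hk h,
    plane_sg, mul_assoc, mul_assoc, sg_sq, mul_one]
  ring

theorem aP_off (hq : IsPolygon q) (hD : Encloses q D) (v : ℕ → ℝ) {e : Ed} (he : e ∉ bS D)
    (b : Bool) : aP q v e b = 0 := by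
  unfold aP
  rw [dif_neg]
  rintro ⟨k, _, rfl⟩
  apply he
  rw [mem_bS]
  rcases be_bd hq hD (k : ZMod n) with h | h
  · exact Or.inl h
  · exact Or.inr h.symm

/-- The closed polygon with the flow `c`. -/
theorem gau_aP (hq : IsPolygon q) (hD : Encloses q D)
    (hsup : ∀ e, c e ≠ 0 → hdv e ∈ D ∧ tlv e ∈ D) :
    GauQ θ q D u ψ (aF (aP q fun k => θ / 4 * u k + ψ k + K) c) c K := by
  have hc : ∀ k : ℕ, c (be q (k : ZMod n)) = 0 := by
    intro k
    by_contra h
    have h1 := hsup _ h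
    rcases be_bd hq hD (k : ZMod n) with h2 | h2
    · exact h2.2 h1.2
    · exact h2.2 h1.1
  refine ⟨fun k hk _ => ?_, fun k hk _ => ?_, fun e he => ?_, hsup⟩
  · rw [ah_aF, ah_aP hq _ hk, hc, zero_div, zero_mul, add_zero]
  · rw [at_aF, at_aP hq _ hk, hc, zero_div, zero_mul, add_zero]
  · unfold aF
    rw [aP_off hq hD _ he, aP_off hq hD _ he]
    ring

/-! ### orbits -/

theorem vis_iter (hg : Good ω) {e : Ed} (j : ℕ) : Vis B ω ((nx ω)^[j] e) ↔ Vis B ω e := by
  constructor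
  · rintro ⟨k, hk⟩
    exact ⟨k + j, by rwa [Function.iterate_add_apply]⟩
  · rintro ⟨k, hk⟩
    obtain ⟨ℓ, h1, h2⟩ := hg e
    obtain ⟨m, hm⟩ := (H685.loop_gen h1 (loop_iter h1 h2 j) ((nx ω)^[k] e)).1 (loop_iter h1 h2 k)
    exact ⟨m, by rw [hm]; exact hk⟩

theorem cang_ph {D' : Finset Ed} (h : ∀ x ∈ (D' : Finset Ed), a x = a' x ∧ a (nx ω x) = a' (nx ω x)) :
    cang plane θ a ω D' = cang plane θ a' ω D' := by
  unfold cang
  refine sum_congr rfl fun x hx => ?_
  unfold ah at'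
  rw [plane_nx, (h x hx).1, (h x hx).2]

theorem returns_good (hg : Good ω) {S : Finset Ed} {e : Ed} (he : e ∈ S) :
    H199.Returns (nx ω) S e := by
  obtain ⟨ℓ, h1, h2⟩ := hg e
  obtain ⟨m, hm⟩ := (H685.loop_gen h1 (loop_nx h1 h2) e).1 h2
  exact ⟨m + 1, by omega, by rw [Function.iterate_succ_apply, hm]; exact he⟩

/-- A piece without flow has mass `0`. -/
theorem mass_zero (hq : IsPolygon q) (hD : Encloses q D)
    (hsup : ∀ e, c e ≠ 0 → hdv e ∈ D ∧ tlv e ∈ D) {A : Finset Ed} (hA : A ∈ pcs ω D)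
    (hc : ∀ x ∈ A, c x = 0) : mass D (q 0) (dv c) A = 0 := by
  obtain ⟨w, hw⟩ := exists_pot hq hD hA
  obtain ⟨κ, -, hκ⟩ := pot_two hq hD hA hw
  have hc0 : ∀ e ∉ eds D, c e = 0 := fun y hy => by
    by_contra h
    exact hy (mem_eds.2 (Or.inl (hsup y h).1))
  have hF := flow_piece (subset_eds hA) hw hc0 (w (q 0))
  rw [sum_eq_zero (fun x hx => by rw [hc x hx, zero_mul])] at hF
  obtain ⟨m1, m2⟩ := mass_pot hq hD hw hκ (dv c)
  rcases hκ (q 0) (XDL.base_mem hq hD) with h | h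
  · rw [m1 h, ← hF]
  · rw [m2 h, ← hF, neg_zero]

theorem eqv_loop {ℓ : Finset Ed} (hl : IsLoop ω ℓ) {y z : Ed} (h : Relation.EqvGen (Nxt ω D) y z) :
    y ∈ ℓ ↔ z ∈ ℓ := by
  induction h with
  | rel y z h =>
    obtain ⟨-, rfl⟩ := h
    refine ⟨fun h => loop_nx hl h, fun h => ?_⟩
    have hb : ℓ.image (nx ω) = ℓ := by
      apply eq_of_subset_of_card_le
      · intro y hy
        obtain ⟨x, hx, rfl⟩ := mem_image.1 hy
        exact loop_nx hl hx
      · rw [card_image_of_injective _ (s_nx ω).1]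
    rw [← hb] at h
    obtain ⟨w, hw, hw'⟩ := mem_image.1 h
    exact (s_nx ω).1 hw' ▸ hw
  | refl y => exact Iff.rfl
  | symm y z _ ih => exact ih.symm
  | trans y z w _ _ ih1 ih2 => exact ih1.trans ih2

theorem piece_sub_loop {ℓ : Finset Ed} (hl : IsLoop ω ℓ) {e : Ed} (he : e ∈ ℓ) :
    piece ω D e ⊆ ℓ := fun _ hx => (eqv_loop hl (mem_piece.1 hx).2).1 he

/-! ### locality off the holes -/

theorem eqv_off (h : ∀ v ∉ B, ω v = ω' v) {ℓ : Finset Ed} (hl : IsLoop ω ℓ)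
    (hB : ∀ x ∈ ℓ, hdv x ∉ B) {y z : Ed} (hyz : Relation.EqvGen (Nxt ω D) y z) (hy : y ∈ ℓ) :
    Relation.EqvGen (Nxt ω' D) y z := by
  induction hyz with
  | rel y z h1 =>
    obtain ⟨h2, rfl⟩ := h1
    refine Relation.EqvGen.rel _ _ ⟨h2, ?_⟩
    exact nx_loc (h _ (hB y hy))
  | refl y => exact Relation.EqvGen.refl _
  | symm y z h1 ih => exact (ih ((eqv_loop hl h1).2 hy)).symm
  | trans y z w h1 _ ih1 ih2 => exact (ih1 hy).trans _ _ _ (ih2 ((eqv_loop hl h1).1 hy))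

theorem loop_off (h : ∀ v ∉ B, ω v = ω' v) {ℓ : Finset Ed} (hl : IsLoop ω ℓ)
    (hB : ∀ x ∈ ℓ, hdv x ∉ B) : IsLoop ω' ℓ := by
  refine H685.loop_loc hl fun v hv => ?_
  unfold vs at hv
  obtain ⟨x, hx, rfl⟩ := mem_image.1 hv
  exact h _ (hB x hx)

theorem piece_off (h : ∀ v ∉ B, ω v = ω' v) {ℓ : Finset Ed} (hl : IsLoop ω ℓ)
    (hB : ∀ x ∈ ℓ, hdv x ∉ B) {e : Ed} (he : e ∈ ℓ) : piece ω D e = piece ω' D e := by
  ext x
  rw [mem_piece, mem_piece]
  exact and_congr_right fun _ => ⟨fun h1 => eqv_off h hl hB h1 he,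
    fun h1 => eqv_off (fun v hv => (h v hv).symm) (loop_off h hl hB) hB h1 he⟩

theorem vis_off (h : ∀ v ∉ B, ω v = ω' v) {e : Ed} (hv : ¬ Vis B ω e) : ¬ Vis B ω' e := by
  have key : ∀ k, (nx ω)^[k] e = (nx ω')^[k] e := by
    intro k
    induction k with
    | zero => rfl
    | succ k ih =>
      rw [Function.iterate_succ_apply', Function.iterate_succ_apply', ← ih]
      exact nx_loc (h _ fun hb => hv ⟨k, hb⟩)
  rintro ⟨k, hk⟩
  rw [← key] at hk
  exact hv ⟨k, hk⟩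

open Classical in
/-- The functional of the pieces whose orbits do not visit `B`. -/
noncomputable def XBoff (θ β : ℝ) (q : ZMod n → ℤ × ℤ) (D : Finset (ℤ × ℤ)) (k : ℕ)
    (f : ℤ × ℤ → ℝ) (B : Set (ℤ × ℤ)) (ω : Cfg) : ℝ :=
  ∏ A ∈ (pcs ω D).filter (fun A => ∀ e ∈ A, ¬ Vis B ω e), wB θ β q D k A (mass D (q 0) f A)

theorem pcs_off (hg : Good ω) (h : ∀ v ∉ B, ω v = ω' v) {A : Finset Ed} (hA : A ∈ pcs ω D)
    (hv : ∀ e ∈ A, ¬ Vis B ω e) : A ∈ pcs ω' D ∧ ∀ e ∈ A, ¬ Vis B ω' e := by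
  refine ⟨?_, fun e he => vis_off h (hv e he)⟩
  obtain ⟨e, he⟩ := pcs_nonempty hA
  obtain ⟨ℓ, h1, h2⟩ := hg e
  have hB : ∀ x ∈ ℓ, hdv x ∉ B := by
    intro x hx hb
    obtain ⟨j, rfl⟩ := (H685.loop_gen h1 h2 x).1 hx
    exact hv e he ⟨j, hb⟩
  rw [eq_piece_of_mem hA he, piece_off h h1 hB h2]
  exact piece_mem_pcs (subset_eds hA he)

/-- **(S2), locality:** the functional of the pieces off `B` does not depend on the squares of `B`. -/
theorem XBoff_congr (hg : Good ω) (hg' : Good ω') (h : ∀ v ∉ B, ω v = ω' v) (f : ℤ × ℤ → ℝ) :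
    XBoff θ β q D k f B ω = XBoff θ β q D k f B ω' := by
  classical
  unfold XBoff
  refine prod_congr ?_ fun _ _ => rfl
  ext A
  simp only [mem_filter]
  exact ⟨fun h1 => pcs_off hg h h1.1 h1.2,
    fun h1 => pcs_off hg' (fun v hv => (h v hv).symm) h1.1 h1.2⟩

theorem XB_eq_off (hq : IsPolygon q) (hD : Encloses q D) (hg : Good ω)
    (hsup : ∀ e, c e ≠ 0 → hdv e ∈ D ∧ tlv e ∈ D) (hfar : ∀ e, Vis B ω e → c e = 0)
    (hs : Real.sin θ ≠ 0) (hc : Real.cos θ ≠ 0) (hβ : Real.cos (θ / 2 + β) = Real.sin θ) :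
    XB θ β q D k (dv c) ω = XBoff θ β q D k (dv c) B ω := by
  classical
  unfold XB XBoff
  rw [← prod_filter_mul_prod_filter_not (pcs ω D) (fun A => ∀ e ∈ A, ¬ Vis B ω e)]
  conv_rhs => rw [← mul_one (∏ A ∈ (pcs ω D).filter (fun A => ∀ e ∈ A, ¬ Vis B ω e), _)]
  congr 1
  refine prod_eq_one fun A hA => ?_
  obtain ⟨hA, hv⟩ := mem_filter.1 hA
  push Not at hv
  obtain ⟨e, he, hv⟩ := hv
  rw [mass_zero hq hD hsup hA, wB_zero hs hc hβ]
  intro x hx
  obtain ⟨ℓ, g1, g2⟩ := hg e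
  rw [eq_piece_of_mem hA he] at hx
  obtain ⟨j, rfl⟩ := (H685.loop_gen g1 g2 x).1 (piece_sub_loop g1 g2 hx)
  exact hfar _ ((vis_iter hg j).2 hv)

namespace Frame

variable (F : Frame θ q D I u ψ a0 c K B ω)
include F

theorem bS_iff {x : Ed} (hx : ¬ Vis B ω x) (h : x ∈ bS D) : x ∈ bS I := by
  by_contra h1
  exact hx ⟨0, F.hole x h h1⟩

theorem notI {v : ℤ × ℤ} (h : v ∈ D) : v ∉ I := Finset.disjoint_left.1 F.disj h

/-- The strands of the frame in `D`. -/
theorem strand_D {e : Ed} (hv : ¬ Vis B ω e) (h1 : hdv e ∈ D) (h2 : tlv e ∉ D) :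
    strand (nx ω) (bS I) e = strand (nx ω) (bS D) e := by
  obtain ⟨m, hm, hr, hin, hx, -, -⟩ := strand_in (ω := ω) h1 h2
  have hret : ret (nx ω) (bS I) e = m := by
    have hmem : (nx ω)^[m] e ∈ bS I := by
      refine F.bS_iff (fun h => hv ((vis_iter F.good m).1 h)) ?_
      rw [mem_bS]
      refine Or.inr ⟨hx, ?_⟩
      obtain ⟨j, rfl⟩ : ∃ j, m = j + 1 := ⟨m - 1, by omega⟩
      rw [Function.iterate_succ_apply', tlv_nx]
      exact hin j (by omega)
    apply le_antisymm (ret_le hm hmem)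
    by_contra hlt
    push Not at hlt
    have hR : H199.Returns (nx ω) (bS I) e := ⟨m, hm, hmem⟩
    obtain ⟨g1, g2⟩ := hR.spec
    set j := ret (nx ω) (bS I) e with hj
    have h3 : hdv ((nx ω)^[j] e) ∈ D := hin j hlt
    have h4 : tlv ((nx ω)^[j] e) ∈ D := by
      obtain ⟨i, hi⟩ : ∃ i, j = i + 1 := ⟨j - 1, by omega⟩
      rw [hi, Function.iterate_succ_apply', tlv_nx]
      exact hin i (by omega)
    rw [mem_bS] at g2
    rcases g2 with h | h
    · exact F.notI h3 h.1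
    · exact F.notI h4 h.2
  unfold strand
  rw [hret, hr]

/-- The strands of the frame outside `D` stay outside `D`. -/
theorem strand_out {e : Ed} (hv : ¬ Vis B ω e) (h2 : hdv e ∉ D) {x : Ed}
    (hx : x ∈ strand (nx ω) (bS I) e) : hdv x ∉ D := by
  have key : ∀ j, j < ret (nx ω) (bS I) e → hdv ((nx ω)^[j] e) ∉ D := by
    intro j
    induction j with
    | zero => intro _; exact h2
    | succ j ih =>
      intro hj h3
      have h4 := ih (by omega)
      have h5 : (nx ω)^[j + 1] e ∉ bS I := ret_min (by omega) hj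
      apply h5
      refine F.bS_iff (fun h => hv ((vis_iter F.good _).1 h)) ?_
      rw [mem_bS]
      refine Or.inl ⟨h3, ?_⟩
      rw [Function.iterate_succ_apply', tlv_nx]
      exact h4
  obtain ⟨j, hj, rfl⟩ := mem_strand.1 hx
  exact key j hj

omit F in
/-- The factor of a strand without flow. -/
theorem cang_noflow {A : Finset Ed} (h : ∀ x ∈ A, c x = 0 ∧ c (nx ω x) = 0) :
    cang plane θ (aF a0 c) ω A = cang plane θ a0 ω A := by
  apply cang_ph
  intro x hx
  obtain ⟨h1, h2⟩ := h x hx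
  constructor <;> funext b <;> simp [aF, h1, h2]

theorem c_out {x : Ed} (h : hdv x ∉ D ∨ tlv x ∉ D) : c x = 0 := by
  by_contra h1
  have := F.sup x h1
  tauto

/-- The values of the phases on the sides of a strand in `D`. -/
theorem cang_D (hq : IsPolygon q) (hD : Encloses q D) (c' : Ed → ℝ) {e : Ed}
    (hu : Bd (D : Set (ℤ × ℤ)) n (fun k => q (k : ZMod n)) u 1)
    (hv : ¬ Vis B ω e) (h1 : hdv e ∈ D) (h2 : tlv e ∉ D) :
    cang plane θ (aF a0 c') ω (strand (nx ω) (bS I) e) =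
      cang plane θ (aF (aP q fun k => θ / 4 * u k + ψ k + K) c') ω (strand (nx ω) (bS D) e) := by
  rw [F.strand_D hv h1 h2]
  obtain ⟨m, hm, hr, hin, hx, -, -⟩ := strand_in (ω := ω) h1 h2
  have hh : ∀ x : Ed, ¬ Vis B ω x → hdv x ∈ D → x ∈ eds D →
      (x ∉ bS D ∨ (tlv x ∉ D)) →
      ah plane (aF a0 c') x = ah plane (aF (aP q fun k => θ / 4 * u k + ψ k + K) c') x := by
    intro x hxv hx1 hx2 hx3
    rw [ah_aF, ah_aF]
    congr 1
    by_cases hxS : x ∈ bS D
    · obtain ⟨k, hk, rfl⟩ := exists_idx hq hD hu hxS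
      rw [F.hd k hk (F.bS_iff hxv hxS) hx1, ah_aP hq _ hk]
    · unfold ah
      rw [aP_off hq hD _ hxS, F.off]
      intro hxI
      rw [mem_bS] at hxI hxS
      rcases hxI with h | h
      · exact F.notI hx1 h.1
      · have h5 : tlv x ∈ D := by
          by_contra h6
          exact hxS (Or.inl ⟨hx1, h6⟩)
        exact F.notI h5 h.2
  have ht : ∀ x : Ed, ¬ Vis B ω x → tlv x ∈ D →
      at' plane (aF a0 c') x = at' plane (aF (aP q fun k => θ / 4 * u k + ψ k + K) c') x := by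
    intro x hxv hx1
    rw [at_aF, at_aF]
    congr 1
    by_cases hxS : x ∈ bS D
    · obtain ⟨k, hk, rfl⟩ := exists_idx hq hD hu hxS
      rw [F.tl k hk (F.bS_iff hxv hxS) hx1, at_aP hq _ hk]
    · unfold at'
      rw [aP_off hq hD _ hxS, F.off]
      intro hxI
      rw [mem_bS] at hxI hxS
      rcases hxI with h | h
      · have h5 : hdv x ∈ D := by
          by_contra h6
          exact hxS (Or.inr ⟨h6, hx1⟩)
        exact F.notI h5 h.1
      · exact F.notI hx1 h.2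
  unfold cang
  refine sum_congr rfl fun x hx' => ?_
  obtain ⟨j, hj, rfl⟩ := mem_strand.1 hx'
  rw [hr] at hj
  have hvj : ¬ Vis B ω ((nx ω)^[j] e) := fun h => hv ((vis_iter F.good j).1 h)
  have hvj1 : ¬ Vis B ω ((nx ω)^[j + 1] e) := fun h => hv ((vis_iter F.good (j + 1)).1 h)
  rw [hh _ hvj (hin j hj) (mem_eds.2 (Or.inl (hin j hj))) ?_, plane_nx,
    ← Function.iterate_succ_apply' (nx ω), ht _ hvj1 ?_]
  · rw [Function.iterate_succ_apply', tlv_nx]
    exact hin j hj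
  · by_cases h3 : tlv ((nx ω)^[j] e) ∈ D
    · left
      rw [mem_bS]
      have := hin j hj
      tauto
    · exact Or.inr h3

/-! ### the factor of a strand -/

open Classical in
/-- **The factor of a strand with flow.** -/
theorem factor (hq : IsPolygon q) (hD : Encloses q D)
    (hu : Bd (D : Set (ℤ × ℤ)) n (fun k => q (k : ZMod n)) u 1) (hψ : ψ = stag θ β q k)
    (hs : Real.sin θ ≠ 0) (hc : Real.cos θ ≠ 0) (hβ : Real.cos (θ / 2 + β) = Real.sin θ) {e : Ed}
    (he : e ∈ bS I) (hI : hdv e ∉ I) :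
    2 * Real.cos (cang plane θ (aF a0 c) ω (strand (nx ω) (bS I) e)) =
      2 * Real.cos (cang plane θ a0 ω (strand (nx ω) (bS I) e)) *
        (if hdv e ∈ D then wB θ β q D k (piece ω D e) (mass D (q 0) (dv c) (piece ω D e)) else 1) := by
  have hret := (returns_good F.good he).spec
  by_cases hv : Vis B ω e
  · -- the orbit visits the holes
    have h1 : ∀ j, c ((nx ω)^[j] e) = 0 := fun j => F.far _ ((vis_iter F.good j).2 hv)
    rw [cang_noflow]
    · by_cases h2 : hdv e ∈ D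
      · have h3 : e ∈ eds D := mem_eds.2 (Or.inl h2)
        rw [if_pos h2, mass_zero hq hD F.sup (piece_mem_pcs h3), wB_zero hs hc hβ, mul_one]
        intro x hx
        -- the piece is in the orbit
        obtain ⟨ℓ, g1, g2⟩ := F.good e
        have h4 : x ∈ ℓ := piece_sub_loop g1 g2 hx
        obtain ⟨j, rfl⟩ := (H685.loop_gen g1 g2 x).1 h4
        exact h1 j
      · rw [if_neg h2, mul_one]
    · intro x hx
      obtain ⟨j, -, rfl⟩ := mem_strand.1 hx
      refine ⟨h1 j, ?_⟩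
      rw [← Function.iterate_succ_apply' (nx ω)]
      exact h1 (j + 1)
  · by_cases h2 : hdv e ∈ D
    · have h3 : tlv e ∉ D := by
        rw [mem_bS] at he
        rcases he with h | h
        · exact absurd h.1 hI
        · intro h4; exact F.notI h4 h.2
      have hA : piece ω D e ∈ pcs ω D := piece_mem_pcs (mem_eds.2 (Or.inl h2))
      have hnl : ¬ IsLp D (piece ω D e) := fun h =>
        h3 (h.tl hA (self_mem_piece (mem_eds.2 (Or.inl h2))))
      have hw := fun t => wQ_strand (t := t) (k := k) (β := β) hq hD hA hnl hs hc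
      rw [if_pos h2, F.cang_D hq hD c hu hv h2 h3,
        cos_strand hq hD hu (gau_aP hq hD F.sup) h2 h3]
      have h0 : cang plane θ a0 ω (strand (nx ω) (bS I) e) =
          cang plane θ (aF a0 0) ω (strand (nx ω) (bS I) e) :=
        (cang_noflow (c := 0) fun _ _ => ⟨rfl, rfl⟩).symm
      rw [h0, F.cang_D hq hD 0 hu hv h2 h3,
        cos_strand hq hD hu (gau_aP hq hD (c := 0) fun e h => absurd rfl h) h2 h3]
      have hm0 : mass D (q 0) (dv (0 : Ed → ℝ)) (piece ω D e) = 0 :=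
        mass_zero hq hD (fun e h => absurd rfl h) hA fun _ _ => rfl
      rw [hm0, hψ, hw, hw, wB_zero hs hc hβ, mul_one]
    · rw [if_neg h2, mul_one, cang_noflow]
      intro x hx
      have h3 := F.strand_out hv h2 hx
      exact ⟨F.c_out (Or.inl h3), F.c_out (Or.inr (by rw [tlv_nx]; exact h3))⟩

/-- A loop off `I` with flow is a loop of `D`. -/
theorem loop_D {ℓ : Finset Ed} (hl : IsLoop ω ℓ) (hI : ∀ e ∈ ℓ, e ∉ eds I) {x : Ed} (hx : x ∈ ℓ)
    (hcx : c x ≠ 0) : ℓ ∈ pcs ω D ∧ IsLp D ℓ := by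
  have hnv : ∀ y ∈ ℓ, ¬ Vis B ω y := by
    intro y hy hv
    apply hcx
    obtain ⟨j, hj⟩ := (H685.loop_gen hl hx y).1 hy
    refine F.far x ((vis_iter F.good j).1 ?_)
    rw [hj]; exact hv
  have hd : Disjoint ℓ (bS D) := by
    rw [Finset.disjoint_left]
    intro y hy hyS
    have h1 := F.bS_iff (hnv y hy) hyS
    apply hI y hy
    rw [mem_bS] at h1
    rcases h1 with h | h
    · exact mem_eds.2 (Or.inl h.1)
    · exact mem_eds.2 (Or.inr h.2)
  rcases loop_cases (D := D) hl hd with h | h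
  · exact h
  · exact absurd (mem_eds.2 (Or.inl (F.sup x hcx).1)) (h x hx)

open Classical in
/-- The product over the loops off `I`. -/
theorem loops (hq : IsPolygon q) (hD : Encloses q D) (hc : Real.cos θ ≠ 0) :
    (∏ᶠ ℓ ∈ {ℓ : Finset Ed | IsLoop ω ℓ ∧ ∀ e ∈ ℓ, e ∉ eds I},
      (2 * Real.cos (cang plane θ (aF a0 c) ω ℓ)) / (2 * Real.cos θ)) =
      ∏ A ∈ (pcs ω D).filter (IsLp D), wB θ β q D k A (mass D (q 0) (dv c) A) := by
  have h2 : (2 * Real.cos θ) ≠ 0 := mul_ne_zero two_ne_zero hc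
  have ha0 : ∀ ℓ : Finset Ed, (∀ e ∈ ℓ, e ∉ eds I) → ∀ e ∈ ℓ, ∀ b, a0 e b = 0 := by
    intro ℓ hℓ e he b
    refine F.off e (fun h => hℓ e he ?_) b
    rw [mem_bS] at h
    rcases h with h | h
    · exact mem_eds.2 (Or.inl h.1)
    · exact mem_eds.2 (Or.inr h.2)
  have hval : ∀ A ∈ (pcs ω D).filter (IsLp D), wB θ β q D k A (mass D (q 0) (dv c) A) =
      (2 * Real.cos (cang plane θ (aF a0 c) ω A)) / (2 * Real.cos θ) := by
    intro A hA
    obtain ⟨hA, hl⟩ := mem_filter.1 hA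
    have hD' : ∀ x ∈ A, x ∉ bS D ∧ hdv x ∈ D ∧ tlv x ∈ D := fun x hx =>
      ⟨fun h => Finset.disjoint_left.1 (lp_disj hA hl) hx h, hl x hx, hl.tl hA hx⟩
    have hoffI : ∀ x ∈ A, x ∉ bS I := by
      intro x hx h
      rw [mem_bS] at h
      obtain ⟨-, h3, h4⟩ := hD' x hx
      rcases h with h | h
      · exact F.notI h3 h.1
      · exact F.notI h4 h.2
    have hcg : cang plane θ (aF a0 c) ω A =
        cang plane θ (aF (aP q fun k => θ / 4 * u k + ψ k + K) c) ω A := by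
      apply cang_ph
      intro x hx
      have hx' : nx ω x ∈ A := loop_nx (hl.isLoop hA) hx
      constructor <;> funext b <;> unfold aF
      · rw [F.off x (hoffI x hx), aP_off hq hD _ (hD' x hx).1]
      · rw [F.off _ (hoffI _ hx'), aP_off hq hD _ (hD' _ hx').1]
    rw [hcg, cos_loop hq hD (gau_aP hq hD F.sup).off F.sup hA hl]
    unfold wB
    rw [if_pos hl, mul_div_mul_left _ _ two_ne_zero]
  rw [prod_congr rfl hval]
  apply finprod_mem_eq_prod_of_inter_mulSupport_eq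
  ext ℓ
  simp only [Set.mem_inter_iff, Set.mem_ofPred_eq, Function.mem_mulSupport, mem_coe, mem_filter]
  constructor
  · rintro ⟨⟨h1, h3⟩, h4⟩
    refine ⟨?_, h4⟩
    by_contra hn
    apply h4
    rw [cos_loop_zero h1 (fun x hx => ?_), div_self h2]
    have hcx : c x = 0 := by
      by_contra hcx
      exact hn (F.loop_D h1 h3 hx hcx)
    unfold aF
    rw [ha0 ℓ h3 x hx, ha0 ℓ h3 x hx, hcx]
    norm_num
  · rintro ⟨⟨h1, h3⟩, h4⟩
    refine ⟨⟨h3.isLoop h1, fun x hx hxI => ?_⟩, h4⟩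
    rw [mem_eds] at hxI
    rcases hxI with h | h
    · exact F.notI (h3 x hx) h
    · exact F.notI (h3.tl h1 hx) h

/-- Without flow the loops off `I` have weight `1`. -/
theorem loops_zero (hc : Real.cos θ ≠ 0) :
    (∏ᶠ ℓ ∈ {ℓ : Finset Ed | IsLoop ω ℓ ∧ ∀ e ∈ ℓ, e ∉ eds I},
      (2 * Real.cos (cang plane θ a0 ω ℓ)) / (2 * Real.cos θ)) = 1 := by
  apply finprod_mem_eq_one_of_forall_eq_one
  rintro ℓ ⟨h1, h3⟩
  rw [cos_loop_zero h1 (fun x hx => ?_), div_self (mul_ne_zero two_ne_zero hc)]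
  have h4 : x ∉ bS I := fun h => h3 x hx (by
    rw [mem_bS] at h
    rcases h with h | h
    · exact mem_eds.2 (Or.inl h.1)
    · exact mem_eds.2 (Or.inr h.2))
  rw [F.off x h4, F.off x h4, add_zero]

/-- **(S2)** The outer product of the frame with the flow. -/
theorem XoT_eq (hq : IsPolygon q) (hD : Encloses q D)
    (hu : Bd (D : Set (ℤ × ℤ)) n (fun k => q (k : ZMod n)) u 1) (hψ : ψ = stag θ β q k)
    (hs : Real.sin θ ≠ 0) (hc : Real.cos θ ≠ 0) (hβ : Real.cos (θ / 2 + β) = Real.sin θ) :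
    XoT θ I (aF a0 c) ω = XoT θ I a0 ω * XB θ β q D k (dv c) ω := by
  classical
  unfold XoT
  rw [F.loops (β := β) (k := k) hq hD hc, F.loops_zero hc, one_mul]
  unfold XoutQ XB
  rw [prod_congr rfl fun e he => F.factor hq hD hu hψ hs hc hβ (mem_filter.1 he).1
    (mem_filter.1 he).2, prod_mul_distrib,
    ← prod_filter_mul_prod_filter_not (pcs ω D) (IsLp D)
      (fun A => wB θ β q D k A (mass D (q 0) (dv c) A))]
  have hmem : ∀ e ∈ (bS D).filter (fun e => hdv e ∈ D), hdv e ∈ D ∧ tlv e ∉ D := by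
    intro e he
    rw [mem_filter, mem_bS] at he
    tauto
  have e1 : ∏ A ∈ (pcs ω D).filter (fun A => ¬ IsLp D A),
      wB θ β q D k A (mass D (q 0) (dv c) A) =
      ∏ e ∈ (bS D).filter (fun e => hdv e ∈ D),
        wB θ β q D k (piece ω D e) (mass D (q 0) (dv c) (piece ω D e)) := by
    symm
    refine prod_bij (fun e _ => piece ω D e) ?_ ?_ ?_ ?_
    · intro e he
      obtain ⟨h1, h2⟩ := hmem e he
      have h3 : e ∈ eds D := mem_eds.2 (Or.inl h1)
      rw [mem_filter]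
      exact ⟨piece_mem_pcs h3, fun h => h2 (h.tl (piece_mem_pcs h3) (self_mem_piece h3))⟩
    · intro e he e' he' h
      obtain ⟨h1, h2⟩ := hmem e he
      obtain ⟨h1', h2'⟩ := hmem e' he'
      have h3 : e ∈ eds D := mem_eds.2 (Or.inl h1)
      have h3' : e' ∈ eds D := mem_eds.2 (Or.inl h1')
      refine entry_unique (piece_mem_pcs (ω := ω) h3) (self_mem_piece h3) ?_ h2 h2'
      rw [h]
      exact self_mem_piece h3'
    · intro A hA
      rw [mem_filter] at hA
      obtain ⟨e, he, h2⟩ := exists_entry hA.1 hA.2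
      have h1 : hdv e ∈ D := (mem_eds.1 (subset_eds hA.1 he)).resolve_right h2
      refine ⟨e, ?_, (eq_piece_of_mem hA.1 he).symm⟩
      rw [mem_filter, mem_bS]
      exact ⟨Or.inl ⟨h1, h2⟩, h1⟩
    · intro e _
      rfl
  have e2 : ∏ e ∈ (bS I).filter (fun e => hdv e ∉ I),
      (if hdv e ∈ D then wB θ β q D k (piece ω D e) (mass D (q 0) (dv c) (piece ω D e)) else 1) =
      ∏ e ∈ (bS D).filter (fun e => hdv e ∈ D),
        wB θ β q D k (piece ω D e) (mass D (q 0) (dv c) (piece ω D e)) := by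
    rw [← prod_filter, filter_filter]
    apply prod_subset
    · intro e he
      rw [mem_filter] at he ⊢
      obtain ⟨h1, h2, h3⟩ := he
      rw [mem_bS] at h1 ⊢
      rcases h1 with h | h
      · exact absurd h.1 h2
      · exact ⟨Or.inl ⟨h3, fun h4 => F.notI h4 h.2⟩, h3⟩
    · intro e he hne
      obtain ⟨h1, h2⟩ := hmem e he
      have heS := (mem_filter.1 he).1
      have hv : Vis B ω e := by
        by_contra hv
        apply hne
        rw [mem_filter]
        exact ⟨F.bS_iff hv heS, F.notI h1, h1⟩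
      have h3 : e ∈ eds D := mem_eds.2 (Or.inl h1)
      rw [mass_zero hq hD F.sup (piece_mem_pcs h3), wB_zero hs hc hβ]
      intro x hx
      obtain ⟨ℓ, g1, g2⟩ := F.good e
      obtain ⟨j, rfl⟩ := (H685.loop_gen g1 g2 x).1 (piece_sub_loop g1 g2 hx)
      exact F.far _ ((vis_iter F.good j).2 hv)
  rw [e1, e2]
  ring

/-- **(S2)** `R_c = R_0 * XB (dv c)`. -/
theorem RT_eq (hq : IsPolygon q) (hD : Encloses q D)
    (hu : Bd (D : Set (ℤ × ℤ)) n (fun k => q (k : ZMod n)) u 1) (hψ : ψ = stag θ β q k)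
    (hs : Real.sin θ ≠ 0) (hc : Real.cos θ ≠ 0) (hβ : Real.cos (θ / 2 + β) = Real.sin θ) :
    RT θ I (aF a0 c) ω = RT θ I a0 ω * XB θ β q D k (dv c) ω := by
  unfold RT
  rw [F.XoT_eq hq hD hu hψ hs hc hβ]
  ring

end Frame

end Vale.Agent.P167.QX
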