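import Vale.Agent.P167.H562.GLm
import Vale.Agent.P167.H685.GFin

/-!
# P167, general `q`: quasi-local functions and the DLR property of the infinite-volume measure

`QL F`: on the configurations all of whose interfaces are finite loops, `F` depends, at every
configuration, on finitely many squares. For a bounded quasi-local `F` the finite-volume
expectations converge to the expectation for the infinite-volume measure `P`, and
`∫ F = ∫ Ex Q D ω F`.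
-/

namespace Vale.Agent.P167.QX

open Finset Filter Topology MeasureTheory
open Vale.Agent.P167.FK
open Vale.Agent.P167.FKA (Loc Ex_mono Ex_const Ex_mul_left Ex_add Ex_sub Ex_congr abs_Ex_le Zq_pos
  cf_out)
open Vale.Agent.P167.H519 (IsLim loc_cont Bq_mono exists_Bq)
open Vale.Agent.P167.H259 (f_markov)
open Vale.Agent.P167.H562.GL (loc_integrable)

/-- Quasi-local functions. -/
def QL {α : Type*} (F : Cfg → α) : Prop := ∀ ω, Good ω → ∃ K : Finset (ℤ × ℤ),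
  ∀ ω', Good ω' → (∀ v ∈ K, ω' v = ω v) → F ω' = F ω

theorem QL.const {α : Type*} (c : α) : QL (fun _ : Cfg => c) := fun _ _ => ⟨∅, fun _ _ _ => rfl⟩

theorem QL.comp {α β : Type*} {F : Cfg → α} (h : QL F) (g : α → β) : QL (fun ω => g (F ω)) := by
  intro ω hω
  obtain ⟨K, hK⟩ := h ω hω
  exact ⟨K, fun ω' h1 h2 => congrArg g (hK ω' h1 h2)⟩

theorem QL.pair {α β : Type*} {F : Cfg → α} {G : Cfg → β} (hF : QL F) (hG : QL G) :
    QL (fun ω => (F ω, G ω)) := by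
  intro ω hω
  obtain ⟨K, hK⟩ := hF ω hω
  obtain ⟨L, hL⟩ := hG ω hω
  classical
  refine ⟨K ∪ L, fun ω' h1 h2 => ?_⟩
  show (F ω', G ω') = (F ω, G ω)
  rw [hK ω' h1 fun v hv => h2 v (mem_union_left _ hv),
    hL ω' h1 fun v hv => h2 v (mem_union_right _ hv)]

theorem QL.comp2 {α β γ : Type*} {F : Cfg → α} {G : Cfg → β} (hF : QL F) (hG : QL G)
    (g : α → β → γ) : QL (fun ω => g (F ω) (G ω)) :=
  (hF.pair hG).comp fun p => g p.1 p.2

theorem QL.mul {F G : Cfg → ℝ} (hF : QL F) (hG : QL G) : QL (fun ω => F ω * G ω) :=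
  hF.comp2 hG (· * ·)

theorem QL.div {F G : Cfg → ℝ} (hF : QL F) (hG : QL G) : QL (fun ω => F ω / G ω) :=
  hF.comp2 hG (· / ·)

theorem QL.of_loc {B : Finset (ℤ × ℤ)} {F : Cfg → ℝ} (h : Loc B F) : QL F :=
  fun _ _ => ⟨B, fun _ _ h2 => h _ _ h2⟩

theorem QL.congr {α : Type*} {F G : Cfg → α} (hF : QL F) (h : ∀ ω, Good ω → F ω = G ω) : QL G := by
  intro ω hω
  obtain ⟨K, hK⟩ := hF ω hω
  exact ⟨K, fun ω' h1 h2 => by rw [← h ω' h1, ← h ω hω]; exact hK ω' h1 h2⟩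

theorem QL.sum {ι : Type*} (I : Finset ι) {F : ι → Cfg → ℝ} (h : ∀ i ∈ I, QL (F i)) :
    QL (fun ω => ∑ i ∈ I, F i ω) := by
  classical
  induction I using Finset.induction_on with
  | empty => simp only [sum_empty]; exact QL.const 0
  | @insert i I hi ih =>
    simp only [sum_insert hi]
    exact (h i (mem_insert_self _ _)).comp2 (ih fun j hj => h j (mem_insert_of_mem hj)) (· + ·)

theorem QL.prod {ι : Type*} (I : Finset ι) {F : ι → Cfg → ℝ} (h : ∀ i ∈ I, QL (F i)) :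
    QL (fun ω => ∏ i ∈ I, F i ω) := by
  classical
  induction I using Finset.induction_on with
  | empty => simp only [prod_empty]; exact QL.const 1
  | @insert i I hi ih =>
    simp only [prod_insert hi]
    exact (h i (mem_insert_self _ _)).comp2 (ih fun j hj => h j (mem_insert_of_mem hj)) (· * ·)

/-- Modification of the configuration in a finite set. -/
theorem QL.cf {α : Type*} {F : Cfg → α} (h : QL F) (D S : Finset (ℤ × ℤ)) :
    QL (fun ω => F (FK.cf D ω S)) := by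
  intro ω hω
  obtain ⟨K, hK⟩ := h _ (f_good.1 D ω S hω)
  refine ⟨K, fun ω' h1 h2 => hK _ (f_good.1 D ω' S h1) fun v hv => ?_⟩
  unfold FK.cf
  split_ifs
  · rfl
  · exact h2 v hv

/-- Functions of the loops which meet a finite set of edges. -/
theorem QL.of_loops {α : Type*} (E : Finset Ed) {F : Cfg → α}
    (h : ∀ ω ω', Good ω → Good ω' →
      (∀ ℓ, IsLoop ω ℓ → (∃ e ∈ E, e ∈ ℓ) → ∀ v ∈ vs ℓ, ω' v = ω v) → F ω' = F ω) : QL F := by
  classical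
  intro ω hω
  refine ⟨(H685.LE ω E).biUnion vs, fun ω' h1 h2 => h ω ω' hω h1 fun ℓ h3 h4 v hv => ?_⟩
  exact h2 v (mem_biUnion.2 ⟨ℓ, H685.mem_LE.2 ⟨h3, h4⟩, hv⟩)

/-- The loops which meet `E` are the same. -/
theorem loops_iff {ω ω' : Cfg} (hω : Good ω) {E : Finset Ed}
    (h : ∀ ℓ, IsLoop ω ℓ → (∃ e ∈ E, e ∈ ℓ) → ∀ v ∈ vs ℓ, ω' v = ω v) {ℓ : Finset Ed}
    (hE : ∃ e ∈ E, e ∈ ℓ) : IsLoop ω' ℓ ↔ IsLoop ω ℓ := by
  have key : ∀ ℓ, IsLoop ω ℓ → (∃ e ∈ E, e ∈ ℓ) → IsLoop ω' ℓ := fun ℓ h1 h2 =>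
    s_loc ω ω' ℓ h1 fun v hv => (h ℓ h1 h2 v hv).symm
  refine ⟨fun h1 => ?_, fun h1 => key ℓ h1 hE⟩
  obtain ⟨e, heE, heℓ⟩ := hE
  obtain ⟨ℓ', h2, h3⟩ := hω e
  have h4 : IsLoop ω' ℓ' := key ℓ' h2 ⟨e, heE, h3⟩
  have h5 : ℓ' = ℓ := IsLoop.eq_of_mem h4 h1 h3 heℓ
  rwa [h5] at h2

/-- The number of the loops which visit `D`. -/
theorem ql_LD (D : Finset (ℤ × ℤ)) : QL (LD D) := by
  intro ω hω
  classical
  obtain ⟨L, hL⟩ : ∃ L : Finset (Finset Ed), (L : Set (Finset Ed)) =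
      {ℓ | IsLoop ω ℓ ∧ ∃ v ∈ vs ℓ, v ∈ D} :=
    ⟨(H45.LV_fin s_two D ω).toFinset, Set.Finite.coe_toFinset _⟩
  have hLm : ∀ ℓ, ℓ ∈ L ↔ IsLoop ω ℓ ∧ ∃ v ∈ vs ℓ, v ∈ D := fun ℓ => by
    rw [← mem_coe, hL]; rfl
  refine ⟨L.biUnion vs, fun ω' h1 h2 => ?_⟩
  unfold LD
  congr 1
  have key : ∀ ℓ, IsLoop ω ℓ → (∃ v ∈ vs ℓ, v ∈ D) → IsLoop ω' ℓ := fun ℓ h3 h4 =>
    s_loc ω ω' ℓ h3 fun v hv => (h2 v (mem_biUnion.2 ⟨ℓ, (hLm ℓ).2 ⟨h3, h4⟩, hv⟩)).symm
  ext ℓ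
  constructor
  · rintro ⟨h3, v, hv, hvD⟩
    unfold vs at hv
    obtain ⟨e, he, rfl⟩ := mem_image.1 hv
    obtain ⟨ℓ', h4, h5⟩ := hω e
    have h6 : ∃ v ∈ vs ℓ', v ∈ D := ⟨hdv e, mem_image_of_mem _ h5, hvD⟩
    have h7 : ℓ' = ℓ := IsLoop.eq_of_mem (key ℓ' h4 h6) h3 h5 he
    rw [h7] at h4 h6
    exact ⟨h4, h6⟩
  · rintro ⟨h3, h4⟩
    exact ⟨key ℓ h3 h4, h4⟩

variable {Q : ℝ}

theorem ql_Zq (D : Finset (ℤ × ℤ)) : QL (Zq Q D) :=
  QL.sum _ fun S _ => ((ql_LD D).cf D S).comp fun k => Q ^ k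

/-- The kernel of the model in `D`. -/
theorem ql_Ex (D : Finset (ℤ × ℤ)) {F : Cfg → ℝ} (hF : QL F) : QL (fun ω => Ex Q D ω F) :=
  (QL.sum _ fun S _ => (((ql_LD D).cf D S).comp fun k => Q ^ k).mul (hF.cf D S)).div (ql_Zq D)

/-! ### truncation -/

/-- The configuration closed outside of the box of radius `R`. -/
noncomputable def trunc (R : ℤ) (ω : Cfg) : Cfg :=
  FK.cf (Bq 0 R) eta0 ((Bq 0 R).filter fun v => ω v = true)

theorem trunc_good (R : ℤ) (ω : Cfg) : Good (trunc R ω) := f_good.1 _ _ _ f_good.2.1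

theorem trunc_eq {R : ℤ} {ω : Cfg} {v : ℤ × ℤ} (hv : v ∈ Bq 0 R) : trunc R ω v = ω v := by
  unfold trunc FK.cf
  rw [if_pos hv]
  cases h : ω v <;> simp [h, hv]

theorem trunc_congr {R : ℤ} {ω ω' : Cfg} (h : ∀ v ∈ Bq 0 R, ω v = ω' v) :
    trunc R ω = trunc R ω' := by
  unfold trunc
  congr 1
  exact filter_congr fun v hv => by rw [h v hv]

/-- `F` is determined by the squares of the box of radius `R`. -/
def Det {α : Type*} (F : Cfg → α) (R : ℤ) : Set Cfg :=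
  {ω | ∀ ω', Good ω' → (∀ v ∈ Bq 0 R, ω' v = ω v) → F ω' = F (trunc R ω)}

theorem det_loc {α : Type*} (F : Cfg → α) (R : ℤ) :
    Loc (Bq 0 R) ((Det F R)ᶜ.indicator (1 : Cfg → ℝ)) := by
  have key : ∀ ω ω' : Cfg, (∀ v ∈ Bq 0 R, ω v = ω' v) → ω ∈ Det F R → ω' ∈ Det F R := by
    intro ω ω' h h1 ω'' h2 h3
    rw [h1 ω'' h2 fun v hv => (h3 v hv).trans (h v hv).symm, trunc_congr h]
  intro ω ω' h
  by_cases h1 : ω ∈ Det F R
  · have h2 := key ω ω' h h1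
    simp [h1, h2]
  · have h2 : ω' ∉ Det F R := fun h2 => h1 (key ω' ω (fun v hv => (h v hv).symm) h2)
    simp [h1, h2]

theorem QL.det {α : Type*} {F : Cfg → α} (hF : QL F) {ω : Cfg} (hω : Good ω) :
    ∀ᶠ R : ℕ in atTop, ω ∈ Det F R := by
  obtain ⟨K, hK⟩ := hF ω hω
  obtain ⟨r, -, hr⟩ := exists_Bq K
  filter_upwards [eventually_ge_atTop r.toNat] with R hR ω' h1 h2
  have hsub : K ⊆ Bq 0 (R : ℤ) := hr.trans (Bq_mono (by omega))
  rw [hK ω' h1 fun v hv => h2 v (hsub hv),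
    hK (trunc R ω) (trunc_good _ _) fun v hv => trunc_eq (hsub hv)]

theorem QL.trunc {α : Type*} {F : Cfg → α} (hF : QL F) {ω : Cfg} (hω : Good ω) :
    ∀ᶠ R : ℕ in atTop, F (trunc R ω) = F ω := by
  filter_upwards [hF.det hω] with R hR
  exact (hR ω hω fun _ _ => rfl).symm

theorem loc_trunc (F : Cfg → ℝ) (R : ℤ) : Loc (Bq 0 R) (fun ω => F (QX.trunc R ω)) :=
  fun ω ω' h => by
    show F (QX.trunc R ω) = F (QX.trunc R ω')
    rw [trunc_congr fun v hv => h v hv]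

/-! ### the limit measure -/

variable {P : Measure Cfg}

theorem QL.aesm [IsFiniteMeasure P] {F : Cfg → ℝ} (hF : QL F) (hg : ∀ᵐ ω ∂P, Good ω) :
    AEStronglyMeasurable F P := by
  refine aestronglyMeasurable_of_tendsto_ae (u := (atTop : Filter ℕ))
    (f := fun R ω => F (QX.trunc R ω)) (fun R => (loc_integrable (loc_trunc F R)).1) ?_
  filter_upwards [hg] with ω hω
  exact tendsto_const_nhds.congr' ((hF.trunc hω).mono fun _ h => h.symm)

theorem QL.int [IsFiniteMeasure P] {F : Cfg → ℝ} (hF : QL F) (hg : ∀ᵐ ω ∂P, Good ω) {M : ℝ}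
    (hM : ∀ ω, Good ω → |F ω| ≤ M) : Integrable F P :=
  Integrable.of_bound (hF.aesm hg) M (hg.mono fun ω hω => by
    rw [Real.norm_eq_abs]; exact hM ω hω)

/-- **The finite-volume expectations of a bounded quasi-local function converge.** -/
theorem ql_lim (hP : IsLim Q P) (hQ : 0 < Q) (hg : ∀ᵐ ω ∂P, Good ω) {F : Cfg → ℝ} (hF : QL F)
    {M : ℝ} (hM : ∀ ω, Good ω → |F ω| ≤ M) {ε : ℝ} (hε : 0 < ε) :
    ∃ R : ℤ, ∀ (D : Finset (ℤ × ℤ)) (η : Cfg), Bq 0 R ⊆ D → Good η →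
      |Ex Q D η F - ∫ ω, F ω ∂P| ≤ ε := by
  have hPp : IsProbabilityMeasure P := hP.1
  have hM0 : 0 ≤ M := (abs_nonneg _).trans (hM _ f_good.2.1)
  -- the probability of the bad event
  have h0 : Tendsto (fun R : ℕ => ∫ ω, (Det F R)ᶜ.indicator (1 : Cfg → ℝ) ω ∂P) atTop (𝓝 0) := by
    have h1 := tendsto_integral_of_dominated_convergence (μ := P)
      (F := fun (R : ℕ) ω => (Det F R)ᶜ.indicator (1 : Cfg → ℝ) ω) (f := fun _ => (0 : ℝ))
      (fun _ => (1 : ℝ)) (fun R => (loc_integrable (det_loc F R)).1) (integrable_const _)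
      (fun R => Eventually.of_forall fun ω => by
        rw [Real.norm_eq_abs, abs_of_nonneg (FKA.ind_nonneg _ _)]
        exact FKA.ind_le_one _ _)
      (by
        filter_upwards [hg] with ω hω
        refine tendsto_const_nhds.congr' ((hF.det hω).mono fun R hR => ?_)
        simp [hR])
    simpa using h1
  set δ : ℝ := ε / (6 * M + 1) with hδ
  have hδ0 : 0 < δ := by positivity
  obtain ⟨R, hR⟩ := (h0.eventually (gt_mem_nhds hδ0)).exists
  obtain ⟨R1, h1⟩ := hP.2 _ _ (det_loc F R) δ hδ0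
  obtain ⟨R2, h2⟩ := hP.2 _ _ (loc_trunc F R) δ hδ0
  refine ⟨max R1 R2, fun D η hD hη => ?_⟩
  have k1 := h1 D η ((Bq_mono (le_max_left _ _)).trans hD) hη
  have k2 := h2 D η ((Bq_mono (le_max_right _ _)).trans hD) hη
  have hdiff : ∀ ω, Good ω → |F ω - F (QX.trunc R ω)| ≤
      2 * M * (Det F R)ᶜ.indicator (1 : Cfg → ℝ) ω := by
    intro ω hω
    by_cases h : ω ∈ Det F R
    · rw [h ω hω fun _ _ => rfl, sub_self, abs_zero]
      simp [h]
    · have e : (Det F R)ᶜ.indicator (1 : Cfg → ℝ) ω = 1 := by simp [h]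
      rw [e, mul_one]
      calc |F ω - F (QX.trunc R ω)| ≤ |F ω| + |F (QX.trunc R ω)| := abs_sub _ _
        _ ≤ 2 * M := by linarith [hM ω hω, hM _ (trunc_good R ω)]
  have k3 : |Ex Q D η F - Ex Q D η (fun ω => F (QX.trunc R ω))| ≤
      2 * M * Ex Q D η ((Det F R)ᶜ.indicator (1 : Cfg → ℝ)) := by
    rw [← Ex_sub, ← Ex_mul_left]
    refine (abs_Ex_le hQ _).trans (Ex_mono hQ fun S _ => ?_)
    exact hdiff _ (f_good.1 D η S hη)
  have k4 : |∫ ω, F (QX.trunc R ω) ∂P - ∫ ω, F ω ∂P| ≤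
      2 * M * ∫ ω, (Det F R)ᶜ.indicator (1 : Cfg → ℝ) ω ∂P := by
    have i1 := hF.int hg hM
    have i2 : Integrable (fun ω => F (QX.trunc R ω)) P := loc_integrable (loc_trunc F R)
    rw [← integral_sub i2 i1, ← integral_const_mul]
    refine (abs_integral_le_integral_abs).trans (integral_mono_ae (i2.sub i1).abs
      ((loc_integrable (det_loc F R)).const_mul _) ?_)
    filter_upwards [hg] with ω hω
    rw [abs_sub_comm]
    exact hdiff ω hω
  have k5 : Ex Q D η ((Det F R)ᶜ.indicator (1 : Cfg → ℝ)) ≤ 2 * δ := by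
    have := (abs_le.1 k1).2
    linarith
  have k6 : ε = δ * (6 * M + 1) := by rw [hδ]; field_simp
  have k7 : 2 * M * Ex Q D η ((Det F R)ᶜ.indicator (1 : Cfg → ℝ)) ≤ 2 * M * (2 * δ) :=
    mul_le_mul_of_nonneg_left k5 (by positivity)
  have k8 : 2 * M * ∫ ω, (Det F R)ᶜ.indicator (1 : Cfg → ℝ) ω ∂P ≤ 2 * M * δ :=
    mul_le_mul_of_nonneg_left hR.le (by positivity)
  rw [abs_le] at k2 k3 k4 ⊢
  constructor <;> nlinarith

/-- **DLR property.** -/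
theorem dlr (hP : IsLim Q P) (hQ : 0 < Q) (hg : ∀ᵐ ω ∂P, Good ω) {F : Cfg → ℝ} (hF : QL F)
    {M : ℝ} (hM : ∀ ω, Good ω → |F ω| ≤ M) (D : Finset (ℤ × ℤ)) :
    ∫ ω, F ω ∂P = ∫ ω, Ex Q D ω F ∂P := by
  have hM' : ∀ ω, Good ω → |Ex Q D ω F| ≤ M := by
    intro ω hω
    refine (abs_Ex_le hQ F).trans ?_
    rw [← Ex_const (D := D) (η := ω) hQ M]
    exact Ex_mono hQ fun S _ => hM _ (f_good.1 D ω S hω)
  have key : ∀ ε > 0, |∫ ω, F ω ∂P - ∫ ω, Ex Q D ω F ∂P| ≤ ε := by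
    intro ε hε
    obtain ⟨R1, h1⟩ := ql_lim hP hQ hg hF hM (half_pos hε)
    obtain ⟨R2, h2⟩ := ql_lim hP hQ hg (ql_Ex (Q := Q) D hF) hM' (half_pos hε)
    obtain ⟨r, -, hr⟩ := exists_Bq D
    set R := max (max R1 R2) r with hR
    have k1 := h1 (Bq 0 R) eta0 (Bq_mono ((le_max_left _ _).trans (le_max_left _ _))) f_good.2.1
    have k2 := h2 (Bq 0 R) eta0 (Bq_mono ((le_max_right _ _).trans (le_max_left _ _))) f_good.2.1
    rw [← f_markov Q D (Bq 0 R) eta0 F hQ (hr.trans (Bq_mono (le_max_right _ _)))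
      f_good.2.1] at k2
    rw [abs_le] at k1 k2 ⊢
    constructor <;> linarith
  by_contra hne
  have h := key (|∫ ω, F ω ∂P - ∫ ω, Ex Q D ω F ∂P| / 2)
    (half_pos (abs_pos.2 (sub_ne_zero.2 hne)))
  have h' := abs_pos.2 (sub_ne_zero.2 hne)
  linarith

end Vale.Agent.P167.QX
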