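import Vale.Agent.P167.QX.Kappa

/-!
# P167, general `q`, (T2): at most one excursion of a loop has its bounded side on the left

`I` is a finite set of squares, frozen closed (or open). An excursion of a loop is an outer strand
together with the edge at which it comes back to `I`. `ExtPot I A σ φ`: exterior potential of the
excursion `A`, `σ = 1` if the bounded side is on the left, `σ = -1` if it is on the right.
-/

namespace Vale.Agent.P167.QX

open Finset
open Vale.Agent.P167.BR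
open Vale.Agent.P167.XDL (bS mem_bS)
open Vale.Agent.P167.FK
open Vale.Agent.P167.H199 (strand ret mem_strand loop_nx loop_iter ret_min ret_le Returns)

variable {I : Finset (ℤ × ℤ)} {ω : Cfg} {ℓ A A' : Finset Ed} {e e' x : Ed} {φ φ' : ℤ × ℤ → ℤ} {σ : ℤ}

/-- The excursion which leaves `I` at `e`: the strand and the edge at which it comes back. -/
noncomputable def exc (I : Finset (ℤ × ℤ)) (ω : Cfg) (e : Ed) : Finset Ed :=
  insert ((nx ω)^[ret (nx ω) (bS I) e] e) (strand (nx ω) (bS I) e)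

/-- Exterior potential of `A`. -/
structure ExtPot (I : Finset (ℤ × ℤ)) (A : Finset Ed) (σ : ℤ) (φ : ℤ × ℤ → ℤ) : Prop where
  sgn : σ = 1 ∨ σ = -1
  jump : ∀ x, (hdv x ∉ I ∨ tlv x ∉ I) → φ (ls x) = φ (rs x) + if x ∈ A then 1 else 0
  left : ∀ x ∈ A, φ (ls x) = (1 + σ) / 2
  right : ∀ x ∈ A, φ (rs x) = (σ - 1) / 2
  far : ∃ R : ℤ, ∀ z : ℤ × ℤ, (R < |z.1| ∨ R < |z.2|) → φ z = 0

/-- The sites outside `I` are connected off the inner edges of `I`. -/
def ExtConn (I : Finset (ℤ × ℤ)) : Prop :=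
  ∀ g : ℤ × ℤ → ℤ, (∀ x, (hdv x ∉ I ∨ tlv x ∉ I) → g (ls x) = g (rs x)) →
    ∃ c, ∀ x, (hdv x ∉ I ∨ tlv x ∉ I) → g (ls x) = c ∧ g (rs x) = c

/-! ### excursions -/

theorem mem_exc :
    x ∈ exc I ω e ↔ ∃ k ≤ ret (nx ω) (bS I) e, (nx ω)^[k] e = x := by
  unfold exc
  rw [mem_insert, mem_strand]
  constructor
  · rintro (h | ⟨k, hk, h⟩)
    · exact ⟨_, le_rfl, h.symm⟩
    · exact ⟨k, hk.le, h⟩
  · rintro ⟨k, hk, h⟩
    rcases Nat.lt_or_ge k (ret (nx ω) (bS I) e) with h' | h'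
    · exact Or.inr ⟨k, h', h⟩
    · left
      rw [← h, le_antisymm hk h']

/-- The last edge of an excursion enters `I`. -/
theorem exc_last (h1 : hdv e ∉ I) (hr : Returns (nx ω) (bS I) e) :
    hdv ((nx ω)^[ret (nx ω) (bS I) e] e) ∈ I ∧ tlv ((nx ω)^[ret (nx ω) (bS I) e] e) ∉ I := by
  obtain ⟨h2, h3⟩ := hr.spec
  have h4 : tlv ((nx ω)^[ret (nx ω) (bS I) e] e) ∉ I := by
    obtain ⟨m, hm⟩ : ∃ m, ret (nx ω) (bS I) e = m + 1 := ⟨_, (Nat.sub_add_cancel h2).symm⟩
    rw [hm, Function.iterate_succ_apply', tlv_nx]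
    exact out_stays h1 (by omega)
  rw [mem_bS] at h3
  rcases h3 with h | h
  · exact h
  · exact absurd h.2 h4

/-- The edges of an excursion are not inner edges. -/
theorem exc_ni (h1 : hdv e ∉ I) (hr : Returns (nx ω) (bS I) e) (hx : x ∈ exc I ω e) :
    hdv x ∉ I ∨ tlv x ∉ I := by
  obtain ⟨k, hk, rfl⟩ := (mem_exc).1 hx
  rcases Nat.lt_or_ge k (ret (nx ω) (bS I) e) with h' | h'
  · exact Or.inl (out_stays h1 h')
  · rw [le_antisymm hk h']
    exact Or.inr (exc_last h1 hr).2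

/-- Off `I` an excursion is closed under the successor, in both directions. -/
theorem exc_nx (h1 : hdv e ∉ I) (h2 : tlv e ∈ I) (hr : Returns (nx ω) (bS I) e) (hx : hdv x ∉ I) :
    nx ω x ∈ exc I ω e ↔ x ∈ exc I ω e := by
  rw [mem_exc, mem_exc]
  constructor
  · rintro ⟨k, hk, h⟩
    rcases k with _ | k
    · exfalso
      have h3 : e = nx ω x := h
      rw [h3, tlv_nx] at h2
      exact hx h2
    · refine ⟨k, by omega, ?_⟩
      rw [Function.iterate_succ_apply'] at h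
      exact (s_nx ω).1 h
  · rintro ⟨k, hk, rfl⟩
    rcases Nat.lt_or_ge k (ret (nx ω) (bS I) e) with h' | h'
    · exact ⟨k + 1, by omega, by rw [Function.iterate_succ_apply']⟩
    · exfalso
      rw [le_antisymm hk h'] at hx
      exact hx (exc_last h1 hr).1

/-- Different excursions are disjoint. -/
theorem exc_disj (h1 : hdv e ∉ I) (h2 : tlv e ∈ I) (hr : Returns (nx ω) (bS I) e)
    (h1' : hdv e' ∉ I) (h2' : tlv e' ∈ I) (hr' : Returns (nx ω) (bS I) e') (hne : e ≠ e')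
    (hx : x ∈ exc I ω e) : x ∉ exc I ω e' := by
  intro hx'
  obtain ⟨k, hk, h⟩ := (mem_exc).1 hx
  obtain ⟨k', hk', h'⟩ := (mem_exc).1 hx'
  -- go back to the first edges
  have key : ∀ (k k' : ℕ) (e e' : Ed), hdv e ∉ I → tlv e ∈ I → hdv e' ∉ I → tlv e' ∈ I →
      Returns (nx ω) (bS I) e → Returns (nx ω) (bS I) e' → k ≤ ret (nx ω) (bS I) e →
      k' ≤ ret (nx ω) (bS I) e' → k ≤ k' → (nx ω)^[k] e = (nx ω)^[k'] e' → e = e' := by
    intro k k' e e' g1 g2 g1' g2' _ gr' hk hk' hle h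
    obtain ⟨j, rfl⟩ := Nat.exists_eq_add_of_le hle
    rw [Function.iterate_add_apply] at h
    have h3 := (s_nx ω).1.iterate k h
    rcases Nat.eq_zero_or_pos j with rfl | hj
    · exact h3
    · exfalso
      have h4 : (nx ω)^[j] e' ∈ bS I := by
        rw [← h3, mem_bS]
        exact Or.inr ⟨g1, g2⟩
      have h5 := ret_le hj h4
      -- then `k = 0` and `e` would be the last edge of the excursion of `e'`
      have h6 : j = ret (nx ω) (bS I) e' := by omega
      have h7 := (exc_last g1' gr').1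
      rw [← h6, ← h3] at h7
      exact g1 h7
  rcases le_total k k' with hle | hle
  · exact hne (key k k' e e' h1 h2 h1' h2' hr hr' hk hk' hle (h.trans h'.symm))
  · exact hne (key k' k e' e h1' h2' h1 h2 hr' hr hk' hk hle (h'.trans h.symm)).symm

/-! ### the value of the potential along a loop -/

/-- **Closed `I`:** the potential of an excursion of the loop is constant on the left of the loop. -/
theorem pot_ls (hcl : ∀ v ∈ I, ω v = false) (hl : IsLoop ω ℓ) (heℓ : e ∈ ℓ) (h1 : hdv e ∉ I)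
    (h2 : tlv e ∈ I) (hφ : ExtPot I (exc I ω e) σ φ) (hx : x ∈ ℓ) : φ (ls x) = (1 + σ) / 2 := by
  have hr : Returns (nx ω) (bS I) e := returns_loop hl heℓ (mem_bS.2 (Or.inr ⟨h1, h2⟩))
  have hstep : ∀ y : Ed, φ (ls (nx ω y)) = φ (ls y) := by
    intro y
    by_cases hy : hdv y ∈ I
    · rw [ls_nx (hcl _ hy)]
    · cases hω : ω (hdv y) with
      | false => rw [ls_nx hω]
      | true =>
        have g1 := hφ.jump y (Or.inl hy)
        have g2 := hφ.jump (nx ω y) (Or.inr (by rw [tlv_nx]; exact hy))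
        rw [rs_nx hω] at g2
        rw [g1, g2, if_congr (exc_nx h1 h2 hr hy) rfl rfl]
  obtain ⟨m, rfl⟩ := (H685.loop_gen hl heℓ x).1 hx
  have h0 : φ (ls e) = (1 + σ) / 2 := hφ.left e ((mem_exc).2 ⟨0, Nat.zero_le _, rfl⟩)
  clear hx
  induction m with
  | zero => exact h0
  | succ m ih => rw [Function.iterate_succ_apply', hstep, ih]

/-- **Open `I`:** the potential of an excursion of the loop is constant on the right of the loop. -/
theorem pot_rs (hop : ∀ v ∈ I, ω v = true) (hl : IsLoop ω ℓ) (heℓ : e ∈ ℓ) (h1 : hdv e ∉ I)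
    (h2 : tlv e ∈ I) (hφ : ExtPot I (exc I ω e) σ φ) (hx : x ∈ ℓ) : φ (rs x) = (σ - 1) / 2 := by
  have hr : Returns (nx ω) (bS I) e := returns_loop hl heℓ (mem_bS.2 (Or.inr ⟨h1, h2⟩))
  have hstep : ∀ y : Ed, φ (rs (nx ω y)) = φ (rs y) := by
    intro y
    by_cases hy : hdv y ∈ I
    · rw [rs_nx (hop _ hy)]
    · cases hω : ω (hdv y) with
      | true => rw [rs_nx hω]
      | false =>
        have g1 := hφ.jump y (Or.inl hy)
        have g2 := hφ.jump (nx ω y) (Or.inr (by rw [tlv_nx]; exact hy))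
        rw [ls_nx hω, if_congr (exc_nx h1 h2 hr hy) rfl rfl] at g2
        linarith
  obtain ⟨m, rfl⟩ := (H685.loop_gen hl heℓ x).1 hx
  have h0 : φ (rs e) = (σ - 1) / 2 := hφ.right e ((mem_exc).2 ⟨0, Nat.zero_le _, rfl⟩)
  clear hx
  induction m with
  | zero => exact h0
  | succ m ih => rw [Function.iterate_succ_apply', hstep, ih]

theorem far_edge (I : Finset (ℤ × ℤ)) (R R' : ℤ) : ∃ x : Ed, (hdv x ∉ I ∨ tlv x ∉ I) ∧
    R < |(ls x).1| ∧ R' < |(ls x).1| := by
  obtain ⟨M, hM⟩ : ∃ M : ℤ, ∀ v ∈ I, v.1 < M := by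
    obtain ⟨M, hM⟩ := (I.image Prod.fst).bddAbove
    exact ⟨M + 1, fun v hv => by
      have := hM (mem_coe.2 (mem_image_of_mem Prod.fst hv)); omega⟩
  obtain ⟨N, h1, h2, h3⟩ : ∃ N, |R| + 1 ≤ N ∧ |R'| + 1 ≤ N ∧ |M| + 1 ≤ N :=
    ⟨max (max (|R| + 1) (|R'| + 1)) (|M| + 1), (le_max_left _ _).trans (le_max_left _ _),
      (le_max_right _ _).trans (le_max_left _ _), le_max_right _ _⟩
  have g1 := le_abs_self R
  have g2 := le_abs_self R'
  have g3 := le_abs_self M
  have g4 := abs_nonneg R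
  refine ⟨Sum.inl (N, 0), Or.inl fun h => ?_, ?_, ?_⟩
  · have := hM _ h
    simp only [hdv] at this
    split_ifs at this <;> simp only at this <;> omega
  · simp only [ls]
    split_ifs <;> simp only <;> rw [abs_of_nonneg (by omega)] <;> omega
  · simp only [ls]
    split_ifs <;> simp only <;> rw [abs_of_nonneg (by omega)] <;> omega

/-- **(T2), closed `I`: at most one excursion of a loop has its bounded side on the left.** -/
theorem uniq_closed (hI : ExtConn I) (hcl : ∀ v ∈ I, ω v = false) (hl : IsLoop ω ℓ) (heℓ : e ∈ ℓ)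
    (heℓ' : e' ∈ ℓ) (h1 : hdv e ∉ I) (h2 : tlv e ∈ I) (h1' : hdv e' ∉ I) (h2' : tlv e' ∈ I)
    (hφ : ExtPot I (exc I ω e) 1 φ) (hφ' : ExtPot I (exc I ω e') 1 φ') : e = e' := by
  by_contra hne
  have hr : Returns (nx ω) (bS I) e := returns_loop hl heℓ (mem_bS.2 (Or.inr ⟨h1, h2⟩))
  have hr' : Returns (nx ω) (bS I) e' := returns_loop hl heℓ' (mem_bS.2 (Or.inr ⟨h1', h2'⟩))
  have hA : ∀ x ∈ exc I ω e, x ∈ ℓ := fun x hx => by
    obtain ⟨k, -, rfl⟩ := (mem_exc).1 hx
    exact loop_iter hl heℓ k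
  have hB : ∀ x ∈ exc I ω e', x ∈ ℓ := fun x hx => by
    obtain ⟨k, -, rfl⟩ := (mem_exc).1 hx
    exact loop_iter hl heℓ' k
  have kA : ∀ x ∈ ℓ, φ (ls x) = 1 := fun x hx => by
    have := pot_ls hcl hl heℓ h1 h2 hφ hx
    rw [this]; norm_num
  have kB : ∀ x ∈ ℓ, φ' (ls x) = 1 := fun x hx => by
    have := pot_ls hcl hl heℓ' h1' h2' hφ' hx
    rw [this]; norm_num
  obtain ⟨c, hc⟩ := hI (fun z => if φ z = 1 then 0 else 1 - φ' z) (fun x hx => by
    have j := hφ.jump x hx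
    have j' := hφ'.jump x hx
    by_cases hxA : x ∈ exc I ω e
    · have hxB : x ∉ exc I ω e' := exc_disj h1 h2 hr h1' h2' hr' hne hxA
      rw [if_pos hxA] at j
      rw [if_neg hxB, add_zero] at j'
      have k1 := kA x (hA x hxA)
      have k2 := kB x (hA x hxA)
      rw [if_pos k1, if_neg (by omega)]
      omega
    · rw [if_neg hxA, add_zero] at j
      rw [← j]
      by_cases h3 : φ (ls x) = 1
      · rw [if_pos h3, if_pos h3]
      · have hxB : x ∉ exc I ω e' := fun hx' => h3 (kA x (hB x hx'))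
        rw [if_neg hxB, add_zero] at j'
        rw [if_neg h3, if_neg h3, j'])
  have heA : e ∈ exc I ω e := (mem_exc).2 ⟨0, Nat.zero_le _, rfl⟩
  have hc0 := (hc e (Or.inl h1)).1
  beta_reduce at hc0
  rw [if_pos (kA e heℓ)] at hc0
  obtain ⟨R, hR⟩ := hφ.far
  obtain ⟨R', hR'⟩ := hφ'.far
  obtain ⟨x, hx, hx1, hx2⟩ := far_edge I R R'
  have hc1 := (hc x hx).1
  beta_reduce at hc1
  rw [hR _ (Or.inl hx1), hR' _ (Or.inl hx2), if_neg (by norm_num)] at hc1
  omega

/-- **(T2), open `I`: at most one excursion of a loop has its bounded side on the right.** -/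
theorem uniq_open (hI : ExtConn I) (hop : ∀ v ∈ I, ω v = true) (hl : IsLoop ω ℓ) (heℓ : e ∈ ℓ)
    (heℓ' : e' ∈ ℓ) (h1 : hdv e ∉ I) (h2 : tlv e ∈ I) (h1' : hdv e' ∉ I) (h2' : tlv e' ∈ I)
    (hφ : ExtPot I (exc I ω e) (-1) φ) (hφ' : ExtPot I (exc I ω e') (-1) φ') : e = e' := by
  by_contra hne
  have hr : Returns (nx ω) (bS I) e := returns_loop hl heℓ (mem_bS.2 (Or.inr ⟨h1, h2⟩))
  have hr' : Returns (nx ω) (bS I) e' := returns_loop hl heℓ' (mem_bS.2 (Or.inr ⟨h1', h2'⟩))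
  have hA : ∀ x ∈ exc I ω e, x ∈ ℓ := fun x hx => by
    obtain ⟨k, -, rfl⟩ := (mem_exc).1 hx
    exact loop_iter hl heℓ k
  have hB : ∀ x ∈ exc I ω e', x ∈ ℓ := fun x hx => by
    obtain ⟨k, -, rfl⟩ := (mem_exc).1 hx
    exact loop_iter hl heℓ' k
  have kA : ∀ x ∈ ℓ, φ (rs x) = -1 := fun x hx => by
    have := pot_rs hop hl heℓ h1 h2 hφ hx
    rw [this]; norm_num
  have kB : ∀ x ∈ ℓ, φ' (rs x) = -1 := fun x hx => by
    have := pot_rs hop hl heℓ' h1' h2' hφ' hx
    rw [this]; norm_num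
  obtain ⟨c, hc⟩ := hI (fun z => if φ z = -1 then 0 else -1 - φ' z) (fun x hx => by
    have j := hφ.jump x hx
    have j' := hφ'.jump x hx
    by_cases hxA : x ∈ exc I ω e
    · have hxB : x ∉ exc I ω e' := exc_disj h1 h2 hr h1' h2' hr' hne hxA
      rw [if_pos hxA] at j
      rw [if_neg hxB, add_zero] at j'
      have k1 := kA x (hA x hxA)
      have k2 := kB x (hA x hxA)
      rw [if_pos k1, if_neg (by omega)]
      omega
    · rw [if_neg hxA, add_zero] at j
      rw [← j]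
      by_cases h3 : φ (ls x) = -1
      · rw [if_pos h3, if_pos h3]
      · have hxB : x ∉ exc I ω e' := fun hx' => h3 (by rw [j]; exact kA x (hB x hx'))
        rw [if_neg hxB, add_zero] at j'
        rw [if_neg h3, if_neg h3, j'])
  have hc0 := (hc e (Or.inl h1)).2
  beta_reduce at hc0
  rw [if_pos (kA e heℓ)] at hc0
  obtain ⟨R, hR⟩ := hφ.far
  obtain ⟨R', hR'⟩ := hφ'.far
  obtain ⟨x, hx, hx1, hx2⟩ := far_edge I R R'
  have hc1 := (hc x hx).1
  beta_reduce at hc1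
  rw [hR _ (Or.inl hx1), hR' _ (Or.inl hx2), if_neg (by norm_num)] at hc1
  omega

end Vale.Agent.P167.QX
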