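import Vale.Agent.P167.QX.Loops

/-!
# P167, general `q`, START (S2b): the angles of the strands of a loop add up to `± θ`
-/

namespace Vale.Agent.P167.QX

open Finset
open Vale.Agent.P167.A (plane plane_nx plane_sg)
open Vale.Agent.P167.BR
open Vale.Agent.P167.XDL (bS mem_bS)
open Vale.Agent.P167.FK
open Vale.Agent.P167.H199 (cang strand ret mem_strand loop_nx loop_iter ret_min ret_le ah at' hb
  strand_sub sum_strand Returns strand_unique)

variable {D I : Finset (ℤ × ℤ)} {ω ω' : Cfg} {θ : ℝ} {a a0 : Ed → Bool → ℝ} {B : Set (ℤ × ℤ)}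
  {ℓ : Finset Ed} {S : Finset Ed}

theorem returns_loop (hl : IsLoop ω ℓ) {e : Ed} (he : e ∈ ℓ) (heS : e ∈ S) :
    Returns (nx ω) S e := by
  obtain ⟨m, hm⟩ := (H685.loop_gen hl (loop_nx hl he) e).1 he
  exact ⟨m + 1, by omega, by rw [Function.iterate_succ_apply, hm]; exact heS⟩

/-- Every edge of the loop is in a strand. -/
theorem exists_strand_loop (hl : IsLoop ω ℓ) (hS : ∃ e ∈ S, e ∈ ℓ) {x : Ed} (hx : x ∈ ℓ) :
    ∃ e ∈ S.filter (· ∈ ℓ), x ∈ strand (nx ω) S e := by
  classical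
  obtain ⟨e0, he0, he0ℓ⟩ := hS
  obtain ⟨k, hk⟩ := (H685.loop_gen hl he0ℓ x).1 hx
  -- the last visit of `S` before `k`
  have hne : ((range (k + 1)).filter fun j => (nx ω)^[j] e0 ∈ S).Nonempty :=
    ⟨0, by simp [he0]⟩
  obtain ⟨j, hj, hmax⟩ := exists_max_image _ id hne
  rw [mem_filter, mem_range] at hj
  have hjℓ := loop_iter hl he0ℓ j
  refine ⟨(nx ω)^[j] e0, mem_filter.2 ⟨hj.2, hjℓ⟩, mem_strand.2 ⟨k - j, ?_, ?_⟩⟩
  · by_contra hlt
    push Not at hlt
    obtain ⟨h1, h2⟩ := (returns_loop hl hjℓ hj.2).spec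
    set m := ret (nx ω) S ((nx ω)^[j] e0) with hm
    rw [← Function.iterate_add_apply] at h2
    have h3 := hmax (m + j) (by rw [mem_filter, mem_range]; exact ⟨by omega, h2⟩)
    simp only [id] at h3
    omega
  · rw [← Function.iterate_add_apply, Nat.sub_add_cancel (by omega)]
    exact hk

/-- **The angle of a loop is the sum of the angles of its strands.** -/
theorem cang_strands (hl : IsLoop ω ℓ) (hS : ∃ e ∈ S, e ∈ ℓ) (θ : ℝ) (a : Ed → Bool → ℝ) :
    cang plane θ a ω ℓ = ∑ e ∈ S.filter (· ∈ ℓ), cang plane θ a ω (strand (nx ω) S e) := by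
  classical
  have h : ℓ = (S.filter (· ∈ ℓ)).biUnion fun e => strand (nx ω) S e := by
    ext x
    rw [mem_biUnion]
    constructor
    · exact fun hx => exists_strand_loop hl hS hx
    · rintro ⟨e, he, hx⟩
      exact strand_sub hl (mem_filter.1 he).2 S hx
  conv_lhs => rw [h]
  unfold cang
  rw [sum_biUnion]
  intro e he e' he' hne
  rw [Function.onFun, Finset.disjoint_left]
  intro x hx hx'
  exact hne (strand_unique (s_nx ω).1 (mem_filter.1 he).1 (mem_filter.1 he').1 hx hx')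

/-- The angle of a loop without charges. -/
theorem cang_pm (hl : IsLoop ω ℓ) (hoff : ∀ e ∈ ℓ, a e false + a e true = 0) :
    cang plane θ a ω ℓ = θ ∨ cang plane θ a ω ℓ = -θ := by
  rw [cang_loop (c := fun _ => 0) hl hoff]
  simp only [zero_mul, sum_const_zero, add_zero]
  rcases turn_loop hl with ⟨h4, _⟩ | ⟨h4, _⟩ <;> rw [h4]
  · left; push_cast; ring
  · right; push_cast; ring

open Classical in
/-- The phases `a0` with the inner halves replaced by minus the outer halves. -/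
noncomputable def aI (I : Finset (ℤ × ℤ)) (a0 : Ed → Bool → ℝ) (e : Ed) (b : Bool) : ℝ :=
  if e ∈ bS I then (if (b = hb plane e ↔ hdv e ∉ I) then a0 e b else - a0 e (!b)) else a0 e b

theorem aI_add (hoff : ∀ e ∉ bS I, ∀ b, a0 e b = 0) (e : Ed) :
    aI I a0 e false + aI I a0 e true = 0 := by
  classical
  unfold aI
  by_cases he : e ∈ bS I
  · rw [if_pos he, if_pos he]
    by_cases h : hdv e ∉ I
    · cases hh : hb plane e <;> simp [h]
    · cases hh : hb plane e <;> simp [h]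
  · rw [if_neg he, if_neg he, hoff e he, hoff e he, add_zero]

theorem ah_aI_out {e : Ed} (h : hdv e ∉ I) : ah plane (aI I a0) e = ah plane a0 e := by
  classical
  unfold ah aI
  split_ifs with h1 h2
  · rfl
  · simp [h] at h2
  · rfl

theorem at_aI_out {e : Ed} (h : tlv e ∉ I) : at' plane (aI I a0) e = at' plane a0 e := by
  classical
  unfold at' aI
  split_ifs with h1 h2
  · rfl
  · exfalso
    apply h2
    rw [mem_bS] at h1
    have h3 : hdv e ∈ I := by tauto
    simp [h3]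
  · rfl

theorem ah_aI_in {e : Ed} (h1 : hdv e ∈ I) (h2 : tlv e ∉ I) :
    ah plane (aI I a0) e = - at' plane a0 e := by
  classical
  have h3 : e ∈ bS I := mem_bS.2 (Or.inl ⟨h1, h2⟩)
  unfold ah at' aI
  rw [if_pos h3, if_neg (by simp [h1])]
  ring

theorem at_aI_in {e : Ed} (h1 : hdv e ∉ I) (h2 : tlv e ∈ I) :
    at' plane (aI I a0) e = - ah plane a0 e := by
  classical
  have h3 : e ∈ bS I := mem_bS.2 (Or.inr ⟨h1, h2⟩)
  unfold ah at' aI
  rw [if_pos h3, if_neg (by simp [h1])]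
  simp

/-! ### outer and inner strands -/

/-- The outer strand stays off `I`. -/
theorem out_stays {e : Ed} (h : hdv e ∉ I) {k : ℕ} (hk : k < ret (nx ω) (bS I) e) :
    hdv ((nx ω)^[k] e) ∉ I := by
  induction k with
  | zero => exact h
  | succ k ih =>
    intro h3
    have h4 := ih (by omega)
    have h5 : (nx ω)^[k + 1] e ∉ bS I := ret_min (by omega) hk
    apply h5
    rw [mem_bS]
    refine Or.inl ⟨h3, ?_⟩
    rw [Function.iterate_succ_apply', tlv_nx]
    exact h4

/-- The inner strand stays in `I`. -/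
theorem in_stays {e : Ed} (h : hdv e ∈ I) {k : ℕ} (hk : k < ret (nx ω) (bS I) e) :
    hdv ((nx ω)^[k] e) ∈ I := by
  induction k with
  | zero => exact h
  | succ k ih =>
    by_contra h3
    have h4 := ih (by omega)
    have h5 : (nx ω)^[k + 1] e ∉ bS I := ret_min (by omega) hk
    apply h5
    rw [mem_bS]
    refine Or.inr ⟨h3, ?_⟩
    rw [Function.iterate_succ_apply', tlv_nx]
    exact h4

/-- The angle of an outer strand does not see the inner halves. -/
theorem cang_aI_out {e : Ed} (h : hdv e ∉ I) :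
    cang plane θ (aI I a0) ω (strand (nx ω) (bS I) e) =
      cang plane θ a0 ω (strand (nx ω) (bS I) e) := by
  unfold cang
  refine sum_congr rfl fun x hx => ?_
  obtain ⟨k, hk, rfl⟩ := mem_strand.1 hx
  have h1 := out_stays h hk
  rw [ah_aI_out h1, at_aI_out]
  rw [plane_nx, tlv_nx]
  exact h1

/-- The angle of a strand: turning and the phases at its ends. -/
theorem cang_ends {e : Ed} (he : e ∈ S) (hr : Returns (nx ω) S e)
    (hoff : ∀ k, 0 < k → k < ret (nx ω) S e →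
      ah plane a ((nx ω)^[k] e) + at' plane a ((nx ω)^[k] e) = 0) :
    cang plane θ a ω (strand (nx ω) S e) =
      θ / 4 * ((∑ k ∈ range (ret (nx ω) S e), trn ω ((nx ω)^[k] e) : ℤ) : ℝ) +
        ah plane a e + at' plane a ((nx ω)^[ret (nx ω) S e] e) := by
  obtain ⟨h1, -⟩ := hr.spec
  have key : ∀ m, 1 ≤ m → (∀ k, 0 < k → k < m →
      ah plane a ((nx ω)^[k] e) + at' plane a ((nx ω)^[k] e) = 0) →
      ∑ k ∈ range m, (θ / 4 * (plane.turn ω ((nx ω)^[k] e) : ℝ) +
        ah plane a ((nx ω)^[k] e) + at' plane a (plane.nx ω ((nx ω)^[k] e))) =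
      θ / 4 * ((∑ k ∈ range m, trn ω ((nx ω)^[k] e) : ℤ) : ℝ) +
        ah plane a e + at' plane a ((nx ω)^[m] e) := by
    intro m
    induction m with
    | zero => intro h; omega
    | succ m ih =>
      intro _ hm
      rw [sum_range_succ, sum_range_succ, H685.plane_turn, plane_nx,
        ← Function.iterate_succ_apply' (nx ω)]
      rcases Nat.eq_zero_or_pos m with rfl | hm0
      · simp only [range_zero, sum_empty, zero_add, Function.iterate_zero, id]
      · rw [ih hm0 fun k k1 k2 => hm k k1 (by omega)]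
        have := hm m hm0 (by omega)
        push_cast
        linarith
  unfold cang
  rw [sum_strand (s_nx ω).injective he]
  exact key _ h1 hoff

/-- The angle of an inner strand. -/
theorem cang_aI_in (hoff : ∀ e ∉ bS I, ∀ b, a0 e b = 0) (hl : IsLoop ω ℓ) {e : Ed} (heℓ : e ∈ ℓ)
    (he : e ∈ bS I) (h : hdv e ∈ I) :
    cang plane θ (aI I a0) ω (strand (nx ω) (bS I) e) =
      θ / 4 * ((∑ k ∈ range (ret (nx ω) (bS I) e), trn ω ((nx ω)^[k] e) : ℤ) : ℝ) -
        at' plane a0 e - ah plane a0 ((nx ω)^[ret (nx ω) (bS I) e] e) := by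
  have hr := returns_loop hl heℓ he
  obtain ⟨h1, h2⟩ := hr.spec
  rw [cang_ends he hr (fun k _ _ => by rw [XDL.ah_add_at, aI_add hoff, zero_mul])]
  have h3 : tlv ((nx ω)^[ret (nx ω) (bS I) e] e) ∈ I := by
    obtain ⟨m, hm⟩ : ∃ m, ret (nx ω) (bS I) e = m + 1 := ⟨_, (Nat.sub_add_cancel h1).symm⟩
    rw [hm, Function.iterate_succ_apply', tlv_nx]
    exact in_stays h (by omega)
  have h4 : hdv ((nx ω)^[ret (nx ω) (bS I) e] e) ∉ I := by
    rw [mem_bS] at h2
    rcases h2 with h' | h'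
    · exact absurd h3 h'.2
    · exact h'.1
  have h5 : tlv e ∉ I := by
    rw [mem_bS] at he
    rcases he with h' | h'
    · exact h'.2
    · exact absurd h h'.1
  rw [ah_aI_in h h5, at_aI_in h4 h3]
  ring

/-- A loop leaves `I` as often as it enters `I`. -/
theorem card_out_in (hl : IsLoop ω ℓ) :
    ((bS I).filter fun e => hdv e ∉ I ∧ e ∈ ℓ).card =
      ((bS I).filter fun e => hdv e ∈ I ∧ e ∈ ℓ).card := by
  classical
  have hb : ℓ.image (nx ω) = ℓ := by
    apply eq_of_subset_of_card_le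
    · intro y hy
      obtain ⟨x, hx, rfl⟩ := mem_image.1 hy
      exact loop_nx hl hx
    · rw [card_image_of_injective _ (s_nx ω).1]
  have h1 : ∑ x ∈ ℓ, (if hdv x ∈ I then (1 : ℤ) else 0) = ∑ x ∈ ℓ, if tlv x ∈ I then (1 : ℤ) else 0 := by
    conv_rhs => rw [← hb, sum_image (fun x _ y _ hxy => (s_nx ω).1 hxy)]
    simp only [tlv_nx]
  have h2 : ∀ x, (if hdv x ∈ I then (1 : ℤ) else 0) - (if tlv x ∈ I then (1 : ℤ) else 0) =
      (if x ∈ bS I ∧ hdv x ∈ I then 1 else 0) - (if x ∈ bS I ∧ hdv x ∉ I then 1 else 0) := by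
    intro x
    have := mem_bS (D := I) (e := x)
    by_cases h3 : hdv x ∈ I <;> by_cases h4 : tlv x ∈ I <;> simp [this, h3, h4]
  have h3 : ∑ x ∈ ℓ, ((if x ∈ bS I ∧ hdv x ∈ I then (1 : ℤ) else 0) -
      (if x ∈ bS I ∧ hdv x ∉ I then 1 else 0)) = 0 := by
    rw [← sum_congr rfl fun x _ => h2 x, sum_sub_distrib, h1, sub_self]
  rw [sum_sub_distrib, sum_boole, sum_boole] at h3
  have e1 : ℓ.filter (fun x => x ∈ bS I ∧ hdv x ∈ I) =
      (bS I).filter fun e => hdv e ∈ I ∧ e ∈ ℓ := by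
    ext x; simp only [mem_filter]; tauto
  have e2 : ℓ.filter (fun x => x ∈ bS I ∧ hdv x ∉ I) =
      (bS I).filter fun e => hdv e ∉ I ∧ e ∈ ℓ := by
    ext x; simp only [mem_filter]; tauto
  rw [e1, e2] at h3
  have h4 : (((bS I).filter fun e => hdv e ∈ I ∧ e ∈ ℓ).card : ℤ) =
      ((bS I).filter fun e => hdv e ∉ I ∧ e ∈ ℓ).card := by linarith
  exact_mod_cast h4.symm

/-- **The sum of the angles of the outer and of the inner strands.** -/
theorem angle_sum (hoff : ∀ e ∉ bS I, ∀ b, a0 e b = 0) (hl : IsLoop ω ℓ)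
    (hS : ∃ e ∈ bS I, e ∈ ℓ) :
    (∑ e ∈ (bS I).filter (fun e => hdv e ∉ I ∧ e ∈ ℓ),
        cang plane θ a0 ω (strand (nx ω) (bS I) e)) +
      (∑ e ∈ (bS I).filter (fun e => hdv e ∈ I ∧ e ∈ ℓ),
        cang plane θ (aI I a0) ω (strand (nx ω) (bS I) e)) = θ ∨
    (∑ e ∈ (bS I).filter (fun e => hdv e ∉ I ∧ e ∈ ℓ),
        cang plane θ a0 ω (strand (nx ω) (bS I) e)) +
      (∑ e ∈ (bS I).filter (fun e => hdv e ∈ I ∧ e ∈ ℓ),
        cang plane θ (aI I a0) ω (strand (nx ω) (bS I) e)) = -θ := by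
  classical
  have h1 := cang_strands hl hS θ (aI I a0)
  have h2 := cang_pm (θ := θ) (a := aI I a0) hl fun e _ => aI_add hoff e
  rw [h1, ← sum_filter_add_sum_filter_not _ (fun e => hdv e ∈ I), filter_filter, filter_filter] at h2
  have e1 : (bS I).filter (fun e => e ∈ ℓ ∧ hdv e ∈ I) =
      (bS I).filter fun e => hdv e ∈ I ∧ e ∈ ℓ := filter_congr fun x _ => and_comm
  have e2 : (bS I).filter (fun e => e ∈ ℓ ∧ ¬ hdv e ∈ I) =
      (bS I).filter fun e => hdv e ∉ I ∧ e ∈ ℓ := filter_congr fun x _ => and_comm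
  rw [e1, e2, add_comm] at h2
  rw [← sum_congr rfl fun e he => cang_aI_out (θ := θ) (a0 := a0) (mem_filter.1 he).2.1]
  exact h2

/-- **The sum of the indices.** -/
theorem kappa_sum (hθ : θ ≠ 0) (hoff : ∀ e ∉ bS I, ∀ b, a0 e b = 0) (hl : IsLoop ω ℓ)
    (hS : ∃ e ∈ bS I, e ∈ ℓ) {s : ℝ} (hs : s = 1 ∨ s = -1) (κ : Ed → ℤ)
    (hout : ∀ e ∈ bS I, e ∈ ℓ → hdv e ∉ I →
      cang plane θ a0 ω (strand (nx ω) (bS I) e) = s * (θ - Real.pi / 2 + κ e * θ))
    (hin : ∀ e ∈ bS I, e ∈ ℓ → hdv e ∈ I →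
      cang plane θ (aI I a0) ω (strand (nx ω) (bS I) e) = s * (Real.pi / 2 - θ)) :
    ∑ e ∈ (bS I).filter (fun e => hdv e ∉ I ∧ e ∈ ℓ), κ e = 1 ∨
      ∑ e ∈ (bS I).filter (fun e => hdv e ∉ I ∧ e ∈ ℓ), κ e = -1 := by
  classical
  have h := angle_sum (θ := θ) hoff hl hS
  have h1 : (∑ e ∈ (bS I).filter (fun e => hdv e ∉ I ∧ e ∈ ℓ),
        cang plane θ a0 ω (strand (nx ω) (bS I) e)) +
      (∑ e ∈ (bS I).filter (fun e => hdv e ∈ I ∧ e ∈ ℓ),
        cang plane θ (aI I a0) ω (strand (nx ω) (bS I) e)) =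
      s * (((∑ e ∈ (bS I).filter (fun e => hdv e ∉ I ∧ e ∈ ℓ), κ e : ℤ) : ℝ) * θ) := by
    rw [sum_congr rfl fun e he => hout e (mem_filter.1 he).1 (mem_filter.1 he).2.2
        (mem_filter.1 he).2.1,
      sum_congr rfl fun e he => hin e (mem_filter.1 he).1 (mem_filter.1 he).2.2
        (mem_filter.1 he).2.1, ← mul_sum, sum_add_distrib, sum_const, sum_const, ← card_out_in hl,
      ← sum_mul, Int.cast_sum]
    simp only [nsmul_eq_mul]
    ring
  rw [h1] at h
  generalize (∑ e ∈ (bS I).filter (fun e => hdv e ∉ I ∧ e ∈ ℓ), κ e : ℤ) = N at h ⊢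
  have h2 : (N : ℝ) = 1 ∨ (N : ℝ) = -1 := by
    rcases hs with rfl | rfl
    · rcases h with h | h
      · left
        have : ((N : ℝ) - 1) * θ = 0 := by linarith
        rcases mul_eq_zero.1 this with h3 | h3
        · linarith
        · exact absurd h3 hθ
      · right
        have : ((N : ℝ) + 1) * θ = 0 := by linarith
        rcases mul_eq_zero.1 this with h3 | h3
        · linarith
        · exact absurd h3 hθ
    · rcases h with h | h
      · right
        have : ((N : ℝ) + 1) * θ = 0 := by linarith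
        rcases mul_eq_zero.1 this with h3 | h3
        · linarith
        · exact absurd h3 hθ
      · left
        have : ((N : ℝ) - 1) * θ = 0 := by linarith
        rcases mul_eq_zero.1 this with h3 | h3
        · linarith
        · exact absurd h3 hθ
  rcases h2 with h2 | h2
  · left; exact_mod_cast h2
  · right; exact_mod_cast h2

/-- **A loop with natural strands has the factor `1`.** -/
theorem fLp_one (hθ : θ ≠ 0) (hsin : Real.sin θ ≠ 0) (hcos : Real.cos θ ≠ 0)
    (hoff : ∀ e ∉ bS I, ∀ b, a0 e b = 0) (hl : IsLoop ω ℓ)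
    (hS : ∃ e ∈ bS I, e ∈ ℓ) {s : ℝ} (hs : s = 1 ∨ s = -1) (κ : Ed → ℤ)
    (hout : ∀ e ∈ bS I, e ∈ ℓ → hdv e ∉ I →
      cang plane θ a0 ω (strand (nx ω) (bS I) e) = s * (θ - Real.pi / 2 + κ e * θ))
    (hκ : ∀ e ∈ bS I, e ∈ ℓ → hdv e ∉ I → κ e = 0 ∨ κ e = 1)
    (hin : ∀ e ∈ bS I, e ∈ ℓ → hdv e ∈ I →
      cang plane θ (aI I a0) ω (strand (nx ω) (bS I) e) = s * (Real.pi / 2 - θ)) :
    fLp θ I a0 ω ℓ = 1 := by
  classical
  have h := kappa_sum hθ hoff hl hS hs κ hout hin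
  have h0 : ∀ e ∈ (bS I).filter (fun e => hdv e ∉ I ∧ e ∈ ℓ), 0 ≤ κ e := fun e he => by
    rcases hκ e (mem_filter.1 he).1 (mem_filter.1 he).2.2 (mem_filter.1 he).2.1 with h | h <;>
      rw [h] <;> norm_num
  have h1 : ∑ e ∈ (bS I).filter (fun e => hdv e ∉ I ∧ e ∈ ℓ), κ e = 1 := by
    rcases h with h | h
    · exact h
    · exfalso
      have := sum_nonneg h0
      omega
  have hw : ∀ e ∈ (bS I).filter (fun e => hdv e ∉ I ∧ e ∈ ℓ), wS θ I a0 ω e =
      (2 * Real.cos θ) ^ (κ e).toNat := by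
    intro e he
    obtain ⟨he1, he2, he3⟩ := mem_filter.1 he
    unfold wS
    rw [hout e he1 he3 he2]
    have hcs : ∀ x : ℝ, Real.cos (s * x) = Real.cos x := by
      intro x
      rcases hs with rfl | rfl
      · rw [one_mul]
      · rw [neg_one_mul, Real.cos_neg]
    rw [hcs]
    rcases hκ e he1 he3 he2 with h | h <;> rw [h]
    · simp only [Int.cast_zero, zero_mul, add_zero, Int.toNat_zero, pow_zero]
      rw [Real.cos_sub_pi_div_two, div_self hsin]
    · simp only [Int.cast_one, one_mul, Int.toNat_one, pow_one]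
      rw [show θ - Real.pi / 2 + θ = 2 * θ - Real.pi / 2 by ring, Real.cos_sub_pi_div_two,
        Real.sin_two_mul]
      field_simp
  unfold fLp
  rw [prod_congr rfl hw, prod_pow_eq_pow_sum]
  have h2 : ∑ e ∈ (bS I).filter (fun e => hdv e ∉ I ∧ e ∈ ℓ), (κ e).toNat = 1 := by
    have : ((∑ e ∈ (bS I).filter (fun e => hdv e ∉ I ∧ e ∈ ℓ), (κ e).toNat : ℕ) : ℤ) = 1 := by
      push_cast
      rw [← h1]
      exact sum_congr rfl fun e he => Int.toNat_of_nonneg (h0 e he)
    exact_mod_cast this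
  rw [h2, pow_one, div_self (mul_ne_zero two_ne_zero hcos)]

end Vale.Agent.P167.QX
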