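import Vale.Agent.P167.QX.Fact

/-!
# P167, general `q`: cut functionals of the boundary of a finite set of squares
(thick walls: `D` is the union of the rows)

For every finite `D` the functional of the cuts `bS D` is, given the outside of `D`, the sum `rhoT` of
the inner products times the outer product `XoT`; the same outer product is obtained by freezing the
state of `D`.
-/

namespace Vale.Agent.P167.QX

open Finset Filter Topology MeasureTheory
open Vale.Agent.P167.A (plane plane_nx)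
open Vale.Agent.P167.BR
open Vale.Agent.P167.XDL (bS mem_bS loop_cases lp_disj strand_congr')
open Vale.Agent.P167.FK
open Vale.Agent.P167.FKA (Loc Zq_pos cf_out)
open Vale.Agent.P167.H519 (IsLim)
open Vale.Agent.P167.H199 (cang strand ret mem_strand loop_nx loop_iter iter_congr strand_congr
  cang_congr strand_sub ret_min)
open Vale.Agent.P167.H685 (LE mem_LE nx_loc card_LE_le loop_loc)

variable {D : Finset (ℤ × ℤ)} {ω ω' : Cfg} {θ : ℝ} {a : Ed → Bool → ℝ} {P : Measure Cfg}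
  {E : Finset Ed}

open Classical in
/-- The product over the loops and the strands inside `D`. -/
noncomputable def XinT (θ : ℝ) (D : Finset (ℤ × ℤ)) (a : Ed → Bool → ℝ) (ω : Cfg) : ℝ :=
  (∏ A ∈ (pcs ω D).filter (IsLp D), 2 * Real.cos (cang plane θ a ω A)) *
    ∏ e ∈ (bS D).filter (fun e => hdv e ∈ D),
      2 * Real.cos (cang plane θ a ω (strand (nx ω) (bS D) e))

/-- The product over the loops and the strands outside `D`. -/
noncomputable def XoT (θ : ℝ) (D : Finset (ℤ × ℤ)) (a : Ed → Bool → ℝ) (ω : Cfg) : ℝ :=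
  (∏ᶠ ℓ ∈ {ℓ : Finset Ed | IsLoop ω ℓ ∧ ∀ e ∈ ℓ, e ∉ eds D},
    (2 * Real.cos (cang plane θ a ω ℓ)) / (2 * Real.cos θ)) * XoutQ θ D a ω

/-- The inner sum. -/
noncomputable def rhoT (θ : ℝ) (D : Finset (ℤ × ℤ)) (a : Ed → Bool → ℝ) : ℝ :=
  ∑ S ∈ D.powerset, XinT θ D a (cf D eta0 S)

/-! ### locality -/

/-- the inner strand stays in `D` -/
theorem in_iter (h : ∀ v ∈ D, ω v = ω' v) {e : Ed} (hd : hdv e ∈ D) (n : ℕ)
    (hn : ∀ j, 1 ≤ j → j ≤ n → (nx ω)^[j] e ∉ bS D) :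
    (nx ω)^[n] e = (nx ω')^[n] e ∧ hdv ((nx ω)^[n] e) ∈ D := by
  induction n with
  | zero => exact ⟨rfl, hd⟩
  | succ n ih =>
    obtain ⟨h1, h2⟩ := ih fun j j1 j2 => hn j j1 (by omega)
    have h3 := hn (n + 1) (by omega) le_rfl
    constructor
    · rw [Function.iterate_succ_apply', Function.iterate_succ_apply', ← h1, nx_loc (h _ h2)]
    · by_contra h4
      rw [mem_bS] at h3
      refine h3 (Or.inr ⟨h4, ?_⟩)
      rw [Function.iterate_succ_apply', tlv_nx]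
      exact h2

theorem in_iter' (h : ∀ v ∈ D, ω v = ω' v) {e : Ed} (hd : hdv e ∈ D) (n : ℕ)
    (hn : ∀ j, 1 ≤ j → j < n → (nx ω)^[j] e ∉ bS D) : (nx ω)^[n] e = (nx ω')^[n] e := by
  cases n with
  | zero => rfl
  | succ n =>
    obtain ⟨h1, h2⟩ := in_iter h hd n fun j j1 j2 => hn j j1 (by omega)
    rw [Function.iterate_succ_apply', Function.iterate_succ_apply', ← h1, nx_loc (h _ h2)]

theorem in_factor (h : ∀ v ∈ D, ω v = ω' v) {e : Ed} (hd : hdv e ∈ D) (θ : ℝ) :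
    cang plane θ a ω (strand (nx ω) (bS D) e) = cang plane θ a ω' (strand (nx ω') (bS D) e) := by
  rw [← strand_congr' fun n hn => in_iter' h hd n hn]
  refine cang_congr (fun x hx => h _ ?_) θ
  obtain ⟨k, hk, rfl⟩ := mem_strand.1 hx
  exact (in_iter h hd k fun j h1 h2 => ret_min h1 (by omega)).2

theorem XinT_loc (θ : ℝ) (a : Ed → Bool → ℝ) : Loc D (XinT θ D a) := by
  classical
  intro ω ω' h
  unfold XinT
  rw [pcs_congr h]
  congr 1
  · refine prod_congr rfl fun A hA => ?_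
    rw [cang_congr (fun x hx => h _ ((mem_filter.1 hA).2 x hx)) θ]
  · refine prod_congr rfl fun e he => ?_
    rw [in_factor h (mem_filter.1 he).2]

/-- A loop off `D`. -/
theorem isLoop_out (h : ∀ v, v ∉ D → ω v = ω' v) {ℓ : Finset Ed} (hl : IsLoop ω ℓ)
    (hD : ∀ e ∈ ℓ, e ∉ eds D) : IsLoop ω' ℓ := by
  refine loop_loc hl fun v hv => ?_
  unfold vs at hv
  obtain ⟨x, hx, rfl⟩ := mem_image.1 hv
  exact h _ fun h1 => hD x hx (mem_eds.2 (Or.inl h1))

theorem XoT_congr (h : ∀ v, v ∉ D → ω v = ω' v) : XoT θ D a ω = XoT θ D a ω' := by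
  unfold XoT
  rw [XoutQ_congr h]
  congr 1
  have hs : {ℓ : Finset Ed | IsLoop ω ℓ ∧ ∀ e ∈ ℓ, e ∉ eds D} =
      {ℓ : Finset Ed | IsLoop ω' ℓ ∧ ∀ e ∈ ℓ, e ∉ eds D} := by
    ext ℓ
    exact ⟨fun h1 => ⟨isLoop_out h h1.1 h1.2, h1.2⟩,
      fun h1 => ⟨isLoop_out (fun v hv => (h v hv).symm) h1.1 h1.2, h1.2⟩⟩
  rw [hs]
  refine finprod_mem_congr rfl fun ℓ hℓ => ?_
  rw [cang_congr (fun x hx => h _ fun h1 => hℓ.2 x hx (mem_eds.2 (Or.inl h1))) θ]

/-- **The pointwise identity.** -/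
theorem xcT (ha : ∀ e ∉ E, ∀ b, a e b = 0) (hθ : Real.cos θ ≠ 0) (ω : Cfg) :
    (2 * Real.cos θ) ^ LD D ω * XcQ θ (bS D) a ω = XinT θ D a ω * XoT θ D a ω := by
  classical
  have h2 : (2 * Real.cos θ) ≠ 0 := mul_ne_zero two_ne_zero hθ
  have hset : {ℓ : Finset Ed | IsLoop ω ℓ ∧ Disjoint ℓ (bS D)} =
      (((pcs ω D).filter (IsLp D) : Finset (Finset Ed)) : Set (Finset Ed)) ∪
        {ℓ : Finset Ed | IsLoop ω ℓ ∧ ∀ e ∈ ℓ, e ∉ eds D} := by
    ext ℓ
    simp only [Set.mem_ofPred_eq, Set.mem_union, mem_coe, mem_filter]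
    constructor
    · rintro ⟨h1, h3⟩
      rcases loop_cases h1 h3 with h | h
      · exact Or.inl h
      · exact Or.inr ⟨h1, h⟩
    · rintro (⟨h1, h3⟩ | ⟨h1, h3⟩)
      · exact ⟨h3.isLoop h1, lp_disj h1 h3⟩
      · refine ⟨h1, Finset.disjoint_left.2 fun e he heS => h3 e he ?_⟩
        rw [mem_bS] at heS
        rcases heS with h | h
        · exact mem_eds.2 (Or.inl h.1)
        · exact mem_eds.2 (Or.inr h.2)
  have hdis : Disjoint (((pcs ω D).filter (IsLp D) : Finset (Finset Ed)) : Set (Finset Ed))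
      {ℓ : Finset Ed | IsLoop ω ℓ ∧ ∀ e ∈ ℓ, e ∉ eds D} := by
    rw [Set.disjoint_left]
    intro ℓ h1 h3
    rw [mem_coe, mem_filter] at h1
    obtain ⟨x, hx⟩ := pcs_nonempty h1.1
    exact h3.2 x hx (mem_eds.2 (Or.inl (h1.2 x hx)))
  have hfin : ({ℓ : Finset Ed | IsLoop ω ℓ ∧ ∀ e ∈ ℓ, e ∉ eds D} ∩
      Function.mulSupport fun ℓ =>
        (2 * Real.cos (cang plane θ a ω ℓ)) / (2 * Real.cos θ)).Finite := by
    apply (Finset.finite_toSet (LE ω E)).subset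
    rintro ℓ ⟨⟨h1, _⟩, h3⟩
    rw [mem_coe, mem_LE]
    refine ⟨h1, ?_⟩
    by_contra hn
    apply h3
    push Not at hn
    show (2 * Real.cos (cang plane θ a ω ℓ)) / (2 * Real.cos θ) = 1
    rw [cos_loop_zero h1 fun x hx => by
      rw [ha x fun hE => hn x hE hx, ha x fun hE => hn x hE hx, add_zero]]
    exact div_self h2
  unfold XcQ XinT XoT XoutQ
  rw [hset, finprod_mem_union' hdis ((Finset.finite_toSet _).inter_of_left _) hfin,
    finprod_mem_coe_finset, LD_eq, prod_div_distrib, prod_const, pow_add,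
    ← prod_filter_mul_prod_filter_not (bS D) (fun e => hdv e ∈ D)]
  have h3 : (2 * Real.cos θ) ^ ((pcs ω D).filter (IsLp D)).card ≠ 0 := pow_ne_zero _ h2
  have h4 : (2 * Real.cos θ) ^ nS (bS D) ω ≠ 0 := pow_ne_zero _ h2
  generalize ∏ A ∈ (pcs ω D).filter (IsLp D), 2 * Real.cos (cang plane θ a ω A) = P1
  generalize ∏ e ∈ (bS D).filter (fun e => hdv e ∈ D),
    2 * Real.cos (cang plane θ a ω (strand (nx ω) (bS D) e)) = P2
  generalize ∏ e ∈ (bS D).filter (fun e => ¬ hdv e ∈ D),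
    2 * Real.cos (cang plane θ a ω (strand (nx ω) (bS D) e)) = P3
  generalize (∏ᶠ ℓ ∈ {ℓ : Finset Ed | IsLoop ω ℓ ∧ ∀ e ∈ ℓ, e ∉ eds D},
    (2 * Real.cos (cang plane θ a ω ℓ)) / (2 * Real.cos θ)) = P4
  generalize (2 * Real.cos θ) ^ ((pcs ω D).filter (IsLp D)).card = y1 at h3 ⊢
  generalize (2 * Real.cos θ) ^ nS (bS D) ω = y2 at h4 ⊢
  field_simp

/-! ### quasi-locality -/

theorem XoT_eq (ω : Cfg) (ha : ∀ e ∉ E, ∀ b, a e b = 0) (hθ : Real.cos θ ≠ 0) :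
    XoT θ D a ω = (∏ ℓ ∈ (LE ω E).filter (fun ℓ => ∀ e ∈ ℓ, e ∉ eds D),
      (2 * Real.cos (cang plane θ a ω ℓ)) / (2 * Real.cos θ)) * XoutQ θ D a ω := by
  classical
  unfold XoT
  congr 1
  apply finprod_mem_eq_prod_of_inter_mulSupport_eq
  ext ℓ
  simp only [Set.mem_inter_iff, Set.mem_ofPred_eq, Function.mem_mulSupport, mem_coe, mem_filter,
    mem_LE]
  constructor
  · rintro ⟨⟨h1, h3⟩, h2⟩
    refine ⟨⟨⟨h1, ?_⟩, h3⟩, h2⟩
    by_contra hn
    apply h2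
    push Not at hn
    rw [cos_loop_zero h1 fun x hx => by
      rw [ha x fun hE => hn x hE hx, ha x fun hE => hn x hE hx, add_zero]]
    exact div_self (mul_ne_zero two_ne_zero hθ)
  · rintro ⟨⟨⟨h1, _⟩, h3⟩, h2⟩
    exact ⟨⟨h1, h3⟩, h2⟩

theorem abs_XoT_le (ω : Cfg) (ha : ∀ e ∉ E, ∀ b, a e b = 0) (hθ : 1 ≤ 2 * Real.cos θ) :
    |XoT θ D a ω| ≤ 2 ^ E.card * 2 ^ ((bS D).filter fun e => hdv e ∉ D).card := by
  classical
  have h0 : (0 : ℝ) < 2 * Real.cos θ := by linarith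
  have hc : Real.cos θ ≠ 0 := by intro h; rw [h] at h0; norm_num at h0
  rw [XoT_eq ω ha hc, abs_mul, abs_prod]
  refine mul_le_mul ?_ (abs_XoutQ_le ω) (abs_nonneg _) (by positivity)
  calc ∏ ℓ ∈ (LE ω E).filter (fun ℓ => ∀ e ∈ ℓ, e ∉ eds D),
        |(2 * Real.cos (cang plane θ a ω ℓ)) / (2 * Real.cos θ)|
        ≤ ∏ _ℓ ∈ (LE ω E).filter (fun ℓ => ∀ e ∈ ℓ, e ∉ eds D), (2 : ℝ) :=
          prod_le_prod (fun _ _ => abs_nonneg _) fun ℓ _ => by
            rw [abs_div, abs_of_pos h0, div_le_iff₀ h0]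
            refine (H199.abs_two_cos _).trans ?_
            linarith
      _ = 2 ^ ((LE ω E).filter (fun ℓ => ∀ e ∈ ℓ, e ∉ eds D)).card := by rw [prod_const]
      _ ≤ 2 ^ E.card := pow_le_pow_right₀ (by norm_num)
          ((card_filter_le _ _).trans (card_LE_le ω E))

theorem ql_XoT (ha : ∀ e ∉ E, ∀ b, a e b = 0) (hθ : Real.cos θ ≠ 0) : QL (XoT θ D a) := by
  classical
  have h1 : QL (fun ω => ∏ ℓ ∈ (LE ω E).filter (fun ℓ => ∀ e ∈ ℓ, e ∉ eds D),
      (2 * Real.cos (cang plane θ a ω ℓ)) / (2 * Real.cos θ)) := by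
    refine QL.of_loops E fun ω ω' hω hω' h => ?_
    have hL : LE ω' E = LE ω E := by
      ext ℓ
      rw [mem_LE, mem_LE]
      constructor
      · rintro ⟨h1, h2⟩
        exact ⟨(loops_iff hω h h2).1 h1, h2⟩
      · rintro ⟨h1, h2⟩
        exact ⟨(loops_iff hω h h2).2 h1, h2⟩
    rw [hL]
    refine prod_congr rfl fun ℓ hℓ => ?_
    obtain ⟨h2, h3⟩ := mem_LE.1 (mem_filter.1 hℓ).1
    rw [cang_congr (fun x hx => h ℓ h2 h3 _ (mem_image_of_mem _ hx)) θ]
  exact (h1.mul (ql_XoutQ D)).congr fun ω _ => (XoT_eq ω ha hθ).symm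

/-! ### the identity (TH) -/

open Classical in
/-- Indicator of the state `σ` in `D`. -/
noncomputable def fr (D : Finset (ℤ × ℤ)) (σ ω : Cfg) : ℝ := if ∀ v ∈ D, ω v = σ v then 1 else 0

theorem fr_loc (D : Finset (ℤ × ℤ)) (σ : Cfg) : Loc D (fr D σ) := by
  intro ω ω' h
  unfold fr
  have : (∀ v ∈ D, ω v = σ v) ↔ ∀ v ∈ D, ω' v = σ v :=
    ⟨fun h1 v hv => (h v hv).symm.trans (h1 v hv), fun h1 v hv => (h v hv).trans (h1 v hv)⟩
  simp only [this]

theorem fr_nonneg (D : Finset (ℤ × ℤ)) (σ ω : Cfg) : 0 ≤ fr D σ ω := by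
  unfold fr
  split_ifs
  · exact zero_le_one
  · exact le_rfl

theorem fr_le_one (D : Finset (ℤ × ℤ)) (σ ω : Cfg) : fr D σ ω ≤ 1 := by
  unfold fr
  split_ifs
  · exact le_rfl
  · exact zero_le_one

/-- The outer product with the weight of the loops which visit `D`. -/
noncomputable def RT (θ : ℝ) (D : Finset (ℤ × ℤ)) (a : Ed → Bool → ℝ) (ω : Cfg) : ℝ :=
  XoT θ D a ω / (2 * Real.cos θ) ^ LD D ω

theorem ex_xcT (ha : ∀ e ∉ E, ∀ b, a e b = 0) (hθ : Real.cos θ ≠ 0) {G : Cfg → ℝ}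
    (hG : ∀ ω ω', (∀ v, v ∉ D → ω v = ω' v) → G ω = G ω') (ω : Cfg) :
    Ex (2 * Real.cos θ) D ω (fun ω' => G ω' * XcQ θ (bS D) a ω') =
      rhoT θ D a * (G ω * XoT θ D a ω / Zq (2 * Real.cos θ) D ω) := by
  unfold Ex rhoT
  rw [← mul_div_assoc, sum_mul]
  congr 1
  refine sum_congr rfl fun S _ => ?_
  have h1 := xcT (D := D) ha hθ (cf D ω S)
  have hin : ∀ v ∈ D, cf D ω S v = cf D eta0 S v := fun v hv => by simp [cf, hv]
  have h2 : XinT θ D a (cf D ω S) = XinT θ D a (cf D eta0 S) := XinT_loc θ a _ _ hin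
  have h3 : XoT θ D a (cf D ω S) = XoT θ D a ω := XoT_congr fun v hv => cf_out hv
  rw [h2, h3] at h1
  show (2 * Real.cos θ) ^ LD D (cf D ω S) * (G (cf D ω S) * XcQ θ (bS D) a (cf D ω S)) = _
  rw [hG (cf D ω S) ω fun v hv => cf_out hv]
  linear_combination G ω * h1

theorem ex_fr (hθ : Real.cos θ ≠ 0) (σ : Cfg) {G : Cfg → ℝ}
    (hG : ∀ ω ω', (∀ v, v ∉ D → ω v = ω' v) → G ω = G ω') (ω : Cfg) :
    Ex (2 * Real.cos θ) D ω (fun ω' => fr D σ ω' * (G ω' * RT θ D a ω')) =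
      G ω * XoT θ D a ω / Zq (2 * Real.cos θ) D ω := by
  classical
  have h2 : (2 * Real.cos θ) ≠ 0 := mul_ne_zero two_ne_zero hθ
  unfold Ex
  congr 1
  rw [sum_eq_single (D.filter fun v => σ v = true)]
  · have h1 : fr D σ (cf D ω (D.filter fun v => σ v = true)) = 1 := by
      unfold fr
      rw [if_pos]
      intro v hv
      cases h : σ v <;> simp [cf, hv, h]
    beta_reduce
    rw [h1, one_mul, hG (cf D ω _) ω fun v hv => cf_out hv]
    unfold RT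
    rw [XoT_congr (ω' := ω) fun v hv => cf_out hv]
    have h3 : (2 * Real.cos θ) ^ LD D (cf D ω (D.filter fun v => σ v = true)) ≠ 0 :=
      pow_ne_zero _ h2
    field_simp
  · intro S hS hne
    have h1 : fr D σ (cf D ω S) = 0 := by
      unfold fr
      rw [if_neg]
      intro h
      apply hne
      ext v
      constructor
      · intro hv
        have hvD := mem_powerset.1 hS hv
        rw [mem_filter]
        refine ⟨hvD, ?_⟩
        rw [← h v hvD]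
        simp [cf, hvD, hv]
      · intro hv
        rw [mem_filter] at hv
        have h3 := h v hv.1
        rw [hv.2] at h3
        simpa [cf, hv.1] using h3
    beta_reduce
    rw [h1]
    ring
  · intro h
    exact absurd (mem_powerset.2 (filter_subset _ _)) h

/-- **(TH)** -/
theorem int_thick (hP : IsLim (2 * Real.cos θ) P) (hgd : ∀ᵐ ω ∂P, Good ω)
    (hθ : 1 ≤ 2 * Real.cos θ) (ha : ∀ e ∉ E, ∀ b, a e b = 0) (σ : Cfg) {G : Cfg → ℝ}
    (hG : ∀ ω ω', (∀ v, v ∉ D → ω v = ω' v) → G ω = G ω') (hGq : QL G) {M : ℝ}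
    (hM : ∀ ω, Good ω → |G ω| ≤ M) :
    ∫ ω, G ω * XcQ θ (bS D) a ω ∂P =
      rhoT θ D a * ∫ ω, fr D σ ω * (G ω * RT θ D a ω) ∂P := by
  have h0 : (0 : ℝ) < 2 * Real.cos θ := by linarith
  have hc : Real.cos θ ≠ 0 := by intro h; rw [h] at h0; norm_num at h0
  have hM0 : 0 ≤ M := (abs_nonneg _).trans (hM eta0 f_good.2.1)
  have h1 : ∫ ω, G ω * XcQ θ (bS D) a ω ∂P =
      ∫ ω, rhoT θ D a * (G ω * XoT θ D a ω / Zq (2 * Real.cos θ) D ω) ∂P := by
    rw [dlr hP h0 hgd (hGq.mul (ql_XcQ (S := bS D) ha hc))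
      (M := M * (2 ^ E.card * 2 ^ (bS D).card)) (fun ω hω => by
        rw [abs_mul]
        exact mul_le_mul (hM ω hω) (abs_XcQ_le ω ha hθ) (abs_nonneg _) hM0) D]
    exact integral_congr_ae (Eventually.of_forall fun ω => ex_xcT ha hc hG ω)
  have hR : ∀ ω, |RT θ D a ω| ≤ 2 ^ E.card * 2 ^ ((bS D).filter fun e => hdv e ∉ D).card := by
    intro ω
    unfold RT
    rw [abs_div, abs_of_pos (pow_pos h0 _)]
    exact (div_le_self (abs_nonneg _) (one_le_pow₀ hθ)).trans (abs_XoT_le ω ha hθ)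
  have hRq : QL (RT θ D a) :=
    (ql_XoT ha hc).div ((ql_LD D).comp fun k => (2 * Real.cos θ) ^ k)
  have h2 : ∫ ω, fr D σ ω * (G ω * RT θ D a ω) ∂P =
      ∫ ω, G ω * XoT θ D a ω / Zq (2 * Real.cos θ) D ω ∂P := by
    rw [dlr hP h0 hgd ((QL.of_loc (fr_loc D σ)).mul (hGq.mul hRq))
      (M := M * (2 ^ E.card * 2 ^ ((bS D).filter fun e => hdv e ∉ D).card)) (fun ω hω => by
        rw [abs_mul, abs_mul, abs_of_nonneg (fr_nonneg D σ ω)]
        calc fr D σ ω * (|G ω| * |RT θ D a ω|) ≤ 1 * (|G ω| * |RT θ D a ω|) := by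
              gcongr
              exact fr_le_one D σ ω
          _ = |G ω| * |RT θ D a ω| := one_mul _
          _ ≤ _ := mul_le_mul (hM ω hω) (hR ω) (abs_nonneg _) hM0) D]
    exact integral_congr_ae (Eventually.of_forall fun ω => ex_fr hc σ hG ω)
  rw [h1, h2, integral_const_mul]

end Vale.Agent.P167.QX
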