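import Vale.Agent.P167.QX.Stag

/-!
# P167, general `q`, block Q-XDL: the closed cut polygon and the Dobrushin model
-/

namespace Vale.Agent.P167.QX

open Finset Filter Topology MeasureTheory
open Vale.Agent.P167.E6 (IsPolygon Encloses)
open Vale.Agent.P167.H871 (Bd)
open Vale.Agent.P167.H825 (dv)
open Vale.Agent.P167.XDL (bS)
open Vale.Agent.P167.FK
open Vale.Agent.P167.FKA (Loc)
open Vale.Agent.P167.H519 (IsLim)
open Vale.Agent.P167.H718 (Dob)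

variable {D : Finset (ℤ × ℤ)} {η : Cfg} {θ β : ℝ} {n k : ℕ} {q : ZMod n → ℤ × ℤ} {u : ℕ → ℤ}
  {a a0 : Ed → Bool → ℝ} {c : Ed → ℝ} {K : ℝ} {P : Measure Cfg}

/-- The functional `V_D(f)` of the Dobrushin model (free sides `z < k`, base point `q 0`). -/
noncomputable def VQ (θ β : ℝ) (q : ZMod n → ℤ × ℤ) (D : Finset (ℤ × ℤ)) (k : ℕ) (η : Cfg)
    (f : ℤ × ℤ → ℝ) : ℝ :=
  Ex (2 * Real.cos θ) D η (XB θ β q D k f)

/-- **[Q-XDL]** The cut functional of the closed polygon with staggered phases and the flow `c`,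
with a local factor `F`: expectation for the Dobrushin model in `D` times the same cut functional
without flow. -/
theorem xdlQ_mul (hP : IsLim (2 * Real.cos θ) P) (hgd : ∀ᵐ ω ∂P, Good ω)
    (hθ : 1 ≤ 2 * Real.cos θ) (hs : Real.sin θ ≠ 0) (hβ : Real.cos (θ / 2 + β) = Real.sin θ)
    (hq : IsPolygon q) (hD : Encloses q D)
    (hu : Bd (D : Set (ℤ × ℤ)) n (fun k => q (k : ZMod n)) u 1) (hk : k ≤ n) (hη : Dob η D q k)
    (hg : GauQ θ q D u (stag θ β q k) a c K) (hg0 : GauQ θ q D u (stag θ β q k) a0 0 K)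
    (hao : ∀ x, (hdv x ∉ D ∨ tlv x ∉ D) → a x = a0 x)
    {E : Finset Ed} (ha : ∀ e ∉ E, ∀ b, a e b = 0) (ha0 : ∀ e ∉ E, ∀ b, a0 e b = 0)
    {F : Cfg → ℝ} (hF : Loc D F) :
    ∫ ω, F ω * XcQ θ (bS D) a ω ∂P =
      Ex (2 * Real.cos θ) D η (fun ω => F ω * XB θ β q D k (dv c) ω) *
        ∫ ω, XcQ θ (bS D) a0 ω ∂P := by
  have hc : 0 < Real.cos θ := by linarith
  have hdv0 : dv (0 : Ed → ℝ) = 0 := by
    funext z
    simp [H825.dv]
  rw [int_xcQ_mul hP hgd hθ hq hD hu hg ha hF, int_xcQ hP hgd hθ hq hD hu hg0 ha0,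
    VoutQ_congr_ph hao, ZQF_stag hq hD hs hc hβ hk hη (dv c) hF, hdv0]
  ring

theorem xdlQ (hP : IsLim (2 * Real.cos θ) P) (hgd : ∀ᵐ ω ∂P, Good ω)
    (hθ : 1 ≤ 2 * Real.cos θ) (hs : Real.sin θ ≠ 0) (hβ : Real.cos (θ / 2 + β) = Real.sin θ)
    (hq : IsPolygon q) (hD : Encloses q D)
    (hu : Bd (D : Set (ℤ × ℤ)) n (fun k => q (k : ZMod n)) u 1) (hk : k ≤ n) (hη : Dob η D q k)
    (hg : GauQ θ q D u (stag θ β q k) a c K) (hg0 : GauQ θ q D u (stag θ β q k) a0 0 K)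
    (hao : ∀ x, (hdv x ∉ D ∨ tlv x ∉ D) → a x = a0 x)
    {E : Finset Ed} (ha : ∀ e ∉ E, ∀ b, a e b = 0) (ha0 : ∀ e ∉ E, ∀ b, a0 e b = 0) :
    ∫ ω, XcQ θ (bS D) a ω ∂P = VQ θ β q D k η (dv c) * ∫ ω, XcQ θ (bS D) a0 ω ∂P := by
  have h := xdlQ_mul hP hgd hθ hs hβ hq hD hu hk hη hg hg0 hao ha ha0 (F := fun _ => 1)
    fun _ _ _ => rfl
  simp only [one_mul] at h
  exact h

end Vale.Agent.P167.QX
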