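import Vale.Agent.P167.QX.ExtPot

/-!
# P167, general `q`: the local factor `TS` of a special point of a frozen row

`I` is a row, `a` the phases of its wall. For an edge `e` which leaves `I`, `exc I ω e` is the excursion
(outer strand and the edge at which it comes back). `ClT`: the excursion is of closed type: it starts and
ends at closed squares and has its bounded side on the left, or it starts and ends at open squares and
has its bounded side on the right. The natural weight is `2 cos θ` for these and `1` for the others; `rS`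
is the quotient of the weight by the natural weight; `TS θ I a B` is the product of `rS` over the
excursions which stay in the box `B`.
-/

namespace Vale.Agent.P167.QX

open Finset
open Vale.Agent.P167.BR
open Vale.Agent.P167.XDL (bS mem_bS strand_congr')
open Vale.Agent.P167.FK
open Vale.Agent.P167.FKA (Loc)
open Vale.Agent.P167.A (plane plane_nx plane_sg)
open Vale.Agent.P167.H685 (nx_loc)
open Vale.Agent.P167.H199 (cang strand ret mem_strand loop_nx loop_iter ret_min ret_le Returns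
  cang_congr)

variable {I : Finset (ℤ × ℤ)} {ω ω' : Cfg} {θ : ℝ} {a : Ed → Bool → ℝ} {e : Ed} {B : Finset (ℤ × ℤ)}

/-- The edge at which the excursion comes back. -/
noncomputable def lst (I : Finset (ℤ × ℤ)) (ω : Cfg) (e : Ed) : Ed :=
  (nx ω)^[ret (nx ω) (bS I) e] e

/-- The excursion is of closed type. -/
def ClT (I : Finset (ℤ × ℤ)) (ω : Cfg) (e : Ed) : Prop :=
  (ω (tlv e) = false ∧ ω (hdv (lst I ω e)) = false ∧ ∃ φ, ExtPot I (exc I ω e) 1 φ) ∨
    (ω (tlv e) = true ∧ ω (hdv (lst I ω e)) = true ∧ ∃ φ, ExtPot I (exc I ω e) (-1) φ)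

open Classical in
/-- The natural weight. -/
noncomputable def natS (θ : ℝ) (I : Finset (ℤ × ℤ)) (ω : Cfg) (e : Ed) : ℝ :=
  if ClT I ω e then 2 * Real.cos θ else 1

/-- The quotient of the weight by the natural weight. -/
noncomputable def rS (θ : ℝ) (I : Finset (ℤ × ℤ)) (a : Ed → Bool → ℝ) (ω : Cfg) (e : Ed) : ℝ :=
  |wS θ I a ω e| / natS θ I ω e

/-- The excursion stays in the box `B`. -/
def InB (B : Finset (ℤ × ℤ)) (I : Finset (ℤ × ℤ)) (ω : Cfg) (e : Ed) : Prop :=
  Returns (nx ω) (bS I) e ∧ tlv e ∈ B ∧ ∀ k ≤ ret (nx ω) (bS I) e, hdv ((nx ω)^[k] e) ∈ B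

open Classical in
/-- **The local factor of the row `I` in the box `B`.** -/
noncomputable def TS (θ : ℝ) (I : Finset (ℤ × ℤ)) (a : Ed → Bool → ℝ) (B : Finset (ℤ × ℤ)) (ω : Cfg) : ℝ :=
  ∏ e ∈ (bS I).filter (fun e => hdv e ∉ I ∧ InB B I ω e), rS θ I a ω e

/-! ### locality -/

theorem iter_InB (h : ∀ v ∈ B, ω v = ω' v) (hb : InB B I ω e) :
    ∀ k ≤ ret (nx ω) (bS I) e, (nx ω)^[k] e = (nx ω')^[k] e := by
  intro k
  induction k with
  | zero => exact fun _ => rfl
  | succ k ih =>
    intro hk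
    have h1 := ih (by omega)
    rw [Function.iterate_succ_apply', Function.iterate_succ_apply', ← h1,
      nx_loc (h _ (hb.2.2 k (by omega)))]

theorem ret_InB (h : ∀ v ∈ B, ω v = ω' v) (hb : InB B I ω e) :
    Returns (nx ω') (bS I) e ∧ ret (nx ω') (bS I) e = ret (nx ω) (bS I) e := by
  obtain ⟨h1, h2⟩ := hb.1.spec
  have h3 := iter_InB h hb
  have h4 : (nx ω')^[ret (nx ω) (bS I) e] e ∈ bS I := by rw [← h3 _ le_rfl]; exact h2
  have h5 : Returns (nx ω') (bS I) e := ⟨_, h1, h4⟩
  refine ⟨h5, le_antisymm (ret_le h1 h4) ?_⟩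
  by_contra hlt
  push Not at hlt
  obtain ⟨h6, h7⟩ := h5.spec
  rw [← h3 _ hlt.le] at h7
  exact ret_min h6 hlt h7

theorem InB_congr (h : ∀ v ∈ B, ω v = ω' v) (hb : InB B I ω e) : InB B I ω' e := by
  obtain ⟨h1, h2⟩ := ret_InB h hb
  refine ⟨h1, hb.2.1, fun k hk => ?_⟩
  rw [h2] at hk
  rw [← iter_InB h hb k hk]
  exact hb.2.2 k hk

theorem strand_InB (h : ∀ v ∈ B, ω v = ω' v) (hb : InB B I ω e) :
    strand (nx ω') (bS I) e = strand (nx ω) (bS I) e := by
  unfold strand
  rw [(ret_InB h hb).2]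
  exact image_congr fun k hk => (iter_InB h hb k (mem_range.1 (mem_coe.1 hk)).le).symm

theorem lst_InB (h : ∀ v ∈ B, ω v = ω' v) (hb : InB B I ω e) : lst I ω' e = lst I ω e := by
  unfold lst
  rw [(ret_InB h hb).2]
  exact (iter_InB h hb _ le_rfl).symm

theorem exc_InB (h : ∀ v ∈ B, ω v = ω' v) (hb : InB B I ω e) : exc I ω' e = exc I ω e := by
  unfold exc
  rw [strand_InB h hb]
  have := lst_InB h hb
  unfold lst at this
  rw [this]

theorem rS_InB (h : ∀ v ∈ B, ω v = ω' v) (hb : InB B I ω e) :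
    rS θ I a ω' e = rS θ I a ω e := by
  classical
  have h1 : cang plane θ a ω' (strand (nx ω') (bS I) e) =
      cang plane θ a ω (strand (nx ω) (bS I) e) := by
    rw [strand_InB h hb]
    refine cang_congr (fun y hy => ?_) θ
    obtain ⟨k, hk, rfl⟩ := mem_strand.1 hy
    exact (h _ (hb.2.2 k hk.le)).symm
  have h2 : ClT I ω' e ↔ ClT I ω e := by
    unfold ClT
    rw [exc_InB h hb, lst_InB h hb, ← h _ hb.2.1,
      ← h (hdv (lst I ω e)) (by unfold lst; exact hb.2.2 _ le_rfl)]
  unfold rS wS natS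
  rw [h1]
  simp only [h2]

/-- `TS` depends only on the squares of the box. -/
theorem TS_loc (θ : ℝ) (I : Finset (ℤ × ℤ)) (a : Ed → Bool → ℝ) (B : Finset (ℤ × ℤ)) :
    Loc (B) (TS θ I a B) := by
  classical
  intro ω ω' h
  have h' : ∀ v ∈ B, ω' v = ω v := fun v hv => (h v hv).symm
  unfold TS
  refine prod_congr ?_ fun e he => ?_
  · ext e
    simp only [mem_filter]
    exact and_congr_right fun _ => and_congr_right fun _ => ⟨InB_congr h, InB_congr h'⟩
  · exact (rS_InB h' (mem_filter.1 he).2.2).symm ▸ rfl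

theorem natS_pos (hθ : 0 < Real.cos θ) (I : Finset (ℤ × ℤ)) (ω : Cfg) (e : Ed) :
    0 < natS θ I ω e := by
  classical
  unfold natS
  split_ifs
  · linarith
  · exact one_pos

theorem rS_nonneg (hθ : 0 < Real.cos θ) (I : Finset (ℤ × ℤ)) (a : Ed → Bool → ℝ) (ω : Cfg)
    (e : Ed) : 0 ≤ rS θ I a ω e := by
  unfold rS
  exact div_nonneg (abs_nonneg _) (natS_pos hθ I ω e).le

theorem TS_nonneg (hθ : 0 < Real.cos θ) (I : Finset (ℤ × ℤ)) (a : Ed → Bool → ℝ) (B : Finset (ℤ × ℤ))
    (ω : Cfg) : 0 ≤ TS θ I a B ω := by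
  classical
  exact prod_nonneg fun e _ => rS_nonneg hθ I a ω e

end Vale.Agent.P167.QX
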