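import Vale.Agent.P167.QX.QlX

/-!
# P167, general `q`, block Q-XDL (X2): the cut functional of the closed polygon factorises

The conditional expectation of the cut functional given the outside of `D` is the inner partition
function `ZQ` (which does not depend on the outside) times `XoutQ / Zq`; hence
`∫ F XcQ = ZQF F * ∫ XoutQ / Zq` for the infinite-volume measure.
-/

namespace Vale.Agent.P167.QX

open Finset Filter Topology MeasureTheory
open Vale.Agent.P167.A (plane plane_nx)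
open Vale.Agent.P167.E6 (IsPolygon Encloses)
open Vale.Agent.P167.H871 (Bd)
open Vale.Agent.P167.H825 (dv)
open Vale.Agent.P167.BR (pcs_congr)
open Vale.Agent.P167.XDL (bS mem_bS)
open Vale.Agent.P167.FK
open Vale.Agent.P167.FKA (Loc Zq_pos cf_out)
open Vale.Agent.P167.H519 (IsLim)
open Vale.Agent.P167.H199 (cang strand)

variable {D : Finset (ℤ × ℤ)} {ω : Cfg} {θ : ℝ} {n : ℕ} {q : ZMod n → ℤ × ℤ} {u : ℕ → ℤ}
  {ψ : ℕ → ℝ} {a : Ed → Bool → ℝ} {c : Ed → ℝ} {K : ℝ} {P : Measure Cfg}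

theorem loc_XQ (θ : ℝ) (q : ZMod n → ℤ × ℤ) (ψ : ℕ → ℝ) (f : ℤ × ℤ → ℝ) : Loc D (XQ θ q D ψ f) := by
  intro ω ω' h
  unfold XQ
  rw [pcs_congr h]

theorem XoutQ_congr {ω ω' : Cfg} (h : ∀ v, v ∉ D → ω v = ω' v) :
    XoutQ θ D a ω = XoutQ θ D a ω' := by
  unfold XoutQ
  refine prod_congr rfl fun e he => ?_
  rw [mem_filter] at he
  rw [XDL.out_factor h he.2]

theorem abs_XoutQ_le (ω : Cfg) :
    |XoutQ θ D a ω| ≤ 2 ^ ((bS D).filter fun e => hdv e ∉ D).card := by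
  unfold XoutQ
  rw [abs_prod]
  calc _ ≤ ∏ _e ∈ (bS D).filter (fun e => hdv e ∉ D), (2 : ℝ) :=
        prod_le_prod (fun _ _ => abs_nonneg _) fun _ _ => H199.abs_two_cos _
    _ = _ := by rw [prod_const]

/-- The inner sum with the function `F`. -/
noncomputable def ZQF (θ : ℝ) (q : ZMod n → ℤ × ℤ) (D : Finset (ℤ × ℤ)) (ψ : ℕ → ℝ)
    (f : ℤ × ℤ → ℝ) (F : Cfg → ℝ) : ℝ :=
  ∑ S ∈ D.powerset, F (FK.cf D FK.eta0 S) * XQ θ q D ψ f (FK.cf D FK.eta0 S)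

theorem ZQF_one (θ : ℝ) (q : ZMod n → ℤ × ℤ) (D : Finset (ℤ × ℤ)) (ψ : ℕ → ℝ)
    (f : ℤ × ℤ → ℝ) : ZQF θ q D ψ f (fun _ => 1) = ZQ θ q D ψ f := by
  unfold ZQF ZQ
  simp only [one_mul]

/-- **The conditional expectation given the outside of `D`.** -/
theorem ex_xcQ (hq : IsPolygon q) (hD : Encloses q D)
    (hu : Bd (D : Set (ℤ × ℤ)) n (fun k => q (k : ZMod n)) u 1) (hg : GauQ θ q D u ψ a c K)
    (hθ : Real.cos θ ≠ 0) (ω : Cfg) {F : Cfg → ℝ} (hF : Loc D F) :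
    Ex (2 * Real.cos θ) D ω (fun ω' => F ω' * XcQ θ (bS D) a ω') =
      ZQF θ q D ψ (dv c) F * (XoutQ θ D a ω / Zq (2 * Real.cos θ) D ω) := by
  unfold Ex ZQF
  rw [← mul_div_assoc, sum_mul]
  congr 1
  refine sum_congr rfl fun S _ => ?_
  have h1 := xcQ hq hD hu hg hθ (cf D ω S)
  have hin : ∀ v ∈ D, cf D ω S v = cf D eta0 S v := fun v hv => by simp [cf, hv]
  have h2 : XQ θ q D ψ (dv c) (cf D ω S) = XQ θ q D ψ (dv c) (cf D eta0 S) :=
    loc_XQ θ q ψ (dv c) _ _ hin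
  have h3 : XoutQ θ D a (cf D ω S) = XoutQ θ D a ω := XoutQ_congr fun v hv => cf_out hv
  rw [h2, h3] at h1
  show (2 * Real.cos θ) ^ LD D (cf D ω S) * (F (cf D ω S) * XcQ θ (bS D) a (cf D ω S)) = _
  rw [hF _ _ hin]
  linear_combination F (cf D eta0 S) * h1

theorem loc_bdd {F : Cfg → ℝ} (hF : Loc D F) : ∃ M : ℝ, ∀ ω, |F ω| ≤ M := by
  obtain ⟨M, hM⟩ := (D.powerset.image fun S => |F (cf D eta0 S)|).bddAbove
  refine ⟨M, fun ω => hM ?_⟩
  rw [mem_coe, mem_image]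
  refine ⟨D.filter fun v => ω v = true, mem_powerset.2 (filter_subset _ _), ?_⟩
  rw [hF (cf D eta0 (D.filter fun v => ω v = true)) ω fun v hv => by
    cases h : ω v <;> simp [cf, hv, h]]

/-- The exterior factor. -/
noncomputable def VoutQ (θ : ℝ) (D : Finset (ℤ × ℤ)) (a : Ed → Bool → ℝ) (P : Measure Cfg) : ℝ :=
  ∫ ω, XoutQ θ D a ω / Zq (2 * Real.cos θ) D ω ∂P

theorem ql_out (θ : ℝ) (D : Finset (ℤ × ℤ)) (a : Ed → Bool → ℝ) :
    QL (fun ω => XoutQ θ D a ω / Zq (2 * Real.cos θ) D ω) :=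
  (ql_XoutQ D).div (ql_Zq D)

theorem abs_out_le (hθ : 1 ≤ 2 * Real.cos θ) (ω : Cfg) :
    |XoutQ θ D a ω / Zq (2 * Real.cos θ) D ω| ≤
      2 ^ ((bS D).filter fun e => hdv e ∉ D).card := by
  have h0 : (0 : ℝ) < 2 * Real.cos θ := by linarith
  have h1 : 1 ≤ Zq (2 * Real.cos θ) D ω := by
    unfold Zq
    calc (1 : ℝ) ≤ (2 * Real.cos θ) ^ LD D (cf D ω ∅) := one_le_pow₀ hθ
      _ ≤ _ := single_le_sum (f := fun S => (2 * Real.cos θ) ^ LD D (cf D ω S))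
        (fun S _ => (pow_pos h0 _).le) (empty_mem_powerset D)
  rw [abs_div, abs_of_pos (Zq_pos h0 D ω)]
  exact (div_le_self (abs_nonneg _) h1).trans (abs_XoutQ_le ω)

/-- **(X2)** -/
theorem int_xcQ_mul (hP : IsLim (2 * Real.cos θ) P) (hgd : ∀ᵐ ω ∂P, Good ω)
    (hθ : 1 ≤ 2 * Real.cos θ) (hq : IsPolygon q) (hD : Encloses q D)
    (hu : Bd (D : Set (ℤ × ℤ)) n (fun k => q (k : ZMod n)) u 1) (hg : GauQ θ q D u ψ a c K)
    {E : Finset Ed} (ha : ∀ e ∉ E, ∀ b, a e b = 0) {F : Cfg → ℝ} (hF : Loc D F) :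
    ∫ ω, F ω * XcQ θ (bS D) a ω ∂P = ZQF θ q D ψ (dv c) F * VoutQ θ D a P := by
  have h0 : (0 : ℝ) < 2 * Real.cos θ := by linarith
  have hc : Real.cos θ ≠ 0 := by intro h; rw [h] at h0; norm_num at h0
  obtain ⟨M, hM⟩ := loc_bdd hF
  have hM0 : 0 ≤ M := (abs_nonneg _).trans (hM eta0)
  rw [dlr hP h0 hgd ((QL.of_loc hF).mul (ql_XcQ (S := bS D) ha hc))
    (M := M * (2 ^ E.card * 2 ^ (bS D).card)) (fun ω _ => by
      rw [abs_mul]
      exact mul_le_mul (hM ω) (abs_XcQ_le ω ha hθ) (abs_nonneg _) hM0) D]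
  simp only [ex_xcQ hq hD hu hg hc _ hF]
  rw [integral_const_mul]
  rfl

theorem int_xcQ (hP : IsLim (2 * Real.cos θ) P) (hgd : ∀ᵐ ω ∂P, Good ω)
    (hθ : 1 ≤ 2 * Real.cos θ) (hq : IsPolygon q) (hD : Encloses q D)
    (hu : Bd (D : Set (ℤ × ℤ)) n (fun k => q (k : ZMod n)) u 1) (hg : GauQ θ q D u ψ a c K)
    {E : Finset Ed} (ha : ∀ e ∉ E, ∀ b, a e b = 0) :
    ∫ ω, XcQ θ (bS D) a ω ∂P = ZQ θ q D ψ (dv c) * VoutQ θ D a P := by
  have h := int_xcQ_mul hP hgd hθ hq hD hu hg ha (F := fun _ => 1) fun _ _ _ => rfl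
  simp only [one_mul] at h
  rw [h, ZQF_one]

/-- The exterior factor only depends on the phases of the edges which are not inside `D`. -/
theorem XoutQ_congr_ph {a' : Ed → Bool → ℝ} (h : ∀ x, (hdv x ∉ D ∨ tlv x ∉ D) → a x = a' x)
    (ω : Cfg) : XoutQ θ D a ω = XoutQ θ D a' ω := by
  unfold XoutQ
  refine prod_congr rfl fun e he => ?_
  rw [mem_filter] at he
  congr 2
  unfold cang
  refine sum_congr rfl fun x hx => ?_
  obtain ⟨k, hk, rfl⟩ := H199.mem_strand.1 hx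
  have hout : ∀ k < H199.ret (nx ω) (bS D) e, hdv ((nx ω)^[k] e) ∉ D := by
    intro k
    induction k with
    | zero => intro _; exact he.2
    | succ k ih =>
      intro hk h3
      have h1 := ih (by omega)
      have h2 : (nx ω)^[k + 1] e ∉ bS D := H199.ret_min (by omega) hk
      rw [mem_bS] at h2
      have h4 : tlv ((nx ω)^[k + 1] e) ∉ D := by
        rw [Function.iterate_succ_apply', tlv_nx]; exact h1
      tauto
  have h1 := hout k hk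
  have h2 : a ((nx ω)^[k] e) = a' ((nx ω)^[k] e) := h _ (Or.inl h1)
  have h3 : a (plane.nx ω ((nx ω)^[k] e)) = a' (plane.nx ω ((nx ω)^[k] e)) := by
    apply h
    right
    rw [plane_nx, tlv_nx]
    exact h1
  unfold H199.ah H199.at'
  rw [h2, h3]

theorem VoutQ_congr_ph {a' : Ed → Bool → ℝ} (h : ∀ x, (hdv x ∉ D ∨ tlv x ∉ D) → a x = a' x) :
    VoutQ θ D a P = VoutQ θ D a' P := by
  unfold VoutQ
  simp only [XoutQ_congr_ph h]

end Vale.Agent.P167.QX
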