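import Vale.Agent.P167.QX.L1A
import Vale.Agent.P167.QX.ExtRect
import Vale.Agent.P167.H945.Q.HGeo
import Vale.Agent.P167.H945.Q.HDefs

/-!
# P167, general `q`: admissible configurations of rows are families of rows (`RowFam`)
-/

namespace Vale.Agent.P167.QX

open Finset
open Vale.Agent.P167.BR
open Vale.Agent.P167.XDL (bS mem_bS)
open Vale.Agent.P167.FK
open Vale.Agent.P167.H199 (strand ret mem_strand Returns ret_le ret_min)
open Vale.Agent.P167.H825.Q (Row)
open Vale.Agent.P167.H825 (epos)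
open Vale.Agent.P167.H680.T (sq_mem sq_inj mem_I rowC uI mem_uI et et_pos et_mem adm_sepd ax nm_ht)
open Vale.Agent.P167.H945.Q (sep_sq exists_sq adm_sep adm_box nm_sub_le)

variable {ω : Cfg} {I : Finset (ℤ × ℤ)} {θ κ R B : ℝ} {n : ℕ} {r : Row} {b : Bool} {p q : ℤ × ℤ}

theorem chn_hor {x y : ℤ} (h : ((x, y) ∈ I ∧ (x, y - 1) ∉ I ∧ ω (x, y) = b) ∨
    ((x, y - 1) ∈ I ∧ (x, y) ∉ I ∧ ω (x, y - 1) = b)) :
    Chn I ω b (x, y) (x + 1, y) ∧ Chn I ω b (x + 1, y) (x, y) := by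
  constructor <;>
  · refine ⟨Sum.inr (x, y - 1), ?_, ?_⟩ <;> simp only [hdv, tlv, ls, rs] <;> split_ifs <;>
      simp only [sub_add_cancel, Prod.mk.injEq] <;> tauto

theorem chn_ver {x y : ℤ} (h : ((x, y) ∈ I ∧ (x - 1, y) ∉ I ∧ ω (x, y) = b) ∨
    ((x - 1, y) ∈ I ∧ (x, y) ∉ I ∧ ω (x - 1, y) = b)) :
    Chn I ω b (x, y) (x, y + 1) ∧ Chn I ω b (x, y + 1) (x, y) := by
  constructor <;>
  · refine ⟨Sum.inl (x - 1, y), ?_, ?_⟩ <;> simp only [hdv, tlv, ls, rs] <;> split_ifs <;>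
      simp only [sub_add_cancel, Prod.mk.injEq] <;> tauto

theorem path_ends {α : Type*} {ρ : α → α → Prop} {f : ℕ → α} {lo hi : ℕ}
    (h : ∀ m, lo ≤ m → m < hi → ρ (f m) (f (m + 1)) ∧ ρ (f (m + 1)) (f m)) {m : ℕ} (h1 : lo ≤ m)
    (h2 : m ≤ hi) :
    Relation.ReflTransGen ρ (f m) (f lo) ∧ Relation.ReflTransGen ρ (f m) (f hi) := by
  constructor
  · induction m with
    | zero =>
      have : lo = 0 := by omega
      rw [this]
    | succ m ih =>
      rcases Nat.lt_or_ge m lo with h3 | h3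
      · rw [show lo = m + 1 by omega]
      · exact (ih h3 (by omega)).head (h m h3 (by omega)).2
  · obtain ⟨k, rfl⟩ : ∃ k, hi = m + k := ⟨hi - m, by omega⟩
    clear h2
    induction k with
    | zero => exact Relation.ReflTransGen.refl
    | succ k ih =>
      exact (ih fun j j1 j2 => h j j1 (by omega)).tail (h (m + k) (by omega) (by omega)).1

/-- The squares of one colour. -/
theorem cls (hr : r.Ok θ κ n) (h0 : 0 ≤ κ * n) {w : ℤ} (hw : (w : ℝ) ≤ κ * n) (hω : ∀ v ∈ r.I, ω v = r.fr v)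
    {k : ℕ} (hk : k < r.L) : ∃ lo hi : ℕ, lo ≤ k ∧ k < hi ∧ hi ≤ r.L ∧ (lo : ℤ) + w ≤ hi ∧
      ∀ m, lo ≤ m → m < hi → ω (r.sq m) = ω (r.sq k) := by
  have hfr : ∀ m, m < r.L → ω (r.sq m) = decide ((r.s * if r.k0 ≤ m then r.η else 1) = -1) :=
    fun m hm => by rw [hω _ (sq_mem.2 hm), Row.fr, r.τ_sq]
  have hall : r.η = 1 → ∃ lo hi : ℕ, lo ≤ k ∧ k < hi ∧ hi ≤ r.L ∧ (lo : ℤ) + w ≤ hi ∧
      ∀ m, lo ≤ m → m < hi → ω (r.sq m) = ω (r.sq k) := by
    intro hη
    have h1 : (w : ℝ) ≤ r.L := hw.trans hr.len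
    refine ⟨0, r.L, Nat.zero_le _, hk, le_rfl, ?_, fun m _ hm => ?_⟩
    · have : w ≤ (r.L : ℤ) := by exact_mod_cast h1
      push_cast
      omega
    · rw [hfr m hm, hfr k hk, hη, ite_self, ite_self]
  rcases hr.kind with ⟨-, h⟩ | ⟨⟨-, h⟩ | ⟨-, h⟩, h1, h2⟩
  · exact hall h
  · have h3 : w ≤ (r.k0 : ℤ) := by exact_mod_cast hw.trans h1
    have h4 : (r.k0 : ℤ) + w ≤ r.L := by
      have : (r.k0 : ℝ) + w ≤ r.L := by linarith
      exact_mod_cast this
    by_cases hkk : r.k0 ≤ k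
    · refine ⟨r.k0, r.L, hkk, hk, le_rfl, h4, fun m hm hm' => ?_⟩
      rw [hfr m hm', hfr k hk, if_pos hkk, if_pos hm]
    · have h5 : r.k0 ≤ r.L := by
        have : (r.k0 : ℝ) ≤ r.L := by linarith
        exact_mod_cast this
      refine ⟨0, r.k0, Nat.zero_le _, by omega, h5, by push_cast; omega, fun m _ hm' => ?_⟩
      rw [hfr m (by omega), hfr k hk, if_neg hkk, if_neg (by omega)]
  · exact hall h

theorem thin_row (r : Row) : Thin r.I := by
  cases ho : r.o
  · right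
    refine ⟨r.x.1, fun v hv => ?_⟩
    rw [mem_I, ho] at hv
    exact hv.1
  · left
    refine ⟨r.x.2, fun v hv => ?_⟩
    rw [mem_I, ho] at hv
    exact hv.1

theorem conn_row (r : Row) : ExtConn r.I := by
  cases ho : r.o
  · refine extConn_rect (a := r.x.1) (b := r.x.1) (c := r.x.2) (d := r.x.2 + r.L - 1) fun v => ?_
    rw [mem_I, ho]
    simp only [Bool.false_eq_true, if_false]
    omega
  · refine extConn_rect (a := r.x.1) (b := r.x.1 + r.L - 1) (c := r.x.2) (d := r.x.2) fun v => ?_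
    rw [mem_I, ho]
    simp only [if_true]
    omega

/-- The site number `m` of a side of the row. -/
def sd (r : Row) (h : ℤ) (m : ℕ) : ℤ × ℤ :=
  if r.o then (r.x.1 + m, r.x.2 + h) else (r.x.1 + h, r.x.2 + m)

theorem sd_chn (r : Row) {h : ℤ} (hh : h = 0 ∨ h = 1) {m : ℕ} (hm : m < r.L)
    (hb : ω (r.sq m) = b) : Chn r.I ω b (sd r h m) (sd r h (m + 1)) ∧
      Chn r.I ω b (sd r h (m + 1)) (sd r h m) := by
  have h1 : r.sq m ∈ r.I := sq_mem.2 hm
  unfold sd
  unfold Row.sq at h1 hb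
  cases ho : r.o
  · rw [ho] at h1 hb
    simp only [Bool.false_eq_true, if_false] at h1 hb ⊢
    have h2 := chn_ver (I := r.I) (ω := ω) (b := b) (x := r.x.1 + h) (y := r.x.2 + m) (by
      rcases hh with rfl | rfl
      · left
        rw [add_zero]
        refine ⟨h1, fun h => ?_, hb⟩
        rw [mem_I, ho] at h
        simp only [Bool.false_eq_true, if_false] at h
        omega
      · right
        rw [add_sub_cancel_right]
        refine ⟨h1, fun h => ?_, hb⟩
        rw [mem_I, ho] at h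
        simp only [Bool.false_eq_true, if_false] at h
        omega)
    push_cast
    rw [← add_assoc]
    exact h2
  · rw [ho] at h1 hb
    simp only [if_true] at h1 hb ⊢
    have h2 := chn_hor (I := r.I) (ω := ω) (b := b) (x := r.x.1 + m) (y := r.x.2 + h) (by
      rcases hh with rfl | rfl
      · left
        rw [add_zero]
        refine ⟨h1, fun h => ?_, hb⟩
        rw [mem_I, ho] at h
        simp only [if_true] at h
        omega
      · right
        rw [add_sub_cancel_right]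
        refine ⟨h1, fun h => ?_, hb⟩
        rw [mem_I, ho] at h
        simp only [if_true] at h
        omega)
    push_cast
    rw [← add_assoc]
    exact h2

/-- **The squares of a row are connected to the outside of a small box.** -/
theorem esc_row (hr : r.Ok θ κ n) (h0 : 0 ≤ κ * n) {w : ℤ} (hw : (w : ℝ) ≤ κ * n)
    (hω : ∀ v ∈ r.I, ω v = r.fr v) (h1 : q.1 ≤ p.1 + w) (h2 : q.2 ≤ p.2 + w) :
    Esc r.I ω b p q := by
  have key : ∀ v ∈ r.I, ω v = b → ∀ z : ℤ × ℤ, (v.1 = z.1 ∨ v.1 = z.1 - 1) →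
      (v.2 = z.2 ∨ v.2 = z.2 - 1) →
      ∃ z', Relation.ReflTransGen (Chn r.I ω b) z z' ∧ ¬ Ins p q z' := by
    intro v hv hvb z hz1 hz2
    obtain ⟨k, hk, rfl⟩ := exists_sq hv
    obtain ⟨lo, hi, g1, g2, g3, g4, g5⟩ := cls hr h0 hw hω hk
    obtain ⟨h, m, hh, m1, m2, rfl⟩ : ∃ (h : ℤ) (m : ℕ), (h = 0 ∨ h = 1) ∧ lo ≤ m ∧ m ≤ hi ∧
        z = sd r h m := by
      unfold Row.sq at hz1 hz2
      unfold sd
      cases ho : r.o
      · rw [ho] at hz1 hz2
        simp only [Bool.false_eq_true, if_false] at hz1 hz2 ⊢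
        refine ⟨z.1 - r.x.1, (z.2 - r.x.2).toNat, by omega, by omega, by omega, ?_⟩
        ext
        · simp
        · simp only
          omega
      · rw [ho] at hz1 hz2
        simp only [if_true] at hz1 hz2 ⊢
        refine ⟨z.2 - r.x.2, (z.1 - r.x.1).toNat, by omega, by omega, by omega, ?_⟩
        ext
        · simp only
          omega
        · simp
    obtain ⟨p1, p2⟩ := path_ends (ρ := Chn r.I ω b) (f := sd r h) (lo := lo) (hi := hi)
      (fun j j1 j2 => sd_chn r hh (by omega) (by rw [g5 j j1 j2, hvb])) m1 m2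
    by_cases hins : Ins p q (sd r h lo)
    · refine ⟨_, p2, fun hins' => ?_⟩
      obtain ⟨⟨a1, a2⟩, a3, a4⟩ := hins
      obtain ⟨⟨b1, b2⟩, b3, b4⟩ := hins'
      unfold sd at a1 a2 a3 a4 b1 b2 b3 b4
      cases ho : r.o
      · rw [ho] at a1 a2 a3 a4 b1 b2 b3 b4
        simp only [Bool.false_eq_true, if_false] at a1 a2 a3 a4 b1 b2 b3 b4
        omega
      · rw [ho] at a1 a2 a3 a4 b1 b2 b3 b4
        simp only [if_true] at a1 a2 a3 a4 b1 b2 b3 b4
        omega
    · exact ⟨_, p1, hins⟩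
  intro y hy hyb
  obtain ⟨⟨c1, c2⟩, -, ⟨c3, c4⟩, -⟩ := corners y
  exact ⟨key _ hy hyb _ c1 c2, key _ hy hyb _ c3 c4⟩

end Vale.Agent.P167.QX
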