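import Vale.Agent.P167.QX.L1B

/-!
# P167, general `q`: rows of an admissible configuration: boxes, phases, exits
-/

namespace Vale.Agent.P167.QX

open Finset
open Vale.Agent.P167.BR hiding dv
open Vale.Agent.P167.XDL (bS mem_bS lp_disj)
open Vale.Agent.P167.FK
open Vale.Agent.P167.H199 (strand ret mem_strand Returns ret_le ret_min strand_unique)
open Vale.Agent.P167.H685 (LE mem_LE)
open Vale.Agent.P167.H825.Q (Row)
open Vale.Agent.P167.H825 (epos)
open Vale.Agent.P167.H680.T (sq_mem sq_inj mem_I rowC uI mem_uI et et_pos et_mem adm_sepd ax nm_ht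
  nm_sq sq_hb)
open Vale.Agent.P167.H945.Q (sep_sq exists_sq adm_sep adm_box nm_sub_le nm_comm)

variable {ι : Type} {ω : Cfg} {θ κ R B : ℝ} {n : ℕ} {r : ι → Row} {c : Ed → ℝ}
  {p q : ℤ × ℤ} {w : ℤ} {i : ι}

/-- The allowed boxes of a row: width at most `w`, with a square of the row. -/
def AbR (r : ι → Row) (w : ℤ) (i : ι) (p q : ℤ × ℤ) : Prop :=
  (∃ v ∈ (r i).I, v ∈ Bx p q) ∧ q.1 ≤ p.1 + w ∧ q.2 ≤ p.2 + w

theorem nm_Bx {u v : ℤ × ℤ} (hu : u ∈ Bx p q) (hv : v ∈ Bx p q) (h1 : q.1 ≤ p.1 + w)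
    (h2 : q.2 ≤ p.2 + w) : nm (u - v) ≤ w - 1 := by
  rw [mem_Bx] at hu hv
  show max |u.1 - v.1| |u.2 - v.2| ≤ w - 1
  rw [max_le_iff, abs_le, abs_le]
  omega

theorem nm_pos (y : Ed) : nm (epos y - hdv y) ≤ 1 ∧ nm (epos y - tlv y) ≤ 1 := by
  have h := sq_hb y
  rw [← h.1, ← h.2]
  exact ⟨nm_sq _ _, nm_sq _ _⟩

theorem rowFam [Fintype ι] (hg : Good ω) (hA : (rowC θ r c).Adm κ R B n) (hn : 1 < κ * n)
    (hr : ∀ i, (r i).Ok θ κ n) (hω : ∀ i, ∀ v ∈ (r i).I, ω v = (r i).fr v)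
    (hw : (w : ℝ) ≤ κ * n) : RowFam (uI r) (fun i => (r i).I) (AbR r w) ω := by
  have hW : ∀ i, (rowC θ r c).w i = (r i).wall θ 0 := fun _ => rfl
  refine ⟨hg, fun v => mem_uI, fun i j v h1 h2 => ?_, fun i j y h1 h2 => ?_, fun i => thin_row _,
    fun i => conn_row _, fun i p q hab v hv hvK => ?_, fun i p q hab b => ?_⟩
  · by_contra hij
    exact Finset.disjoint_left.1 (adm_sepd hA hn hW hij).dis h1 h2
  · by_contra hij
    have h3 := adm_sep hA hij h1 h2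
    have h4 : (nm (hdv y - tlv y) : ℝ) ≤ 1 := by exact_mod_cast nm_ht y
    linarith
  · obtain ⟨⟨v0, g1, g2⟩, g3, g4⟩ := hab
    obtain ⟨j, hj⟩ := mem_uI.1 hvK
    by_cases hij : j = i
    · subst hij
      exact hj
    · have h3 := adm_sep hA hij hj g1
      have h4 : (nm (v - v0) : ℝ) ≤ w - 1 := by exact_mod_cast nm_Bx hv g2 g3 g4
      linarith
  · exact esc_row (hr i) (by linarith) hw (hω i) hab.2.1 hab.2.2

/-- Near a row only its wall has a phase. -/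
theorem ph_row [Fintype ι] (hA : (rowC θ r c).Adm κ R B n) (hw : (w : ℝ) < κ * n)
    (hab : AbR r w i p q) {y : Ed} (hy : hdv y ∈ Bx p q) :
    (rowC θ r c).ph y = ((r i).wall θ 0).a y := by
  obtain ⟨⟨v0, g1, g2⟩, g3, g4⟩ := hab
  have h4 : (nm (hdv y - v0) : ℝ) ≤ w - 1 := by exact_mod_cast nm_Bx hy g2 g3 g4
  have h5 : (nm (epos y - v0) : ℝ) ≤ w := by
    have h6 : (nm (epos y - v0) : ℝ) ≤ nm (epos y - hdv y) + nm (hdv y - v0) := by
      exact_mod_cast nm_sub_le _ _ _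
    have h7 : (nm (epos y - hdv y) : ℝ) ≤ 1 := by exact_mod_cast (nm_pos y).1
    linarith
  have hc : c y = 0 := by
    by_contra hne
    have := (H945.Q.adm_flow hA hne).2 i v0 g1
    linarith
  have hk : ∀ k, k ≠ i → ((r k).wall θ 0).a y = 0 := by
    intro k hki
    apply ((r k).wall θ 0).off
    intro hS
    have hS' : y ∈ bS (r k).I := hS
    have h8 := hA.sep k i hki y hS (et (r i) v0) (et_mem g1)
    rw [et_pos] at h8
    linarith
  funext b
  show ∑ k, ((r k).wall θ 0).a y b + c y / 2 = _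
  rw [hc, zero_div, add_zero]
  exact sum_eq_single i (fun k _ hki => by rw [hk k hki]; rfl) (by simp)

end Vale.Agent.P167.QX
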