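import Vale.Agent.P167.QX.L1C

/-!
# P167, general `q`: exits of a row, the majorant of the loops which meet the rows
-/

namespace Vale.Agent.P167.QX

open Finset
open Vale.Agent.P167.A (plane plane_nx plane_sg)
open Vale.Agent.P167.BR hiding dv
open Vale.Agent.P167.XDL (bS mem_bS lp_disj)
open Vale.Agent.P167.FK
open Vale.Agent.P167.H199 (strand ret mem_strand Returns ret_le ret_min strand_unique loop_iter
  loop_nx)
open Vale.Agent.P167.H685 (LE mem_LE)
open Vale.Agent.P167.H825.Q (Row)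
open Vale.Agent.P167.H825 (epos)
open Vale.Agent.P167.H680.T (sq_mem sq_inj mem_I rowC uI mem_uI et et_pos et_mem adm_sepd ax nm_ht
  nm_sq sq_hb ax_nx trans_mem' eds_ax axk axk_inj)
open Vale.Agent.P167.H945.Q (sep_sq exists_sq adm_sep adm_box nm_sub_le nm_comm)

variable {ι : Type} {ω : Cfg} {θ κ R B : ℝ} {n : ℕ} {r : ι → Row} {c : Ed → ℝ}
  {p q : ℤ × ℤ} {w : ℤ} {i : ι}

/-- **A row of `L` squares has `L + 1` exits.** -/
theorem card_exits {r : Row} (hL : 1 ≤ r.L) :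
    ((bS r.I).filter fun e => hdv e ∉ r.I).card = r.L + 1 := by
  classical
  set ω0 : Cfg := fun _ => true with hω0
  set f : Ed → Ed := fun h => if hdv h ∈ r.I then nx ω0 h else h with hf
  have h1 : (bS r.I).filter (fun e => hdv e ∉ r.I) =
      ((eds r.I).filter (fun h => ax r.o h = true)).image f := by
    ext e
    rw [mem_filter, mem_image]
    constructor
    · rintro ⟨g1, g2⟩
      have g3 : tlv e ∈ r.I := by
        rw [mem_bS] at g1
        rcases g1 with ⟨g1, -⟩ | ⟨-, g1⟩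
        · exact absurd g1 g2
        · exact g1
      cases ha : ax r.o e
      · obtain ⟨h, rfl⟩ := (s_nx ω0).2 e
        rw [tlv_nx] at g3
        refine ⟨h, mem_filter.2 ⟨mem_eds.2 (Or.inl g3), ?_⟩, ?_⟩
        · rw [ax_nx] at ha
          simpa using ha
        · rw [hf]
          simp only
          rw [if_pos g3]
      · refine ⟨e, mem_filter.2 ⟨mem_eds.2 (Or.inr g3), ha⟩, ?_⟩
        rw [hf]
        simp only
        rw [if_neg g2]
    · rintro ⟨h, hh, rfl⟩
      obtain ⟨g1, g2⟩ := mem_filter.1 hh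
      rw [hf]
      simp only
      by_cases g3 : hdv h ∈ r.I
      · rw [if_pos g3]
        have g4 : hdv (nx ω0 h) ∉ r.I := fun g => trans_mem' (by rw [ax_nx, g2]; rfl) g
          (by rw [tlv_nx]; exact g3)
        exact ⟨mem_bS.2 (Or.inr ⟨g4, by rw [tlv_nx]; exact g3⟩), g4⟩
      · rw [if_neg g3]
        rcases mem_eds.1 g1 with g | g
        · exact absurd g g3
        · exact ⟨mem_bS.2 (Or.inr ⟨g3, g⟩), g3⟩
  rw [h1, card_image_of_injOn, eds_ax hL, card_image_of_injective _ (axk_inj r), card_range]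
  intro h hh h' hh' he
  have g2 := (mem_filter.1 hh).2
  have g2' := (mem_filter.1 hh').2
  rw [hf] at he
  simp only at he
  split_ifs at he
  · exact (s_nx ω0).1 he
  · rw [← he, ax_nx, g2] at g2'
    simp at g2'
  · rw [he, ax_nx, g2'] at g2
    simp at g2
  · exact he

open Classical in
/-- **The majorant of the loops which meet the rows.** -/
theorem RowFam.maj0 {K : Finset (ℤ × ℤ)} {J : ι → Finset (ℤ × ℤ)} {Ab : ι → ℤ × ℤ → ℤ × ℤ → Prop}
    {a : Ed → Bool → ℝ} [Fintype ι] (F : RowFam K J Ab ω) (hs : 0 < Real.sin θ)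
    (hc : 1 ≤ 2 * Real.cos θ) {sm : Ed → Prop} (hsm : ∀ e, sm e → Sml J Ab ω e) :
    |∏ ℓ ∈ LE ω (bS K), fLp θ K a ω ℓ| ≤
      (∏ e ∈ (bS K).filter (fun e => hdv e ∉ K ∧ sm e), rK θ J a ω e) *
        ((Real.sin θ)⁻¹) ^ ((bS K).filter fun e => hdv e ∉ K ∧ ¬ sm e).card := by
  have hc0 : 0 < Real.cos θ := by linarith
  have hexit : ∀ e ∈ bS K, hdv e ∉ K → tlv e ∈ K := by
    intro e he h
    rw [mem_bS] at he
    rcases he with ⟨h1, -⟩ | ⟨-, h1⟩
    · exact absurd h1 h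
    · exact h1
  have h := prod_fLp_le (K := K) (a := a) (sm := sm)
    (cl := ClK J ω) (r := rK θ J a ω) (b := fun _ => 0)
    F.good hs hc ?_ ?_ ?_
  · rwa [sum_const_zero, pow_zero, mul_one] at h
  · intro e he h1 he'
    obtain ⟨i, p, q, hab, h2, hB⟩ := hsm e he'
    have h3 : hdv e ∉ J i := fun h => h1 ((F.mem _).2 ⟨i, h⟩)
    have hn := natS_pos hc0 (J i) ω e
    rw [rK_eq F h2, F.wS_K hab hB h3]
    have hcl : ClK J ω e ↔ ClT (J i) ω e :=
      ⟨fun ⟨k, hk, h⟩ => by rwa [F.disj k i _ hk h2] at h, fun h => ⟨i, h2, h⟩⟩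
    have hnat : (if ClK J ω e then 2 * Real.cos θ else 1) = natS θ (J i) ω e := by
      unfold natS
      exact if_congr hcl rfl rfl
    rw [hnat]
    unfold rS
    field_simp
  · intro e he h1 he'
    obtain ⟨i, p, q, hab, h2, hB⟩ := hsm e he'
    rw [rK_eq F h2]
    exact rS_nonneg hc0 _ _ _ _
  · intro ℓ hℓ
    rw [add_zero, card_le_one]
    intro e he e' he'
    obtain ⟨g1, ⟨g2, g3⟩, g4', k, hk, hcl⟩ := mem_filter.1 he
    obtain ⟨g1', ⟨g2', g3'⟩, -, k', hk', hcl'⟩ := mem_filter.1 he'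
    obtain ⟨i, p, q, hab, g4, hB⟩ := hsm e g4'
    have hik := F.disj k i _ hk g4
    subst hik
    obtain ⟨-, h⟩ := F.trapK (mem_LE.1 hℓ).1 hab hB g3 (fun h => g2 ((F.mem _).2 ⟨k, h⟩)) g4 hcl
    obtain ⟨⟨h1, -⟩, -, h2⟩ := h e' g3' g2' (hexit e' g1' g2')
    have hk2 := F.disj k' k _ hk' h1
    subst hk2
    exact (h2 hcl').symm

/-- The exits of the rows. -/
theorem exits_uI [Fintype ι] [DecidableEq Ed] (hA : (rowC θ r c).Adm κ R B n) (hn : 1 < κ * n) :
    (bS (uI r)).filter (fun e => hdv e ∉ uI r) =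
      univ.biUnion fun i => (bS (r i).I).filter fun e => hdv e ∉ (r i).I := by
  ext e
  simp only [mem_filter, mem_biUnion, mem_univ, true_and]
  constructor
  · rintro ⟨h1, h2⟩
    rw [mem_bS] at h1
    rcases h1 with ⟨h1, -⟩ | ⟨-, h1⟩
    · exact absurd h1 h2
    · obtain ⟨i, hi⟩ := mem_uI.1 h1
      have h3 : hdv e ∉ (r i).I := fun h => h2 (mem_uI.2 ⟨i, h⟩)
      exact ⟨i, mem_bS.2 (Or.inr ⟨h3, hi⟩), h3⟩
  · rintro ⟨i, h1, h2⟩
    have h3 : tlv e ∈ (r i).I := by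
      rw [mem_bS] at h1
      rcases h1 with ⟨h1, -⟩ | ⟨-, h1⟩
      · exact absurd h1 h2
      · exact h1
    have h4 : hdv e ∉ uI r := by
      intro h
      obtain ⟨j, hj⟩ := mem_uI.1 h
      by_cases hij : j = i
      · subst hij
        exact h2 hj
      · have h5 := adm_sep hA hij hj h3
        have h6 : (nm (hdv e - tlv e) : ℝ) ≤ 1 := by exact_mod_cast nm_ht e
        linarith
    exact ⟨mem_bS.2 (Or.inr ⟨h4, mem_uI.2 ⟨i, h3⟩⟩), h4⟩

end Vale.Agent.P167.QX
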