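import Vale.Agent.P167.QX.Trap

/-!
# P167, general `q`: the outer functional as a product, and its majorant in terms of small strands
-/

namespace Vale.Agent.P167.QX

open Finset
open Vale.Agent.P167.A (plane plane_nx plane_sg)
open Vale.Agent.P167.BR
open Vale.Agent.P167.XDL (bS mem_bS)
open Vale.Agent.P167.FK
open Vale.Agent.P167.H199 (cang strand ret mem_strand loop_nx loop_iter ret_min ret_le Returns
  strand_sub)
open Vale.Agent.P167.H685 (LE mem_LE)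

variable {K : Finset (ℤ × ℤ)} {ω : Cfg} {θ : ℝ} {a : Ed → Bool → ℝ} {ℓ : Finset Ed}
  {sm cl : Ed → Prop} {r : Ed → ℝ} {b : Finset Ed → ℕ}

/-- The product over the loops off `K`. -/
noncomputable def LpO (θ : ℝ) (K : Finset (ℤ × ℤ)) (a : Ed → Bool → ℝ) (ω : Cfg) : ℝ :=
  ∏ᶠ ℓ ∈ {ℓ : Finset Ed | IsLoop ω ℓ ∧ ∀ e ∈ ℓ, e ∉ eds K},
    (2 * Real.cos (cang plane θ a ω ℓ)) / (2 * Real.cos θ)

open Classical in
/-- **The functional as a product, with flow.** -/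
theorem RT_prod (hg : Good ω) (hs : Real.sin θ ≠ 0) (hc : Real.cos θ ≠ 0) :
    RT θ K a ω = (2 * Real.sin θ) ^ ((bS K).filter fun e => hdv e ∉ K).card *
      ((2 * Real.cos θ) ^ ((pcs ω K).filter (IsLp K)).card)⁻¹ * LpO θ K a ω *
      ∏ ℓ ∈ LE ω (bS K), fLp θ K a ω ℓ := by
  have h1 : XoutQ θ K a ω = (2 * Real.sin θ) ^ ((bS K).filter fun e => hdv e ∉ K).card *
      ∏ e ∈ (bS K).filter (fun e => hdv e ∉ K), wS θ K a ω e := by
    unfold XoutQ wS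
    rw [← prod_const, ← prod_mul_distrib]
    refine prod_congr rfl fun e _ => ?_
    field_simp
  unfold RT XoT LpO
  rw [h1, prod_by_loops hg, LD_eq, nS_eq, pow_add]
  unfold fLp
  rw [prod_div_distrib, prod_const]
  have h3 : (2 * Real.cos θ) ≠ 0 := mul_ne_zero two_ne_zero hc
  field_simp

theorem abs_wS_le (hs : 0 < Real.sin θ) (e : Ed) : |wS θ K a ω e| ≤ (Real.sin θ)⁻¹ := by
  unfold wS
  rw [abs_div, abs_of_pos hs, div_eq_mul_inv]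
  exact mul_le_of_le_one_left (by positivity) (Real.abs_cos_le_one _)

theorem one_le_inv_sin (hs : 0 < Real.sin θ) : 1 ≤ (Real.sin θ)⁻¹ :=
  (one_le_inv₀ hs).2 (Real.sin_le_one _)

open Classical in
/-- **The majorant of the product over the loops which meet `K`.** `sm` are the small strands, `cl`
those of closed type; a loop has at most `1 + b ℓ` small strands of closed type. -/
theorem prod_fLp_le (hg : Good ω) (hs : 0 < Real.sin θ) (hc : 1 ≤ 2 * Real.cos θ)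
    (h1 : ∀ e ∈ bS K, hdv e ∉ K → sm e →
      |wS θ K a ω e| = (if cl e then 2 * Real.cos θ else 1) * r e)
    (h0 : ∀ e ∈ bS K, hdv e ∉ K → sm e → 0 ≤ r e)
    (h3 : ∀ ℓ ∈ LE ω (bS K),
      ((bS K).filter fun e => (hdv e ∉ K ∧ e ∈ ℓ) ∧ sm e ∧ cl e).card ≤ 1 + b ℓ) :
    |∏ ℓ ∈ LE ω (bS K), fLp θ K a ω ℓ| ≤
      (∏ e ∈ (bS K).filter (fun e => hdv e ∉ K ∧ sm e), r e) *
        ((Real.sin θ)⁻¹) ^ ((bS K).filter fun e => hdv e ∉ K ∧ ¬ sm e).card *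
        (2 * Real.cos θ) ^ (∑ ℓ ∈ LE ω (bS K), b ℓ) := by
  have hc0 : (0 : ℝ) < 2 * Real.cos θ := by linarith
  have hloop : ∀ ℓ ∈ LE ω (bS K), |fLp θ K a ω ℓ| ≤
      (∏ e ∈ (bS K).filter (fun e => (hdv e ∉ K ∧ sm e) ∧ e ∈ ℓ), r e) *
        (∏ _e ∈ (bS K).filter (fun e => (hdv e ∉ K ∧ ¬ sm e) ∧ e ∈ ℓ), (Real.sin θ)⁻¹) *
        (2 * Real.cos θ) ^ b ℓ := by
    intro ℓ hℓ
    unfold fLp
    rw [abs_div, abs_of_pos hc0, abs_prod, div_le_iff₀ hc0,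
      ← prod_filter_mul_prod_filter_not ((bS K).filter fun e => hdv e ∉ K ∧ e ∈ ℓ) sm,
      filter_filter, filter_filter]
    have e1 : (bS K).filter (fun e => (hdv e ∉ K ∧ e ∈ ℓ) ∧ sm e) =
        (bS K).filter (fun e => (hdv e ∉ K ∧ sm e) ∧ e ∈ ℓ) :=
      filter_congr fun x _ => by tauto
    have e2 : (bS K).filter (fun e => (hdv e ∉ K ∧ e ∈ ℓ) ∧ ¬ sm e) =
        (bS K).filter (fun e => (hdv e ∉ K ∧ ¬ sm e) ∧ e ∈ ℓ) :=
      filter_congr fun x _ => by tauto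
    rw [e1, e2]
    have k1 : ∏ e ∈ (bS K).filter (fun e => (hdv e ∉ K ∧ sm e) ∧ e ∈ ℓ), |wS θ K a ω e| =
        (2 * Real.cos θ) ^ ((bS K).filter fun e => (hdv e ∉ K ∧ e ∈ ℓ) ∧ sm e ∧ cl e).card *
          ∏ e ∈ (bS K).filter (fun e => (hdv e ∉ K ∧ sm e) ∧ e ∈ ℓ), r e := by
      rw [prod_congr rfl fun e he => h1 e (mem_filter.1 he).1 (mem_filter.1 he).2.1.1
        (mem_filter.1 he).2.1.2, prod_mul_distrib, prod_ite, prod_const, prod_const_one, mul_one,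
        filter_filter]
      congr 3
      exact filter_congr fun x _ => by tauto
    have k2 : ∏ e ∈ (bS K).filter (fun e => (hdv e ∉ K ∧ ¬ sm e) ∧ e ∈ ℓ), |wS θ K a ω e| ≤
        ∏ _e ∈ (bS K).filter (fun e => (hdv e ∉ K ∧ ¬ sm e) ∧ e ∈ ℓ), (Real.sin θ)⁻¹ :=
      prod_le_prod (fun _ _ => abs_nonneg _) fun e _ => abs_wS_le hs e
    have hr : 0 ≤ ∏ e ∈ (bS K).filter (fun e => (hdv e ∉ K ∧ sm e) ∧ e ∈ ℓ), r e :=
      prod_nonneg fun e he => h0 e (mem_filter.1 he).1 (mem_filter.1 he).2.1.1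
        (mem_filter.1 he).2.1.2
    have k3 : (2 * Real.cos θ) ^ ((bS K).filter fun e => (hdv e ∉ K ∧ e ∈ ℓ) ∧ sm e ∧ cl e).card ≤
        (2 * Real.cos θ) ^ (1 + b ℓ) := pow_le_pow_right₀ hc (h3 ℓ hℓ)
    rw [k1]
    calc (2 * Real.cos θ) ^ ((bS K).filter fun e => (hdv e ∉ K ∧ e ∈ ℓ) ∧ sm e ∧ cl e).card *
          (∏ e ∈ (bS K).filter (fun e => (hdv e ∉ K ∧ sm e) ∧ e ∈ ℓ), r e) *
          ∏ e ∈ (bS K).filter (fun e => (hdv e ∉ K ∧ ¬ sm e) ∧ e ∈ ℓ), |wS θ K a ω e|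
        ≤ (2 * Real.cos θ) ^ (1 + b ℓ) *
          (∏ e ∈ (bS K).filter (fun e => (hdv e ∉ K ∧ sm e) ∧ e ∈ ℓ), r e) *
          ∏ _e ∈ (bS K).filter (fun e => (hdv e ∉ K ∧ ¬ sm e) ∧ e ∈ ℓ), (Real.sin θ)⁻¹ := by
          gcongr
      _ = _ := by rw [pow_add, pow_one]; ring
  have hR : ∏ e ∈ (bS K).filter (fun e => hdv e ∉ K ∧ sm e), r e =
      ∏ ℓ ∈ LE ω (bS K), ∏ e ∈ (bS K).filter (fun e => (hdv e ∉ K ∧ sm e) ∧ e ∈ ℓ), r e :=
    prod_by_loops hg (bS K) (fun e => hdv e ∉ K ∧ sm e) r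
  have hS : ((Real.sin θ)⁻¹) ^ ((bS K).filter fun e => hdv e ∉ K ∧ ¬ sm e).card =
      ∏ ℓ ∈ LE ω (bS K), ∏ _e ∈ (bS K).filter (fun e => (hdv e ∉ K ∧ ¬ sm e) ∧ e ∈ ℓ),
        (Real.sin θ)⁻¹ := by
    rw [← prod_const]
    exact prod_by_loops hg (bS K) (fun e => hdv e ∉ K ∧ ¬ sm e) fun _ => (Real.sin θ)⁻¹
  rw [abs_prod, hR, hS, ← prod_pow_eq_pow_sum, ← prod_mul_distrib, ← prod_mul_distrib]
  exact prod_le_prod (fun _ _ => abs_nonneg _) hloop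

end Vale.Agent.P167.QX
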