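import Vale.Agent.P167.QX.Maj

/-!
# P167, general `q`: families of rows, small strands, and the majorant for rows far apart
-/

namespace Vale.Agent.P167.QX

open Finset
open Vale.Agent.P167.A (plane plane_nx plane_sg)
open Vale.Agent.P167.BR
open Vale.Agent.P167.XDL (bS mem_bS)
open Vale.Agent.P167.FK
open Vale.Agent.P167.H199 (cang strand ret mem_strand loop_nx loop_iter ret_min ret_le Returns
  strand_sub cang_congr)
open Vale.Agent.P167.H685 (LE mem_LE)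

variable {ι : Type*} {K : Finset (ℤ × ℤ)} {J : ι → Finset (ℤ × ℤ)} {Ab : ι → ℤ × ℤ → ℤ × ℤ → Prop}
  {ω : Cfg} {θ : ℝ} {a a' : Ed → Bool → ℝ} {ℓ : Finset Ed} {e e' : Ed} {i j : ι} {p q : ℤ × ℤ}
  {I B : Finset (ℤ × ℤ)}

/-- A family of rows `J i` with union `K`; `Ab i p q`: the box with corners `p`, `q` is an allowed
box for the row `i` (it meets no other row, and does not contain all squares of one colour). -/
structure RowFam (K : Finset (ℤ × ℤ)) (J : ι → Finset (ℤ × ℤ)) (Ab : ι → ℤ × ℤ → ℤ × ℤ → Prop)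
    (ω : Cfg) : Prop where
  good : Good ω
  mem : ∀ v, v ∈ K ↔ ∃ i, v ∈ J i
  disj : ∀ i j v, v ∈ J i → v ∈ J j → i = j
  adj : ∀ i j y, hdv y ∈ J i → tlv y ∈ J j → i = j
  thin : ∀ i, Thin (J i)
  conn : ∀ i, ExtConn (J i)
  sep : ∀ i p q, Ab i p q → ∀ v ∈ Bx p q, v ∈ K → v ∈ J i
  esc : ∀ i p q, Ab i p q → ∀ b, Esc (J i) ω b p q

/-- The phases matter only near the strand. -/
theorem wS_ph (hB : InB B I ω e) (h : ∀ y, hdv y ∈ B → tlv y ∈ B → a y = a' y) :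
    wS θ I a ω e = wS θ I a' ω e := by
  unfold wS
  rw [cang_ph]
  intro y hy
  obtain ⟨k, hk, rfl⟩ := mem_strand.1 hy
  have h1 : ∀ k ≤ ret (nx ω) (bS I) e, a ((nx ω)^[k] e) = a' ((nx ω)^[k] e) := fun k hk => by
    obtain ⟨g1, g2⟩ := exc_box hB _ (mem_exc.2 ⟨k, hk, rfl⟩)
    exact h _ g1 g2
  refine ⟨h1 k hk.le, ?_⟩
  rw [← Function.iterate_succ_apply' (nx ω)]
  exact h1 (k + 1) (by omega)

theorem TS_ph (h : ∀ y, hdv y ∈ B → tlv y ∈ B → a y = a' y) :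
    TS θ I a B ω = TS θ I a' B ω := by
  classical
  unfold TS
  refine prod_congr rfl fun e he => ?_
  unfold rS
  rw [wS_ph (mem_filter.1 he).2.2 h]

namespace RowFam

variable (F : RowFam K J Ab ω)

include F

theorem out_of (hab : Ab i p q) {v : ℤ × ℤ} (hv : v ∈ Bx p q) (h : v ∉ J i) : v ∉ K := fun h' =>
  h (F.sep i p q hab v hv h')

/-- An edge which leaves `J i` in an allowed box leaves `K`. -/
theorem exit_K (hab : Ab i p q) (hB : InB (Bx p q) (J i) ω e) (h1 : hdv e ∉ J i) (h2 : tlv e ∈ J i) :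
    hdv e ∉ K ∧ e ∈ bS K := by
  have h3 := F.out_of hab (hB.2.2 0 (Nat.zero_le _)) h1
  exact ⟨h3, mem_bS.2 (Or.inr ⟨h3, (F.mem _).2 ⟨i, h2⟩⟩)⟩

/-- The strand of `K` is the strand of the row. -/
theorem ret_K (hab : Ab i p q) (hB : InB (Bx p q) (J i) ω e) (h1 : hdv e ∉ J i) :
    ret (nx ω) (bS K) e = ret (nx ω) (bS (J i)) e := by
  obtain ⟨h3, h4⟩ := hB.1.spec
  set m := ret (nx ω) (bS (J i)) e with hm
  have hout : ∀ k < m, hdv ((nx ω)^[k] e) ∉ K := fun k hk =>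
    F.out_of hab (hB.2.2 k hk.le) (out_stays h1 hk)
  have hin := exc_last h1 hB.1
  rw [← hm] at hin
  have htl : tlv ((nx ω)^[m] e) ∉ K := by
    obtain ⟨j, hj⟩ : ∃ j, m = j + 1 := ⟨m - 1, by omega⟩
    rw [hj, Function.iterate_succ_apply', tlv_nx]
    exact hout j (by omega)
  have hmem : (nx ω)^[m] e ∈ bS K := mem_bS.2 (Or.inl ⟨(F.mem _).2 ⟨i, hin.1⟩, htl⟩)
  refine le_antisymm (ret_le h3 hmem) ?_
  by_contra hlt
  push Not at hlt
  have hR : Returns (nx ω) (bS K) e := ⟨m, h3, hmem⟩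
  obtain ⟨g1, g2⟩ := hR.spec
  rw [mem_bS] at g2
  rcases g2 with ⟨g2, -⟩ | ⟨-, g2⟩
  · exact hout _ hlt g2
  · obtain ⟨j, hj⟩ : ∃ j, ret (nx ω) (bS K) e = j + 1 := ⟨ret (nx ω) (bS K) e - 1, by omega⟩
    rw [hj, Function.iterate_succ_apply', tlv_nx] at g2
    exact hout j (by omega) g2

theorem strand_K (hab : Ab i p q) (hB : InB (Bx p q) (J i) ω e) (h1 : hdv e ∉ J i) :
    strand (nx ω) (bS K) e = strand (nx ω) (bS (J i)) e := by
  unfold strand
  rw [F.ret_K hab hB h1]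

theorem wS_K (hab : Ab i p q) (hB : InB (Bx p q) (J i) ω e) (h1 : hdv e ∉ J i) :
    wS θ K a ω e = wS θ (J i) a ω e := by
  unfold wS
  rw [F.strand_K hab hB h1]

/-- The loop is trapped at the row. -/
theorem trapK (hl : IsLoop ω ℓ) (hab : Ab i p q) (hB : InB (Bx p q) (J i) ω e) (heℓ : e ∈ ℓ)
    (h1 : hdv e ∉ J i) (h2 : tlv e ∈ J i) (hcl : ClT (J i) ω e) :
    (∀ y ∈ ℓ, hdv y ∈ Bx p q ∧ tlv y ∈ Bx p q) ∧
      ∀ e' ∈ ℓ, hdv e' ∉ K → tlv e' ∈ K →
        (tlv e' ∈ J i ∧ hdv e' ∉ J i) ∧ InB (Bx p q) (J i) ω e' ∧ (ClT (J i) ω e' → e' = e) := by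
  obtain ⟨g1, g2⟩ := trap (F.thin i) (F.conn i) hl heℓ h1 h2 hB hcl (F.esc i p q hab)
  refine ⟨g1, fun e' he' k1 k2 => ?_⟩
  have k3 := F.sep i p q hab _ (g1 e' he').2 k2
  have k4 : hdv e' ∉ J i := fun h => k1 ((F.mem _).2 ⟨i, h⟩)
  exact ⟨⟨k3, k4⟩, g2 e' he' k4 k3⟩

end RowFam

/-! ### rows far apart -/

/-- The edge `e` starts a small strand: it stays in an allowed box of its row. -/
def Sml (J : ι → Finset (ℤ × ℤ)) (Ab : ι → ℤ × ℤ → ℤ × ℤ → Prop) (ω : Cfg) (e : Ed) : Prop :=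
  ∃ i p q, Ab i p q ∧ tlv e ∈ J i ∧ InB (Bx p q) (J i) ω e

/-- The strand is of closed type, for the row of `e`. -/
def ClK (J : ι → Finset (ℤ × ℤ)) (ω : Cfg) (e : Ed) : Prop := ∃ i, tlv e ∈ J i ∧ ClT (J i) ω e

open Classical in
/-- The quotient of the weights, for the row of `e`. -/
noncomputable def rK [Fintype ι] (θ : ℝ) (J : ι → Finset (ℤ × ℤ)) (a : Ed → Bool → ℝ) (ω : Cfg)
    (e : Ed) : ℝ :=
  ∏ i ∈ univ.filter (fun i => tlv e ∈ J i), rS θ (J i) a ω e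

theorem rK_eq [Fintype ι] (F : RowFam K J Ab ω) (h : tlv e ∈ J i) :
    rK θ J a ω e = rS θ (J i) a ω e := by
  classical
  unfold rK
  rw [show univ.filter (fun i => tlv e ∈ J i) = {i} by
    ext k
    simp only [mem_filter, mem_univ, true_and, mem_singleton]
    exact ⟨fun hk => F.disj k i _ hk h, fun hk => hk ▸ h⟩, prod_singleton]

open Classical in
/-- **Majorant for rows far apart**: the small strands are in the boxes of the special points `S i`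
(with radii) or have `rS = 1`. -/
theorem RowFam.maj [Fintype ι] (F : RowFam K J Ab ω) (hs : 0 < Real.sin θ) (hc : 1 ≤ 2 * Real.cos θ)
    (S : ι → Finset ((ℤ × ℤ) × (ℤ × ℤ))) (hS : ∀ i, ∀ s ∈ S i, Ab i s.1 s.2)
    (hdis : ∀ i, ∀ s ∈ S i, ∀ s' ∈ S i, s ≠ s' → ∀ e, tlv e ∈ J i →
      InB (Bx s.1 s.2) (J i) ω e → ¬ InB (Bx s'.1 s'.2) (J i) ω e)
    (hplain : ∀ i e, tlv e ∈ J i → hdv e ∉ J i → (∃ p q, Ab i p q ∧ InB (Bx p q) (J i) ω e) →
      (∀ s ∈ S i, ¬ InB (Bx s.1 s.2) (J i) ω e) → rS θ (J i) a ω e = 1) :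
    |∏ ℓ ∈ LE ω (bS K), fLp θ K a ω ℓ| ≤
      (∏ i, ∏ s ∈ S i, TS θ (J i) a (Bx s.1 s.2) ω) *
        ((Real.sin θ)⁻¹) ^ ((bS K).filter fun e => hdv e ∉ K ∧ ¬ Sml J Ab ω e).card := by
  have hc0 : 0 < Real.cos θ := by linarith
  have hexit : ∀ e ∈ bS K, hdv e ∉ K → tlv e ∈ K := by
    intro e he h
    rw [mem_bS] at he
    rcases he with ⟨h1, -⟩ | ⟨-, h1⟩
    · exact absurd h1 h
    · exact h1
  have h := prod_fLp_le (K := K) (a := a) (sm := Sml J Ab ω)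
    (cl := ClK J ω) (r := rK θ J a ω) (b := fun _ => 0)
    F.good hs hc ?_ ?_ ?_
  · rw [sum_const_zero, pow_zero, mul_one] at h
    refine h.trans (le_of_eq ?_)
    congr 1
    -- the product over the small strands
    have hsub : ((bS K).filter fun e => (hdv e ∉ K ∧ Sml J Ab ω e) ∧
        ∃ i, tlv e ∈ J i ∧ ∃ s ∈ S i, InB (Bx s.1 s.2) (J i) ω e) =
        (univ : Finset ι).biUnion fun i => (S i).biUnion fun s =>
          (bS (J i)).filter fun e => hdv e ∉ J i ∧ InB (Bx s.1 s.2) (J i) ω e := by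
      ext e
      simp only [mem_filter, mem_biUnion, mem_univ, true_and]
      constructor
      · rintro ⟨-, ⟨h1, -⟩, i, hi, s, hs, hB⟩
        have h2 : hdv e ∉ J i := fun h => h1 ((F.mem _).2 ⟨i, h⟩)
        exact ⟨i, s, hs, mem_bS.2 (Or.inr ⟨h2, hi⟩), h2, hB⟩
      · rintro ⟨i, s, hs, h1, h2, hB⟩
        have h3 : tlv e ∈ J i := by
          rw [mem_bS] at h1
          rcases h1 with ⟨h1, -⟩ | ⟨-, h1⟩
          · exact absurd h1 h2
          · exact h1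
        obtain ⟨h4, h5⟩ := F.exit_K (hS i s hs) hB h2 h3
        exact ⟨h5, ⟨h4, i, s.1, s.2, hS i s hs, h3, hB⟩, i, h3, s, hs, hB⟩
    rw [← prod_filter_mul_prod_filter_not ((bS K).filter fun e => hdv e ∉ K ∧ Sml J Ab ω e)
      (fun e => ∃ i, tlv e ∈ J i ∧ ∃ s ∈ S i, InB (Bx s.1 s.2) (J i) ω e), filter_filter, filter_filter,
      hsub]
    have h2 : ∏ e ∈ (bS K).filter (fun e => (hdv e ∉ K ∧ Sml J Ab ω e) ∧
        ¬ ∃ i, tlv e ∈ J i ∧ ∃ s ∈ S i, InB (Bx s.1 s.2) (J i) ω e), rK θ J a ω e = 1 := by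
      refine prod_eq_one fun e he => ?_
      obtain ⟨-, ⟨g1, i, p, q, hab, g2, hB⟩, g3⟩ := mem_filter.1 he
      rw [rK_eq F g2]
      refine hplain i e g2 (fun h => g1 ((F.mem _).2 ⟨i, h⟩)) ⟨p, q, hab, hB⟩ fun s hs hB' => ?_
      exact g3 ⟨i, g2, s, hs, hB'⟩
    rw [h2, mul_one]
    rw [prod_biUnion, prod_congr rfl fun i _ => ?_]
    · rw [prod_biUnion]
      · refine prod_congr rfl fun s hs => ?_
        unfold TS
        refine prod_congr rfl fun e he => ?_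
        obtain ⟨g1, g2, g3⟩ := mem_filter.1 he
        have g4 : tlv e ∈ J i := by
          rw [mem_bS] at g1
          rcases g1 with ⟨g1, -⟩ | ⟨-, g1⟩
          · exact absurd g1 g2
          · exact g1
        exact rK_eq F g4
      · intro s hs s' hs' hne
        rw [Function.onFun, Finset.disjoint_left]
        intro e he he'
        obtain ⟨g1, g2, g3⟩ := mem_filter.1 he
        obtain ⟨-, -, g3'⟩ := mem_filter.1 he'
        have g4 : tlv e ∈ J i := by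
          rw [mem_bS] at g1
          rcases g1 with ⟨g1, -⟩ | ⟨-, g1⟩
          · exact absurd g1 g2
          · exact g1
        exact hdis i s hs s' hs' hne e g4 g3 g3'
    · intro i _ i' _ hne
      rw [Function.onFun, Finset.disjoint_left]
      intro e he he'
      rw [mem_biUnion] at he he'
      obtain ⟨s, -, he⟩ := he
      obtain ⟨s', -, he'⟩ := he'
      have g : ∀ i, ∀ s : (ℤ × ℤ) × (ℤ × ℤ), e ∈ (bS (J i)).filter
          (fun e => hdv e ∉ J i ∧ InB (Bx s.1 s.2) (J i) ω e) → tlv e ∈ J i := by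
        intro i s he
        obtain ⟨g1, g2, g3⟩ := mem_filter.1 he
        rw [mem_bS] at g1
        rcases g1 with ⟨g1, -⟩ | ⟨-, g1⟩
        · exact absurd g1 g2
        · exact g1
      exact hne (F.disj i i' _ (g i s he) (g i' s' he'))
  · rintro e he h1 ⟨i, p, q, hab, h2, hB⟩
    have h3 : hdv e ∉ J i := fun h => h1 ((F.mem _).2 ⟨i, h⟩)
    have hn := natS_pos hc0 (J i) ω e
    rw [rK_eq F h2, F.wS_K hab hB h3]
    have hcl : ClK J ω e ↔ ClT (J i) ω e :=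
      ⟨fun ⟨k, hk, h⟩ => by rwa [F.disj k i _ hk h2] at h, fun h => ⟨i, h2, h⟩⟩
    have hnat : (if ClK J ω e then 2 * Real.cos θ else 1) = natS θ (J i) ω e := by
      unfold natS
      exact if_congr hcl rfl rfl
    rw [hnat]
    unfold rS
    field_simp
  · rintro e he h1 ⟨i, p, q, hab, h2, hB⟩
    rw [rK_eq F h2]
    exact rS_nonneg hc0 _ _ _ _
  · intro ℓ hℓ
    rw [add_zero, card_le_one]
    intro e he e' he'
    obtain ⟨g1, ⟨g2, g3⟩, ⟨i, p, q, hab, g4, hB⟩, k, hk, hcl⟩ := mem_filter.1 he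
    obtain ⟨g1', ⟨g2', g3'⟩, -, k', hk', hcl'⟩ := mem_filter.1 he'
    have hik := F.disj k i _ hk g4
    subst hik
    obtain ⟨-, h⟩ := F.trapK (mem_LE.1 hℓ).1 hab hB g3 (fun h => g2 ((F.mem _).2 ⟨k, h⟩)) g4 hcl
    obtain ⟨⟨h1, -⟩, -, h2⟩ := h e' g3' g2' (hexit e' g1' g2')
    have hk2 := F.disj k' k _ hk' h1
    subst hk2
    exact (h2 hcl').symm

end Vale.Agent.P167.QX
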