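import Vale.Agent.P167.QX.ExtPot

/-!
# P167, general `q`: two strands of closed type are separated (abstract form)

`Reg` is a region of squares (a domain, or the complement of a finite set), `A = orbs ω e m` a strand
of the region, with a potential for the edges with a square in the region. If a path of the loop goes
from the strand `A` to the strand `B` through the region and through closed squares, then not both have
their left banks off the base point.
-/

namespace Vale.Agent.P167.QX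

open Finset
open Vale.Agent.P167.BR
open Vale.Agent.P167.FK

variable {Reg : ℤ × ℤ → Prop} {ω : Cfg} {e e' y : Ed} {m m' k : ℕ} {φ φ' : ℤ × ℤ → ℤ} {A : Finset Ed}

/-- The edges `e, nx e, .., nx^m e`. -/
def orbs (ω : Cfg) (e : Ed) (m : ℕ) : Finset Ed := (range (m + 1)).image fun k => (nx ω)^[k] e

theorem mem_orbs : y ∈ orbs ω e m ↔ ∃ k ≤ m, (nx ω)^[k] e = y := by
  unfold orbs
  rw [mem_image]
  simp only [mem_range, Nat.lt_succ_iff]

/-- A strand of the region. -/
structure RStr (Reg : ℤ × ℤ → Prop) (ω : Cfg) (e : Ed) (m : ℕ) : Prop where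
  pos : 1 ≤ m
  tl : ¬ Reg (tlv e)
  inn : ∀ k < m, Reg (hdv ((nx ω)^[k] e))
  out : ¬ Reg (hdv ((nx ω)^[m] e))

/-- Potential of `A`. -/
def RPot (Reg : ℤ × ℤ → Prop) (A : Finset Ed) (φ : ℤ × ℤ → ℤ) : Prop :=
  ∀ x, Reg (hdv x) ∨ Reg (tlv x) → φ (ls x) = φ (rs x) + if x ∈ A then 1 else 0

/-- The sites at the edges of the region are connected. -/
def RConn (Reg : ℤ × ℤ → Prop) : Prop :=
  ∀ g : ℤ × ℤ → ℤ, (∀ x, Reg (hdv x) ∨ Reg (tlv x) → g (ls x) = g (rs x)) →
    ∃ c, ∀ x, Reg (hdv x) ∨ Reg (tlv x) → g (ls x) = c ∧ g (rs x) = c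

theorem RStr.edge (h : RStr Reg ω e m) {x : Ed} (hx : x ∈ orbs ω e m) :
    Reg (hdv x) ∨ Reg (tlv x) := by
  obtain ⟨k, hk, rfl⟩ := mem_orbs.1 hx
  rcases Nat.lt_or_ge k m with h1 | h1
  · exact Or.inl (h.inn k h1)
  · right
    obtain rfl : k = m := le_antisymm hk h1
    obtain ⟨j, rfl⟩ : ∃ j, k = j + 1 := ⟨k - 1, by have := h.pos; omega⟩
    rw [Function.iterate_succ_apply', tlv_nx]
    exact h.inn j (by omega)

theorem RStr.closed (h : RStr Reg ω e m) (hy : Reg (hdv y)) :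
    y ∈ orbs ω e m ↔ nx ω y ∈ orbs ω e m := by
  rw [mem_orbs, mem_orbs]
  constructor
  · rintro ⟨k, hk, rfl⟩
    rcases Nat.lt_or_ge k m with h1 | h1
    · exact ⟨k + 1, h1, Function.iterate_succ_apply' _ _ _⟩
    · obtain rfl : k = m := le_antisymm hk h1
      exact absurd hy h.out
  · rintro ⟨k, hk, hke⟩
    rcases Nat.eq_zero_or_pos k with rfl | h0
    · exfalso
      rw [Function.iterate_zero, id] at hke
      apply h.tl
      rw [hke, tlv_nx]
      exact hy
    · obtain ⟨j, rfl⟩ : ∃ j, k = j + 1 := ⟨k - 1, by omega⟩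
      rw [Function.iterate_succ_apply'] at hke
      exact ⟨j, by omega, (s_nx ω).1 hke⟩

/-- One step in the region. -/
theorem pot_step (hφ : RPot Reg (orbs ω e m) φ) (h : RStr Reg ω e m) (hy : Reg (hdv y)) :
    φ (ls (nx ω y)) = φ (ls y) ∧ φ (rs (nx ω y)) = φ (rs y) := by
  have h1 := hφ y (Or.inl hy)
  have h2 := hφ (nx ω y) (Or.inr (by rw [tlv_nx]; exact hy))
  rw [← if_congr (h.closed hy) rfl rfl] at h2
  cases h0 : ω (hdv y) with
  | true =>
    have h3 : rs (nx ω y) = rs y := rs_nx h0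
    rw [h3] at h2 ⊢
    exact ⟨by omega, rfl⟩
  | false =>
    have h3 : ls (nx ω y) = ls y := ls_nx h0
    rw [h3] at h2 ⊢
    exact ⟨rfl, by omega⟩

/-- Along a path through the region and closed squares. -/
theorem pot_path_ls (hφ : RPot Reg (orbs ω e m) φ) (h : RStr Reg ω e m) {M : ℕ}
    (hp : ∀ k < M, Reg (hdv ((nx ω)^[k] y)) ∨ ω (hdv ((nx ω)^[k] y)) = false) (hk : k ≤ M) :
    φ (ls ((nx ω)^[k] y)) = φ (ls y) := by
  induction k with
  | zero => rfl
  | succ k ih =>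
    rw [Function.iterate_succ_apply', ← ih (by omega)]
    rcases hp k (by omega) with h1 | h1
    · exact (pot_step hφ h h1).1
    · rw [ls_nx h1]

/-- Along a path through the region and open squares. -/
theorem pot_path_rs (hφ : RPot Reg (orbs ω e m) φ) (h : RStr Reg ω e m) {M : ℕ}
    (hp : ∀ k < M, Reg (hdv ((nx ω)^[k] y)) ∨ ω (hdv ((nx ω)^[k] y)) = true) (hk : k ≤ M) :
    φ (rs ((nx ω)^[k] y)) = φ (rs y) := by
  induction k with
  | zero => rfl
  | succ k ih =>
    rw [Function.iterate_succ_apply', ← ih (by omega)]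
    rcases hp k (by omega) with h1 | h1
    · exact (pot_step hφ h h1).2
    · rw [rs_nx h1]

theorem pot_orbs_ls (hφ : RPot Reg (orbs ω e m) φ) (h : RStr Reg ω e m) (h' : RStr Reg ω e' m')
    {x : Ed} (hx : x ∈ orbs ω e' m') : φ (ls x) = φ (ls e') := by
  obtain ⟨k, hk, rfl⟩ := mem_orbs.1 hx
  exact pot_path_ls hφ h (M := m') (fun j hj => Or.inl (h'.inn j hj)) hk

theorem pot_orbs_rs (hφ : RPot Reg (orbs ω e m) φ) (h : RStr Reg ω e m) (h' : RStr Reg ω e' m')
    {x : Ed} (hx : x ∈ orbs ω e' m') : φ (rs x) = φ (rs e') := by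
  obtain ⟨k, hk, rfl⟩ := mem_orbs.1 hx
  exact pot_path_rs hφ h (M := m') (fun j hj => Or.inl (h'.inn j hj)) hk

/-- **Two strands with the left bank off the base point are not connected by a path through the
region and closed squares.** -/
theorem no_two_ls (hc : RConn Reg) (h : RStr Reg ω e m) (h' : RStr Reg ω e' m')
    (hφ : RPot Reg (orbs ω e m) φ) (hφ' : RPot Reg (orbs ω e' m') φ') (h1 : φ (ls e) = 1)
    (h1' : φ' (ls e') = 1) (hd : Disjoint (orbs ω e m) (orbs ω e' m')) {x0 : Ed}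
    (hx0 : Reg (hdv x0) ∨ Reg (tlv x0))
    (h0 : (φ (ls x0) = 0 ∧ φ' (ls x0) = 0) ∨ (φ (rs x0) = 0 ∧ φ' (rs x0) = 0)) {M : ℕ}
    (hM : (nx ω)^[M] e = e')
    (hp : ∀ k < M, Reg (hdv ((nx ω)^[k] e)) ∨ ω (hdv ((nx ω)^[k] e)) = false) : False := by
  have a1 : φ (ls e') = 1 := by
    rw [← hM, pot_path_ls hφ h hp le_rfl, h1]
  have a2 : φ' (ls e) = 1 := by
    rw [← h1', ← hM]
    exact (pot_path_ls (y := e) hφ' h' hp le_rfl).symm
  have b1 : ∀ x ∈ orbs ω e m, φ (ls x) = 1 ∧ φ' (ls x) = 1 := fun x hx =>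
    ⟨by rw [pot_orbs_ls hφ h h hx, h1], by rw [pot_orbs_ls hφ' h' h hx, a2]⟩
  have b2 : ∀ x ∈ orbs ω e' m', φ (ls x) = 1 ∧ φ' (ls x) = 1 := fun x hx =>
    ⟨by rw [pot_orbs_ls hφ h h' hx, a1], by rw [pot_orbs_ls hφ' h' h' hx, h1']⟩
  obtain ⟨c, hcc⟩ := hc (fun z => φ z + φ' z - φ z * φ' z) fun x hx => by
    have j1 := hφ x hx
    have j2 := hφ' x hx
    try simp only
    by_cases hA : x ∈ orbs ω e m
    · have hB : x ∉ orbs ω e' m' := Finset.disjoint_left.1 hd hA
      obtain ⟨k1, k2⟩ := b1 x hA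
      rw [if_pos hA, k1] at j1
      rw [if_neg hB, k2] at j2
      have e1 : φ (rs x) = 0 := by omega
      have e2 : φ' (rs x) = 1 := by omega
      rw [k1, k2, e1, e2]
      norm_num
    · by_cases hB : x ∈ orbs ω e' m'
      · obtain ⟨k1, k2⟩ := b2 x hB
        rw [if_neg hA, k1] at j1
        rw [if_pos hB, k2] at j2
        have e1 : φ (rs x) = 1 := by omega
        have e2 : φ' (rs x) = 0 := by omega
        rw [k1, k2, e1, e2]
        norm_num
      · rw [if_neg hA] at j1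
        rw [if_neg hB] at j2
        rw [j1, j2]
        simp
  have hc0 : c = 0 := by
    obtain ⟨g1, g2⟩ := hcc x0 hx0
    try simp only at g1 g2
    rcases h0 with ⟨k1, k2⟩ | ⟨k1, k2⟩
    · rw [k1, k2] at g1
      omega
    · rw [k1, k2] at g2
      omega
  have hee : e ∈ orbs ω e m := mem_orbs.2 ⟨0, Nat.zero_le _, rfl⟩
  have g1 := (hcc e (h.edge hee)).1
  try simp only at g1
  rw [(b1 e hee).1, (b1 e hee).2, hc0] at g1
  norm_num at g1

/-- The mirror image: two strands with the right bank off the base point. -/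
theorem no_two_rs (hc : RConn Reg) (h : RStr Reg ω e m) (h' : RStr Reg ω e' m')
    (hφ : RPot Reg (orbs ω e m) φ) (hφ' : RPot Reg (orbs ω e' m') φ') (h1 : φ (rs e) = -1)
    (h1' : φ' (rs e') = -1) (hd : Disjoint (orbs ω e m) (orbs ω e' m')) {x0 : Ed}
    (hx0 : Reg (hdv x0) ∨ Reg (tlv x0))
    (h0 : (φ (ls x0) = 0 ∧ φ' (ls x0) = 0) ∨ (φ (rs x0) = 0 ∧ φ' (rs x0) = 0)) {M : ℕ}
    (hM : (nx ω)^[M] e = e')
    (hp : ∀ k < M, Reg (hdv ((nx ω)^[k] e)) ∨ ω (hdv ((nx ω)^[k] e)) = true) : False := by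
  have a1 : φ (rs e') = -1 := by
    rw [← hM, pot_path_rs hφ h hp le_rfl, h1]
  have a2 : φ' (rs e) = -1 := by
    rw [← h1', ← hM]
    exact (pot_path_rs (y := e) hφ' h' hp le_rfl).symm
  have b1 : ∀ x ∈ orbs ω e m, φ (rs x) = -1 ∧ φ' (rs x) = -1 := fun x hx =>
    ⟨by rw [pot_orbs_rs hφ h h hx, h1], by rw [pot_orbs_rs hφ' h' h hx, a2]⟩
  have b2 : ∀ x ∈ orbs ω e' m', φ (rs x) = -1 ∧ φ' (rs x) = -1 := fun x hx =>
    ⟨by rw [pot_orbs_rs hφ h h' hx, a1], by rw [pot_orbs_rs hφ' h' h' hx, h1']⟩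
  obtain ⟨c, hcc⟩ := hc (fun z => φ z + φ' z + φ z * φ' z) fun x hx => by
    have j1 := hφ x hx
    have j2 := hφ' x hx
    try simp only
    by_cases hA : x ∈ orbs ω e m
    · have hB : x ∉ orbs ω e' m' := Finset.disjoint_left.1 hd hA
      obtain ⟨k1, k2⟩ := b1 x hA
      rw [if_pos hA, k1] at j1
      rw [if_neg hB, k2] at j2
      have e1 : φ (ls x) = 0 := by omega
      have e2 : φ' (ls x) = -1 := by omega
      rw [k1, k2, e1, e2]
      norm_num
    · by_cases hB : x ∈ orbs ω e' m'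
      · obtain ⟨k1, k2⟩ := b2 x hB
        rw [if_neg hA, k1] at j1
        rw [if_pos hB, k2] at j2
        have e1 : φ (ls x) = -1 := by omega
        have e2 : φ' (ls x) = 0 := by omega
        rw [k1, k2, e1, e2]
        norm_num
      · rw [if_neg hA] at j1
        rw [if_neg hB] at j2
        rw [j1, j2]
        simp
  have hc0 : c = 0 := by
    obtain ⟨g1, g2⟩ := hcc x0 hx0
    try simp only at g1 g2
    rcases h0 with ⟨k1, k2⟩ | ⟨k1, k2⟩
    · rw [k1, k2] at g1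
      omega
    · rw [k1, k2] at g2
      omega
  have hee : e ∈ orbs ω e m := mem_orbs.2 ⟨0, Nat.zero_le _, rfl⟩
  have g1 := (hcc e (h.edge hee)).2
  try simp only at g1
  rw [(b1 e hee).1, (b1 e hee).2, hc0] at g1
  norm_num at g1

end Vale.Agent.P167.QX
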