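import Vale.Agent.P167.QX.S1
import Vale.Agent.P167.QX.Hole
import Vale.Agent.P167.QX.Stag
import Vale.Agent.P167.QX.Maj
import Vale.Agent.P167.H871.Q.WinA
import Vale.Agent.P167.H871.Q.OutQ

/-!
# P167, general `q`: strands of a frame inside the domain: potentials, turning, weights
-/

namespace Vale.Agent.P167.QX

open Finset
open Vale.Agent.P167.A (plane plane_nx plane_sg)
open Vale.Agent.P167.E6 (IsPolygon Encloses)
open Vale.Agent.P167.BR hiding dv
open Vale.Agent.P167.Top
open Vale.Agent.P167.XDL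
open Vale.Agent.P167.FK
open Vale.Agent.P167.H871 (Bd)
open Vale.Agent.P167.H825 (dv)
open Vale.Agent.P167.H199 (cang ah at' strand ret mem_strand Returns ret_le ret_min)

variable {D K : Finset (ℤ × ℤ)} {ω : Cfg} {e : Ed} {θ β : ℝ} {n m : ℕ} {q : ZMod n → ℤ × ℤ}
  {u : ℕ → ℤ} {a : Ed → Bool → ℝ}

/-- The sites of a domain are connected. -/
theorem rconn_D (hq : IsPolygon q) (hD : Encloses q D) : RConn (· ∈ D) := by
  intro g hg
  refine ⟨g (q 0), fun x hx => ?_⟩
  have hx' : x ∈ eds D := mem_eds.2 hx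
  have h := fun z hz => const_sites hq hD (g := g) (fun e he => hg e (mem_eds.1 he)) (z := z) hz
  exact ⟨h _ (ls_mem_sites hx'), h _ (rs_mem_sites hx')⟩

/-- **A strand in the domain**: its sides, a potential, the turning. -/
theorem near_rec (hq : IsPolygon q) (hD : Encloses q D)
    (hu : Bd (D : Set (ℤ × ℤ)) n (fun k => q (k : ZMod n)) u 1) (h : RStr (· ∈ D) ω e m) :
    ∃ i j φ, i < n ∧ j < n ∧ i ≠ j ∧ e = be q (i : ZMod n) ∧ (nx ω)^[m] e = be q (j : ZMod n) ∧
      Even ((q (i : ZMod n)).1 + (q (i : ZMod n)).2) ∧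
      ¬ Even ((q (j : ZMod n)).1 + (q (j : ZMod n)).2) ∧ RPot (· ∈ D) (orbs ω e m) φ ∧
      φ (q 0) = 0 ∧ (i < j → φ (rs e) = -1) ∧ (j < i → φ (ls e) = 1) ∧
      ∑ k ∈ range m, trn ω ((nx ω)^[k] e) = u j - u i + (if i < j then -2 else 2) := by
  classical
  have h1 : hdv e ∈ D := h.inn 0 h.pos
  have h2 : tlv e ∉ D := h.tl
  obtain ⟨m', hm', hr, hin, hx, hn, hp⟩ := strand_in (ω := ω) h1 h2
  have hmm : m' = m := by
    rcases lt_trichotomy m' m with h3 | h3 | h3
    · exact absurd (h.inn m' h3) hx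
    · exact h3
    · exact absurd (hin m h3) h.out
  subst hmm
  have horb : piece ω D e = orbs ω e m' := by
    ext x
    rw [hp, mem_insert, mem_strand, hr, mem_orbs]
    constructor
    · rintro (rfl | ⟨k, hk, rfl⟩)
      · exact ⟨m', le_rfl, rfl⟩
      · exact ⟨k, hk.le, rfl⟩
    · rintro ⟨k, hk, rfl⟩
      rcases hk.lt_or_eq with h3 | h3
      · exact Or.inr ⟨k, h3, rfl⟩
      · exact Or.inl (by rw [h3])
  obtain ⟨e', i, j, S⟩ := exists_str (θ := 0) (ω := ω) hq hD hu
    (gau_aP (θ := 0) (ψ := fun _ => 0) (K := 0) (c := fun _ => 0) (u := u) hq hD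
      (fun e he => absurd rfl he)) h1 h2
  have he' : e' = (nx ω)^[m'] e := by
    have h3 := S.mem
    rw [horb, mem_orbs] at h3
    obtain ⟨k, hk, hke⟩ := h3
    rcases hk.lt_or_eq with h4 | h4
    · have h5 := S.out
      rw [← hke] at h5
      exact absurd (hin k h4) h5
    · rw [← hke, h4]
  have hT := H871.Q.bd_turn hu (ω := ω) (e := e) (m := m') (i := i) (j := j) h.pos S.hi S.hj
    (by rw [S.ei]; exact P4_be hq hu i) (by rw [← he', S.ej]; exact P4_be hq hu j)
    (fun k hk => h.inn k hk) h.tl h.out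
  have hjump : ∀ {w : ℤ × ℤ → ℤ} (s : ℤ), PotD D (piece ω D e) w →
      RPot (· ∈ D) (orbs ω e m') fun z => w z + s := by
    intro w s hw x hx
    have h3 := hw x (mem_eds.2 hx)
    rw [horb] at h3
    try simp only
    omega
  have hself : e ∈ piece ω D e := by rw [horb]; exact mem_orbs.2 ⟨0, Nat.zero_le _, rfl⟩
  have hee : e ∈ eds D := mem_eds.2 (Or.inl h1)
  rcases lt_or_gt_of_ne S.ne with hij | hij
  · obtain ⟨w, hw, hw'⟩ := S.left hij
    refine ⟨i, j, fun z => w z + -w (q 0), S.hi, S.hj, S.ne, S.ei, by rw [← he', S.ej], S.evi,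
      S.odj, hjump _ hw, by simp, fun _ => ?_, fun h => absurd h (by omega), hT.2⟩
    have h3 := hw e hee
    rw [if_pos hself] at h3
    have h4 := hw' e hself
    try simp only
    omega
  · obtain ⟨w, hw, hw'⟩ := S.right hij
    refine ⟨i, j, fun z => w z + -w (q 0), S.hi, S.hj, S.ne, S.ei, by rw [← he', S.ej], S.evi,
      S.odj, hjump _ hw, by simp, fun h => absurd h (by omega), fun _ => ?_, hT.2⟩
    have h3 := hw e hee
    rw [if_pos hself] at h3
    have h4 := hw' e hself
    try simp only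
    omega

/-- The phases of a frame at its inner faces. -/
structure FrmV (θ β : ℝ) (q : ZMod n → ℤ × ℤ) (D K : Finset (ℤ × ℤ)) (u : ℕ → ℤ) (ka : ℕ)
    (a : Ed → Bool → ℝ) : Prop where
  disj : Disjoint D K
  off : ∀ e ∉ bS K, ∀ b, a e b = 0
  hd : ∀ k < n, be q (k : ZMod n) ∈ bS K → hdv (be q (k : ZMod n)) ∈ D →
    ah plane a (be q (k : ZMod n)) = θ / 4 * u k + stag θ β q ka k
  tl : ∀ k < n, be q (k : ZMod n) ∈ bS K → tlv (be q (k : ZMod n)) ∈ D →
    at' plane a (be q (k : ZMod n)) = -(θ / 4 * u k + stag θ β q ka k)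

/-- **The weight of a strand of the frame inside the domain**, both feet of the colour `b`. -/
theorem near_val (hq : IsPolygon q) (hD : Encloses q D)
    (hu : Bd (D : Set (ℤ × ℤ)) n (fun k => q (k : ZMod n)) u 1) {ka : ℕ}
    (F : FrmV θ β q D K u ka a) (hs : 0 < Real.sin θ) (he : e ∈ bS K)
    (hr : Returns (nx ω) (bS K) e) (h : RStr (· ∈ D) ω e (ret (nx ω) (bS K) e)) {b : Bool}
    (hb : ∀ k < n, (be q (k : ZMod n) = e ∨
      be q (k : ZMod n) = (nx ω)^[ret (nx ω) (bS K) e] e) → (k < ka ↔ b = false)) :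
    ∃ φ, RPot (· ∈ D) (orbs ω e (ret (nx ω) (bS K) e)) φ ∧ φ (q 0) = 0 ∧
      (wS θ K a ω e = 1 ∨
        (wS θ K a ω e = 2 * Real.cos θ ∧ if b then φ (rs e) = -1 else φ (ls e) = 1)) := by
  obtain ⟨i, j, φ, hi, hj, hij, ei, ej, evi, odj, g1, g2, g3, g4, hT⟩ := near_rec hq hD hu h
  set m := ret (nx ω) (bS K) e with hm
  have hlS : (nx ω)^[m] e ∈ bS K := hr.spec.2
  have c1 : ah plane a e = θ / 4 * u i + stag θ β q ka i := by
    have := F.hd i hi (ei ▸ he) (by rw [← ei]; exact h.inn 0 h.pos)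
    rwa [← ei] at this
  have htl : tlv ((nx ω)^[m] e) ∈ D := by
    obtain ⟨l, hl⟩ : ∃ l, m = l + 1 := ⟨m - 1, by have := h.pos; omega⟩
    rw [hl, Function.iterate_succ_apply', tlv_nx]
    exact h.inn l (by omega)
  have c2 : at' plane a ((nx ω)^[m] e) = -(θ / 4 * u j + stag θ β q ka j) := by
    have := F.tl j hj (ej ▸ hlS) (by rw [← ej]; exact htl)
    rwa [← ej] at this
  have hc := H871.Q.cang_strand (θ := θ) (a := a) he hr fun k k1 k2 => by
    have h0 := F.off _ (ret_min k1 k2)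
    unfold ah at'
    rw [h0, h0]
    ring
  rw [hT, c1, c2] at hc
  have hbi := hb i hi (Or.inl ei.symm)
  have hbj := hb j hj (Or.inr ej.symm)
  have hst : stag θ β q ka i - stag θ β q ka j =
      if b then -((3 * θ - Real.pi) / 2) else (3 * θ - Real.pi) / 2 := by
    unfold stag
    rw [if_pos evi, if_neg odj, if_pos evi, if_neg odj]
    cases b
    · rw [if_pos (hbi.2 rfl), if_pos (hbj.2 rfl)]
      simp only [Bool.false_eq_true, if_false]
      ring
    · rw [if_neg (fun h => by simpa using hbi.1 h), if_neg (fun h => by simpa using hbj.1 h)]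
      simp only [if_true]
      ring
  have hw : wS θ K a ω e = Real.cos (θ / 4 * (if i < j then -2 else 2) +
      if b then -((3 * θ - Real.pi) / 2) else (3 * θ - Real.pi) / 2) / Real.sin θ := by
    unfold wS
    rw [hc]
    congr 2
    rw [← hst]
    push_cast
    split_ifs <;> ring
  have hpi : Real.sin θ = Real.cos (θ - Real.pi / 2) := by
    rw [Real.cos_sub_pi_div_two]
  have hpi2 : Real.sin (2 * θ) = Real.cos (2 * θ - Real.pi / 2) := by
    rw [Real.cos_sub_pi_div_two]
  have v1 : Real.sin θ / Real.sin θ = 1 := div_self hs.ne'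
  have v2 : Real.sin (2 * θ) / Real.sin θ = 2 * Real.cos θ := by
    rw [Real.sin_two_mul]
    field_simp
  refine ⟨φ, g1, g2, ?_⟩
  rw [hw]
  rcases lt_or_gt_of_ne hij with hlt | hlt
  · rw [if_pos hlt]
    cases b
    · left
      simp only [Bool.false_eq_true, if_false]
      rw [← v1]
      congr 1
      rw [hpi]
      congr 1
      ring
    · right
      simp only [if_true]
      refine ⟨?_, g3 hlt⟩
      rw [← v2]
      congr 1
      rw [hpi2, ← Real.cos_neg]
      congr 1
      ring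
  · rw [if_neg (by omega)]
    cases b
    · right
      simp only [Bool.false_eq_true, if_false]
      refine ⟨?_, g4 hlt⟩
      rw [← v2]
      congr 1
      rw [hpi2]
      congr 1
      ring
    · left
      simp only [if_true]
      rw [← v1]
      congr 1
      rw [hpi, ← Real.cos_neg]
      congr 1
      ring

end Vale.Agent.P167.QX
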