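import Vale.Agent.P167.QX.L1E

/-!
# P167, general `q`: the majorant for a frame, abstract form

`g2`: strands in the boxes which meet one row only; `bt`: strands off the holes near the holes, with
the natural weights `1` or `2 cos θ`. If between two strands of the second kind with the weight
`2 cos θ` there is a typed segment, the loops have at most `1 +` (number of typed segments) strands of
closed type.
-/

namespace Vale.Agent.P167.QX

open Finset
open Vale.Agent.P167.A (plane plane_nx plane_sg)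
open Vale.Agent.P167.BR hiding dv
open Vale.Agent.P167.XDL (bS mem_bS)
open Vale.Agent.P167.FK
open Vale.Agent.P167.H199 (strand ret mem_strand Returns ret_le ret_min strand_unique loop_iter
  loop_nx self_mem_strand strand_sub)
open Vale.Agent.P167.H685 (LE mem_LE)

variable {ι : Type} [Fintype ι] {K : Finset (ℤ × ℤ)} {J : ι → Finset (ℤ × ℤ)}
  {Ab : ι → ℤ × ℤ → ℤ × ℤ → Prop} {ω : Cfg} {θ : ℝ} {a : Ed → Bool → ℝ} {g2 bt typ : Ed → Prop}

/-- The strands of closed type near the holes. -/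
noncomputable def Scl (θ : ℝ) (K : Finset (ℤ × ℤ)) (a : Ed → Bool → ℝ) (bt : Ed → Prop)
    (ω : Cfg) : Finset Ed :=
  @Finset.filter _ (fun e => hdv e ∉ K ∧ bt e ∧ wS θ K a ω e ≠ 1) (Classical.decPred _) (bS K)

theorem mem_Scl {e : Ed} : e ∈ Scl θ K a bt ω ↔
    e ∈ bS K ∧ hdv e ∉ K ∧ bt e ∧ wS θ K a ω e ≠ 1 := by
  unfold Scl
  exact @Finset.mem_filter _ _ (Classical.decPred _) _ _

theorem exit_tl {e : Ed} (he : e ∈ bS K) (h : hdv e ∉ K) : tlv e ∈ K := by
  rw [mem_bS] at he
  rcases he with ⟨h1, -⟩ | ⟨-, h1⟩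
  · exact absurd h1 h
  · exact h1

open Classical in
/-- **The majorant of a frame.** -/
theorem RowFam.majS (F : RowFam K J Ab ω) (hs : 0 < Real.sin θ) (hc : 1 ≤ 2 * Real.cos θ)
    (hg2 : ∀ e, g2 e → Sml J Ab ω e)
    (hbv : ∀ e ∈ bS K, hdv e ∉ K → bt e → wS θ K a ω e = 1 ∨ wS θ K a ω e = 2 * Real.cos θ)
    (hnat : ∀ e ∈ bS K, hdv e ∉ K → bt e → ∀ i p q, Ab i p q → tlv e ∈ J i →
      InB (Bx p q) (J i) ω e → rS θ (J i) a ω e = 1)
    (hseg : ∀ e ∈ Scl θ K a bt ω, (nx ω)^[ret (nx ω) (Scl θ K a bt ω) e] e ≠ e → typ e) :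
    |∏ ℓ ∈ LE ω (bS K), fLp θ K a ω ℓ| ≤
      (∏ e ∈ (bS K).filter (fun e => hdv e ∉ K ∧ g2 e), rK θ J a ω e) *
        ((Real.sin θ)⁻¹) ^ ((bS K).filter fun e => hdv e ∉ K ∧ ¬ (g2 e ∨ bt e)).card *
        (2 * Real.cos θ) ^ ((Scl θ K a bt ω).filter typ).card := by
  have hc0 : 0 < Real.cos θ := by linarith
  set S := Scl θ K a bt ω with hS
  -- auxiliary functions, opaque
  obtain ⟨r, hr1, hr2⟩ : ∃ r : Ed → ℝ, (∀ e, g2 e → r e = rK θ J a ω e) ∧
      (∀ e, ¬ g2 e → r e = 1) :=
    ⟨fun e => if g2 e then rK θ J a ω e else 1, fun e h => if_pos h, fun e h => if_neg h⟩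
  obtain ⟨cl, hcl1, hcl2⟩ : ∃ cl : Ed → Prop, (∀ e, g2 e → (cl e ↔ ClK J ω e)) ∧
      (∀ e, ¬ g2 e → (cl e ↔ wS θ K a ω e ≠ 1)) :=
    ⟨fun e => (g2 e ∧ ClK J ω e) ∨ (¬ g2 e ∧ wS θ K a ω e ≠ 1), fun e h => by simp [h],
      fun e h => by simp [h]⟩
  obtain ⟨b, hb1, hb2⟩ : ∃ b : Finset Ed → ℕ, (2 * Real.cos θ = 1 → ∀ ℓ, b ℓ = (bS K).card) ∧
      (2 * Real.cos θ ≠ 1 → ∀ ℓ, b ℓ = ((S.filter typ).filter fun e => e ∈ ℓ).card) := by
    by_cases h : 2 * Real.cos θ = 1
    · exact ⟨fun _ => (bS K).card, fun _ _ => rfl, fun h' => absurd h h'⟩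
    · exact ⟨fun ℓ => ((S.filter typ).filter fun e => e ∈ ℓ).card, fun h' => absurd h' h,
        fun _ _ => rfl⟩
  obtain ⟨sm, hsm⟩ : ∃ sm : Ed → Prop, ∀ e, sm e ↔ (g2 e ∨ bt e) := ⟨_, fun _ => Iff.rfl⟩
  -- the value of the small strands of the rows
  have hval : ∀ e ∈ bS K, hdv e ∉ K → ∀ i p q, Ab i p q → tlv e ∈ J i →
      InB (Bx p q) (J i) ω e → |wS θ K a ω e| = natS θ (J i) ω e * rS θ (J i) a ω e := by
    intro e he h1 i p q hab h2 hB
    have h3 : hdv e ∉ J i := fun h => h1 ((F.mem _).2 ⟨i, h⟩)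
    have hn := natS_pos hc0 (J i) ω e
    rw [F.wS_K hab hB h3]
    unfold rS
    field_simp
  have h := prod_fLp_le (K := K) (a := a) (sm := sm)
    (cl := cl) (r := r) (b := b) F.good hs hc ?_ ?_ ?_
  · -- the bound
    have e1 : ∏ e ∈ (bS K).filter (fun e => hdv e ∉ K ∧ sm e), r e =
        ∏ e ∈ (bS K).filter (fun e => hdv e ∉ K ∧ g2 e), rK θ J a ω e := by
      rw [← prod_subset (s₁ := (bS K).filter fun e => hdv e ∉ K ∧ g2 e)]
      · exact prod_congr rfl fun e he => hr1 e (mem_filter.1 he).2.2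
      · intro e he
        rw [mem_filter] at he ⊢
        exact ⟨he.1, he.2.1, (hsm e).2 (Or.inl he.2.2)⟩
      · intro e he he'
        rw [mem_filter] at he he'
        exact hr2 e fun h => he' ⟨he.1, he.2.1, h⟩
    have e3 : (bS K).filter (fun e => hdv e ∉ K ∧ ¬ sm e) =
        (bS K).filter fun e => hdv e ∉ K ∧ ¬ (g2 e ∨ bt e) := by
      ext e
      rw [mem_filter, mem_filter, hsm]
    rw [e1, e3] at h
    have e2 : (2 * Real.cos θ) ^ (∑ ℓ ∈ LE ω (bS K), b ℓ) =
        (2 * Real.cos θ) ^ (S.filter typ).card := by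
      by_cases h1 : 2 * Real.cos θ = 1
      · rw [h1, one_pow, one_pow]
      · rw [← prod_pow_eq_pow_sum, ← prod_const]
        have k1 : S.filter typ = (bS K).filter fun e => e ∈ S ∧ typ e := by
          ext e
          simp only [mem_filter]
          exact ⟨fun h => ⟨(mem_Scl.1 h.1).1, h.1, h.2⟩, fun h => h.2⟩
        rw [k1, prod_by_loops F.good (bS K) (fun e => e ∈ S ∧ typ e) fun _ => 2 * Real.cos θ]
        refine prod_congr rfl fun ℓ _ => ?_
        rw [prod_const, hb2 h1]
        have k2 : (S.filter typ).filter (fun e => e ∈ ℓ) =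
            (bS K).filter fun e => (e ∈ S ∧ typ e) ∧ e ∈ ℓ := by
          ext e
          rw [mem_filter, mem_filter, mem_filter]
          exact ⟨fun h => ⟨(mem_Scl.1 h.1.1).1, h⟩, fun h => h.2⟩
        rw [k2]
    rw [e2] at h
    exact h
  · rintro e he h1 he'
    by_cases hg : g2 e
    · obtain ⟨i, p, q, hab, h2, hB⟩ := hg2 e hg
      have e1 : cl e ↔ ClT (J i) ω e := by
        rw [hcl1 e hg]
        exact ⟨fun ⟨k, hk, h⟩ => by rwa [F.disj k i _ hk h2] at h, fun h => ⟨i, h2, h⟩⟩
      rw [hval e he h1 i p q hab h2 hB, hr1 e hg, rK_eq F h2]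
      congr 1
      unfold natS
      exact if_congr e1.symm rfl rfl
    · have hbe : bt e := ((hsm e).1 he').resolve_left hg
      rw [hr2 e hg, mul_one]
      by_cases h3 : wS θ K a ω e = 1
      · rw [if_neg (fun h => (hcl2 e hg).1 h h3), h3, abs_one]
      · rw [if_pos ((hcl2 e hg).2 h3), (hbv e he h1 hbe).resolve_left h3,
          abs_of_pos (by linarith)]
  · rintro e he h1 he'
    by_cases hg : g2 e
    · obtain ⟨i, p, q, hab, h2, hB⟩ := hg2 e hg
      rw [hr1 e hg, rK_eq F h2]
      exact rS_nonneg hc0 _ _ _ _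
    · rw [hr2 e hg]
      exact zero_le_one
  · intro ℓ hℓ
    have hl := (mem_LE.1 hℓ).1
    by_cases h1c : 2 * Real.cos θ = 1
    · rw [hb1 h1c]
      exact (card_le_card (filter_subset _ _)).trans (by omega)
    · rw [hb2 h1c]
      by_cases hA : ∃ e0 ∈ bS K, hdv e0 ∉ K ∧ e0 ∈ ℓ ∧ g2 e0 ∧ ClK J ω e0
      · -- a trapped loop
        obtain ⟨e0, a1, a2, a3, a4, k, hk, hclk⟩ := hA
        obtain ⟨i, p, q, hab, g4, hB⟩ := hg2 e0 a4
        have hik := F.disj k i _ hk g4
        subst hik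
        obtain ⟨-, htr⟩ := F.trapK hl hab hB a3 (fun h => a2 ((F.mem _).2 ⟨k, h⟩)) g4 hclk
        have key : ∀ e' ∈ bS K, hdv e' ∉ K → e' ∈ ℓ → sm e' → cl e' → e' = e0 := by
          intro e' g1' g2' g3' g5' g6'
          obtain ⟨⟨h1, h1'⟩, h2, h3⟩ := htr e' g3' g2' (exit_tl g1' g2')
          by_cases hg : g2 e'
          · obtain ⟨k', hk', hcl'⟩ := (hcl1 e' hg).1 g6'
            have hk2 := F.disj k' k _ hk' h1
            subst hk2
            exact h3 hcl'
          · exfalso
            have hbe : bt e' := ((hsm e').1 g5').resolve_left hg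
            have h4 : wS θ K a ω e' ≠ 1 := (hcl2 e' hg).1 g6'
            have h5 := hval e' g1' g2' k p q hab h1 h2
            rw [hnat e' g1' g2' hbe k p q hab h1 h2, mul_one] at h5
            have h6 : ¬ ClT (J k) ω e' := fun h => by
              rw [h3 h] at hg
              exact hg a4
            unfold natS at h5
            rw [if_neg h6] at h5
            rcases hbv e' g1' g2' hbe with h7 | h7
            · exact h4 h7
            · rw [h7, abs_of_pos (by linarith)] at h5
              exact h1c h5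
        refine le_trans (card_le_one.2 ?_) (Nat.le_add_right 1 _)
        intro e he e' he'
        simp only [mem_filter] at he he'
        rw [key e he.1 he.2.1.1 he.2.1.2 he.2.2.1 he.2.2.2,
          key e' he'.1 he'.2.1.1 he'.2.1.2 he'.2.2.1 he'.2.2.2]
      · -- all strands of closed type are near the holes
        have hsub : ∀ e ∈ (bS K).filter (fun e => (hdv e ∉ K ∧ e ∈ ℓ) ∧ sm e ∧ cl e),
            e ∈ S.filter fun e => e ∈ ℓ := by
          intro e he
          simp only [mem_filter] at he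
          obtain ⟨h1, ⟨h2, h3⟩, h4, h5⟩ := he
          rw [mem_filter, hS, mem_Scl]
          by_cases hg : g2 e
          · exact absurd ⟨e, h1, h2, h3, hg, (hcl1 e hg).1 h5⟩ hA
          · exact ⟨⟨h1, h2, ((hsm e).1 h4).resolve_left hg, (hcl2 e hg).1 h5⟩, h3⟩
        refine le_trans (card_le_card hsub) ?_
        by_cases hcard : (S.filter fun e => e ∈ ℓ).card ≤ 1
        · omega
        · push Not at hcard
          refine le_trans (card_le_card ?_) (Nat.le_add_left _ _)
          intro e he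
          obtain ⟨h1, h2⟩ := mem_filter.1 he
          refine mem_filter.2 ⟨mem_filter.2 ⟨h1, hseg e h1 fun heq => ?_⟩, h2⟩
          -- another element of the loop
          obtain ⟨e', he', hne⟩ := exists_mem_ne hcard e
          obtain ⟨h1', h2'⟩ := mem_filter.1 he'
          obtain ⟨m, hm⟩ := (H685.loop_gen hl h2 e').1 h2'
          have hr1' := (returns_loop hl h2 h1).spec.1
          set M := ret (nx ω) S e with hM
          have hmod : (nx ω)^[m % M] e = e' := by
            have h9 : ∀ j : ℕ, (nx ω)^[M * j] e = e := by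
              intro j
              induction j with
              | zero => simp
              | succ j ih => rw [Nat.mul_succ, Function.iterate_add_apply, heq, ih]
            rw [← hm]
            conv_rhs => rw [← Nat.mod_add_div m M, Function.iterate_add_apply, h9]
          have hlt := Nat.mod_lt m (show 0 < M by omega)
          rcases Nat.eq_zero_or_pos (m % M) with h0 | h0
          · rw [h0] at hmod
            exact hne hmod.symm
          · exact ret_min h0 hlt (hmod ▸ h1')

end Vale.Agent.P167.QX
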