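import Vale.Agent.P167.QX.S3
import Vale.Agent.P167.QX.S4
import Vale.Agent.P167.H871.Q.IntW
import Vale.Agent.P167.H871.Q.Win
import Vale.Agent.P167.H945.Q.HDefs

/-!
# P167, general `q`: the weights of the strands of a frame near the holes and off the holes
-/

namespace Vale.Agent.P167.QX

open Finset
open Vale.Agent.P167.A (plane plane_nx plane_sg)
open Vale.Agent.P167.E6 (IsPolygon Encloses)
open Vale.Agent.P167.BR hiding dv
open Vale.Agent.P167.Top
open Vale.Agent.P167.XDL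
open Vale.Agent.P167.FK
open Vale.Agent.P167.H871 (Bd sqL side P4 M4)
open Vale.Agent.P167.H199 (cang ah at' strand ret mem_strand Returns ret_le ret_min)
open Vale.Agent.P167.H825.Q (Row stτ)
open Vale.Agent.P167.H680.T (rowC uI mem_uI)
open Vale.Agent.P167.H871.Q (Fam ExtS bt wE endK HoleW Wn)
open Vale.Agent.P167.H945.Q (ctr Plain)

section fam

variable {ι : Type} [Fintype ι] {r : ι → Row} {θ β : ℝ} {x : Ed} {ω : Cfg} {n : ℕ}
  {q : ZMod n → ℤ × ℤ} {D : Finset (ℤ × ℤ)} {u : ℕ → ℤ} {ka c N : ℕ} {s e : ℕ → ℕ}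

/-- **The weight of an exterior strand in the window of a hole**, both feet of the same colour. -/
theorem far_val (F : Fam θ β r q D u ka c N s e) (h0 : 0 < θ) (hs : 0 < Real.sin θ) {i j : ℕ}
    {σ : ℤ} {φ : ℤ × ℤ → ℤ} (E : ExtS r q D u c N s e ω x i j σ φ) (hx2 : hdv x ∉ uI r)
    (hr : Returns (nx ω) (bS (uI r)) x)
    (hR : RStr (· ∉ D ∪ uI r) ω x (ret (nx ω) (bS (uI r)) x)) {b : Bool}
    (hi : i < ka ↔ b = false) (hj : j < ka ↔ b = false) {t : ℤ} (ht1 : -4 ≤ t) (ht2 : t ≤ 4)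
    (hc : cang plane θ (rowC θ r 0).ph ω (strand (nx ω) (bS (uI r)) x) =
      θ / 4 * t + stτ ka i * ((3 * θ - Real.pi) / 2)) :
    wS θ (uI r) (rowC θ r 0).ph ω x = 1 ∨
      (wS θ (uI r) (rowC θ r 0).ph ω x = 2 * Real.cos θ ∧
        ClF (D ∪ uI r) b ω x (ret (nx ω) (bS (uI r)) x)) := by
  have h1 := F.cang_far E hx2 hr
  have e1 : bt β ka i = bt β ka j := by unfold bt; rw [if_congr (hi.trans hj.symm) rfl rfl]
  have e2 : stτ ka j = stτ ka i := by unfold stτ; rw [if_congr (hi.trans hj.symm) rfl rfl]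
  rw [hc, e1, e2] at h1
  have h2 : (t : ℝ) = (if i < j then (if σ = 1 then 2 else -6) else (if σ = 1 then 6 else -2)) := by
    have h3 : θ / 4 * t = θ / 4 *
        (if i < j then (if σ = 1 then 2 else -6) else (if σ = 1 then 6 else -2)) := by linarith
    exact mul_left_cancel₀ (by positivity) h3
  have hw : wS θ (uI r) (rowC θ r 0).ph ω x = wE θ β ka i j σ / Real.sin θ := by
    unfold wS
    rw [F.cos_far E hx2 hr]
  have v1 : Real.sin θ / Real.sin θ = 1 := div_self hs.ne'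
  have v2 : Real.sin (2 * θ) / Real.sin θ = 2 * Real.cos θ := by
    rw [Real.sin_two_mul]
    field_simp
  have hself : x ∈ exc (uI r) ω x := mem_exc.2 ⟨0, Nat.zero_le _, rfl⟩
  have hpot : RPot (· ∉ D ∪ uI r) (orbs ω x (ret (nx ω) (bS (uI r)) x)) φ := by
    intro y hy
    rw [E.pot.jump y hy]
    congr 1
    refine if_congr ?_ rfl rfl
    rw [mem_exc, mem_orbs]
  have hσ := E.pot.sgn
  rw [hw]
  unfold wE
  cases b
  · have hi' : i < ka := hi.2 rfl
    have hj' : j < ka := hj.2 rfl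
    rw [if_pos ⟨hi', hj'⟩]
    by_cases hij : i < j
    · rw [if_pos hij] at h2 ⊢
      by_cases h1 : σ = 1
      · rw [if_pos h1]
        right
        refine ⟨v2, hR, φ, hpot, E.pot.far, ?_⟩
        show φ (ls x) = 1
        rw [E.pot.left x hself, h1]
        norm_num
      · exfalso
        rw [if_neg h1] at h2
        have : t = -6 := by exact_mod_cast h2
        omega
    · rw [if_neg hij] at h2 ⊢
      by_cases h1 : σ = 1
      · exfalso
        rw [if_pos h1] at h2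
        have : t = 6 := by exact_mod_cast h2
        omega
      · rw [if_neg h1]
        exact Or.inl v1
  · have hi' : ¬ i < ka := fun h => by simpa using hi.1 h
    have hj' : ¬ j < ka := fun h => by simpa using hj.1 h
    rw [if_neg (fun h => hi' h.1), if_pos ⟨not_lt.1 hi', not_lt.1 hj'⟩]
    by_cases hij : i < j
    · rw [if_pos hij] at h2 ⊢
      by_cases h1 : σ = 1
      · rw [if_pos h1]
        exact Or.inl v1
      · exfalso
        rw [if_neg h1] at h2
        have : t = -6 := by exact_mod_cast h2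
        omega
    · rw [if_neg hij] at h2 ⊢
      by_cases h1 : σ = 1
      · exfalso
        rw [if_pos h1] at h2
        have : t = 6 := by exact_mod_cast h2
        omega
      · rw [if_neg h1]
        right
        refine ⟨v2, hR, φ, hpot, E.pot.far, ?_⟩
        show φ (rs x) = -1
        rw [E.pot.right x hself, hσ.resolve_left h1]
        norm_num

/-- The square of a side in the rows. -/
theorem Fam.foot (F : Fam θ β r q D u ka c N s e) {k : ℕ} {f : Ed} (hf : be q (k : ZMod n) = f) :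
    (tlv f ∈ uI r → tlv f = sqL (q (k : ZMod n)) (u k - 1)) ∧
    (hdv f ∈ uI r → hdv f = sqL (q (k : ZMod n)) (u k - 1)) := by
  have p1 : P4 f = M4 (q (k : ZMod n)) (u k) := by rw [← hf]; exact P4_be F.hq F.hu k
  have h1 := F.hu.left k
  constructor
  · intro h
    rcases side p1 with ⟨-, -, h2⟩ | ⟨-, -, h2⟩
    · exact h2
    · exact absurd (h2 ▸ mem_coe.1 h1) (H871.Q.Fam.nin F h)
  · intro h
    rcases side p1 with ⟨-, h2, -⟩ | ⟨-, h2, -⟩
    · exact absurd (h2 ▸ mem_coe.1 h1) (H871.Q.Fam.nin F h)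
    · exact h2

end fam

/-! ### the interface of a frame -/

/-- **A frame with holes** as seen by the configuration `ω`: rows `r` (`κ n`: their lengths), domain
`D`, boxes of the holes `H`, centres `z m` and colours `col m` of the holes, radius `R` of the
windows, `d` the size of the holes. -/
structure FrI {ι μ : Type} [Fintype ι] (θ β : ℝ) (r : ι → Row) {n' : ℕ} (q : ZMod n' → ℤ × ℤ)
    (D H : Finset (ℤ × ℤ)) (u : ℕ → ℤ) (ka c N : ℕ) (s e : ℕ → ℕ) (z : μ → ℤ × ℤ) (col : μ → Bool)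
    (κ : ℝ) (n : ℕ) (d : ℤ) (R : ℕ) (ω : Cfg) : Prop where
  good : Good ω
  fam : Fam θ β r q D u ka c N s e
  val : FrmV θ β q D (uI r) u ka (rowC θ r 0).ph
  geo : FrmG D (uI r) H
  ext : ExtConn (D ∪ uI r)
  endH : ∀ v ∈ endK q u c N s e, v ∈ H
  side : ∀ m, ∀ k < n', sqL (q (k : ZMod n')) (u k - 1) ∈ Bq (z m) R → (k < ka ↔ col m = false)
  frz : ∀ i, ∀ v ∈ (r i).I, ω v = (r i).fr v
  frc : ∀ m, ∀ v ∈ uI r, v ∈ Bq (z m) R → ω v = col m
  win : ∀ m, ∃ (c' : ℝ) (dd κ' : ℤ) (A B R' : ℕ),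
    HoleW θ c' (if col m then -1 else 1) (z m) dd κ' A B R' (bS (uI r)) (rowC θ r 0).ph ∧
      ∀ v ∈ Bq (z m) R, v ∉ uI r → v ∈ Wn (z m) dd κ' A B R'
  sepm : ∀ m m', m ≠ m' → Disjoint (Bq (z m) R) (Bq (z m') R)
  ok : ∀ i, (r i).Ok θ κ n
  sep : ∀ i j, i ≠ j → ∀ a ∈ (r i).I, ∀ b ∈ (r j).I, d - 3 ≤ nm (a - b)
  near : ∀ i j, i ≠ j → ∀ a ∈ (r i).I, ∀ b ∈ (r j).I, ∀ ρ : ℤ, nm (a - b) ≤ ρ →
    ∃ m, nm (a - z m) ≤ ρ + 1
  tip : ∀ i, ∀ k : Fin 3, k ≠ 2 → ∃ m, nm (ctr (r i) k - z m) ≤ d + 2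
  own : ∀ i, ∀ a ∈ (r i).I, ∀ m, ∀ ρ : ℤ, nm (a - z m) ≤ ρ →
    ∃ k : Fin 3, k ≠ 2 ∧ nm (a - ctr (r i) k) ≤ ρ + 1
  jun : ∀ i j, ¬ Plain (r i) → i ≠ j → ∀ b ∈ (r j).I, κ * n ≤ (nm (ctr (r i) 2 - b) : ℝ)

/-- The strand `e` is off the holes, at the hole `m`. -/
def BtM (K H : Finset (ℤ × ℤ)) (z : ℤ × ℤ) (R : ℕ) (ω : Cfg) (e : Ed) : Prop :=
  tlv e ∈ Bq z R ∧ (∀ k ≤ ret (nx ω) (bS K) e, hdv ((nx ω)^[k] e) ∈ Bq z R) ∧
    ∀ k < ret (nx ω) (bS K) e, hdv ((nx ω)^[k] e) ∉ H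

namespace FrI

variable {ι μ : Type} [Fintype ι] {θ β κ : ℝ} {r : ι → Row} {n' n : ℕ} {q : ZMod n' → ℤ × ℤ}
  {D H : Finset (ℤ × ℤ)} {u : ℕ → ℤ} {ka c N : ℕ} {s e : ℕ → ℕ} {z : μ → ℤ × ℤ} {col : μ → Bool}
  {d : ℤ} {R : ℕ} {ω : Cfg} {x y : Ed} {m m' : μ}

variable (F : FrI θ β r q D H u ka c N s e z col κ n d R ω)

include F

/-- **The weights of the strands off the holes.** -/
theorem bet (h0 : 0 < θ) (hs : 0 < Real.sin θ) (hx : x ∈ bS (uI r)) (hx2 : hdv x ∉ uI r)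
    (hB : BtM (uI r) H (z m) R ω x) :
    wS θ (uI r) (rowC θ r 0).ph ω x = 1 ∨
      (wS θ (uI r) (rowC θ r 0).ph ω x = 2 * Real.cos θ ∧
        (ClN q D (col m) ω x (ret (nx ω) (bS (uI r)) x) ∨
          ClF (D ∪ uI r) (col m) ω x (ret (nx ω) (bS (uI r)) x))) := by
  have hx1 : tlv x ∈ uI r := exit_tl hx hx2
  have hr := returns_good F.good hx
  obtain ⟨b1, b2, b3⟩ := hB
  obtain ⟨hm, hlS⟩ := hr.spec
  have hlast := exc_last hx2 hr
  set M := ret (nx ω) (bS (uI r)) x with hM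
  have hout : ∀ k < M, hdv ((nx ω)^[k] x) ∉ uI r := fun k hk => out_stays hx2 hk
  have hdisj := F.geo.disj
  rw [Finset.disjoint_left] at hdisj
  have hpath : ∀ k ≤ M, (cs (col m) ((nx ω)^[k] x) ∈ sites D ↔ cs (col m) x ∈ sites D) :=
    fun k hk => F.geo.path b3 (fun k hk h => absurd h (hout k hk)) hk
  by_cases hc : cs (col m) x ∈ sites D
  · -- inside the domain
    have hin : ∀ k < M, hdv ((nx ω)^[k] x) ∈ D := fun k hk =>
      (F.geo.near hc b3 (fun k hk h => absurd h (hout k hk)) hk).resolve_right (hout k hk)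
    have hR : RStr (· ∈ D) ω x M :=
      ⟨hm, fun h => hdisj h hx1, hin, fun h => hdisj h hlast.1⟩
    obtain ⟨φ, g1, g2, g3⟩ := near_val F.fam.hq F.fam.hD F.fam.hu F.val hs hx hr hR
      (b := col m) (by
        rintro k hk (h | h)
        · refine F.side m k hk ?_
          rw [← (Fam.foot F.fam h).1 hx1]
          exact b1
        · refine F.side m k hk ?_
          rw [← (Fam.foot F.fam h).2 hlast.1]
          exact b2 M le_rfl)
    rcases g3 with g3 | ⟨g3, g4⟩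
    · exact Or.inl g3
    · exact Or.inr ⟨g3, Or.inl ⟨hR, φ, g1, g2, g4⟩⟩
  · -- outside
    have hin : ∀ k < M, hdv ((nx ω)^[k] x) ∉ D := fun k hk =>
      F.geo.far hc b3 (fun k hk h => absurd h (hout k hk)) hk
    have hR : RStr (· ∉ D ∪ uI r) ω x M := by
      refine ⟨hm, fun h => h (mem_union_right _ hx1), fun k hk => ?_,
        fun h => h (mem_union_right _ hlast.1)⟩
      rw [mem_union, not_or]
      exact ⟨hin k hk, hout k hk⟩
    obtain ⟨i, j, σ, φ, E⟩ := F.fam.exists_ext hx1 hx2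
      (fun h => b3 0 (by omega) (F.endH _ h)) hr hin (by
        obtain ⟨l, hl⟩ : ∃ l, M = l + 1 := ⟨M - 1, by omega⟩
        rw [← hM, hl, Function.iterate_succ_apply', tlv_nx]
        exact fun h => b3 l (by omega) (F.endH _ h))
    have hi : i < ka ↔ col m = false := F.side m i E.hi (by rw [← E.tl]; exact b1)
    have hj : j < ka ↔ col m = false := F.side m j E.hj (by rw [← E.hd]; exact b2 M le_rfl)
    obtain ⟨c', dd, κ', A, B, R', hW, hW'⟩ := F.win m
    obtain ⟨t, t1, t2, ht⟩ := hW.cang hx hr fun k hk => hW' _ (b2 k hk.le) (hout k hk)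
    have hτ : (if col m then (-1 : ℝ) else 1) = stτ ka i := by
      unfold stτ
      cases hcm : col m
      · have h : i < ka := hi.2 hcm
        simp [h]
      · have h : ¬ i < ka := fun h => by
          have := hi.1 h
          rw [hcm] at this
          exact absurd this (by decide)
        simp only [if_true, if_neg h]
    rw [hτ] at ht
    rcases far_val F.fam h0 hs E hx2 hr hR hi hj t1 t2 ht with g | ⟨g, g'⟩
    · exact Or.inl g
    · exact Or.inr ⟨g, Or.inr g'⟩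

/-- **No path off the holes between two strands of closed type near a hole.** -/
theorem no_seg (h0 : 0 < θ) (hs : 0 < Real.sin θ) (hx : x ∈ bS (uI r)) (hx2 : hdv x ∉ uI r)
    (hy : y ∈ bS (uI r)) (hy2 : hdv y ∉ uI r)
    (hBx : BtM (uI r) H (z m) R ω x) (hBy : BtM (uI r) H (z m') R ω y)
    (hwx : wS θ (uI r) (rowC θ r 0).ph ω x ≠ 1) (hwy : wS θ (uI r) (rowC θ r 0).ph ω y ≠ 1)
    (hne : x ≠ y) {M : ℕ} (hM : (nx ω)^[M] x = y) (hM0 : 0 < M)
    (h1 : ∀ k < M, hdv ((nx ω)^[k] x) ∉ H) (h2 : ∀ k < M, hdv ((nx ω)^[k] x) ∈ Bq (z m) R) :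
    False := by
  have hty : tlv y ∈ Bq (z m) R := by
    obtain ⟨l, rfl⟩ : ∃ l, M = l + 1 := ⟨M - 1, by omega⟩
    rw [← hM, Function.iterate_succ_apply', tlv_nx]
    exact h2 l (by omega)
  have hmm : m = m' := by
    by_contra hne
    exact Finset.disjoint_left.1 (F.sepm m m' hne) hty hBy.1
  subst hmm
  obtain ⟨-, gx⟩ := (F.bet h0 hs hx hx2 hBx).resolve_left hwx
  obtain ⟨-, gy⟩ := (F.bet h0 hs hy hy2 hBy).resolve_left hwy
  have hx0 := (returns_good F.good hx).spec.1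
  have hy0 := (returns_good F.good hy).spec.1
  exact no_two F.fam.hq F.fam.hD F.geo F.ext gx gy (hBx.2.2 0 hx0) (hBy.2.2 0 hy0) hne hM h1
    fun k hk hK => F.frc m _ hK (h2 k hk)

end FrI

end Vale.Agent.P167.QX
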