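import Vale.Agent.P167.QX.S5
import Vale.Agent.P167.QX.L1E
import Vale.Agent.P167.H871.Q.ValF

/-!
# P167, general `q`: the strands of a frame: small, off the holes, or large; counting
-/

namespace Vale.Agent.P167.QX

open Finset
open Vale.Agent.P167.A (plane plane_nx plane_sg)
open Vale.Agent.P167.BR hiding dv
open Vale.Agent.P167.Top
open Vale.Agent.P167.XDL (bS mem_bS)
open Vale.Agent.P167.FK
open Vale.Agent.P167.H199 (cang ah at' strand ret mem_strand Returns ret_le ret_min strand_unique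
  self_mem_strand)
open Vale.Agent.P167.H825.Q (Row)
open Vale.Agent.P167.H680.T (rowC uI mem_uI nm_ht)
open Vale.Agent.P167.H871.Q (G2)
open Vale.Agent.P167.H945 (IsSeg)
open Vale.Agent.P167.H945.Q (ctr Plain nm_sub_le nm_comm Bq_of_nm nm_of_Bq)
open Vale.Agent.P167.H562.QM (MajA)

/-! ### segments -/

/-- The segment from `e` to the next element of `S` leaves the box of radius `D2`, or visits `H` and
leaves the box of radius `D1`. -/
def Typ (S : Finset Ed) (H : Finset (ℤ × ℤ)) (D1 D2 : ℤ) (ω : Cfg) (e : Ed) : Prop :=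
  (∃ k < ret (nx ω) S e, D2 ≤ nm (hdv ((nx ω)^[k] e) - hdv e)) ∨
    ((∃ k < ret (nx ω) S e, hdv ((nx ω)^[k] e) ∈ H) ∧
      ∃ k < ret (nx ω) S e, D1 ≤ nm (hdv ((nx ω)^[k] e) - hdv e))

section count

variable {S X : Finset Ed} {V H Z : Finset (ℤ × ℤ)} {ω : Cfg} {D1 D2 : ℤ} {ρ₁ ρ₂ : ℝ} {N N₁ N₂ : ℕ}

theorem seg_count (hg : Good ω) (hX : X ⊆ S) (h : MajA V ρ₁ ω N)
    (h1 : ∀ e ∈ X, ∃ k < ret (nx ω) S e, hdv ((nx ω)^[k] e) ∈ V)
    (h2 : ∀ e ∈ X, ∃ k < ret (nx ω) S e, ρ₁ ≤ (nm (hdv ((nx ω)^[k] e) - hdv e) : ℝ)) :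
    X.card ≤ N := by
  classical
  set g : Ed → Finset Ed := fun e => strand (nx ω) S e with hgg
  have hret : ∀ e ∈ X, Returns (nx ω) S e := fun e he => returns_good hg (hX he)
  have hself : ∀ e ∈ X, e ∈ g e := fun e he => self_mem_strand (hret e he)
  have huniq : ∀ e ∈ X, ∀ e' ∈ X, ∀ x, x ∈ g e → x ∈ g e' → e = e' := fun e he e' he' x h1 h2 =>
    strand_unique (s_nx ω).1 (hX he) (hX he') h1 h2
  have hgi : Set.InjOn g X := fun e he e' he' h =>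
    huniq e he e' he' e (hself e he) (h ▸ hself e he)
  rw [← card_image_of_injOn hgi]
  refine h _ (fun γ hγ => ?_) (fun γ hγ γ' hγ' hne => ?_) fun γ hγ => ?_
  · obtain ⟨e, he, rfl⟩ := mem_image.1 hγ
    exact isSeg_strand (hret e he)
  · obtain ⟨e, he, rfl⟩ := mem_image.1 hγ
    obtain ⟨e', he', rfl⟩ := mem_image.1 hγ'
    rw [Finset.disjoint_left]
    intro x hx hx'
    exact hne (by rw [huniq e he e' he' x hx hx'])
  · obtain ⟨e, he, rfl⟩ := mem_image.1 hγ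
    obtain ⟨k, hk, hk'⟩ := h1 e he
    obtain ⟨j, hj, hj'⟩ := h2 e he
    exact ⟨⟨_, mem_strand.2 ⟨k, hk, rfl⟩, hk'⟩, _, mem_strand.2 ⟨j, hj, rfl⟩, e, hself e he, hj'⟩

theorem typ_count (hg : Good ω) (hX : X ⊆ S) (hT : ∀ e ∈ X, Typ S H D1 D2 ω e)
    (hZ : ∀ e ∈ X, hdv e ∈ Z) (hV : H ⊆ V) (h1 : MajA V ρ₁ ω N₁) (h2 : MajA Z ρ₂ ω N₂)
    (hρ₁ : ρ₁ ≤ D1) (hρ₂ : ρ₂ ≤ D2) : X.card ≤ N₁ + N₂ := by
  classical
  set p : Ed → Prop := fun e => ∃ k < ret (nx ω) S e, D2 ≤ nm (hdv ((nx ω)^[k] e) - hdv e) with hp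
  have e1 := card_filter_add_card_filter_not (s := X) p
  have c2 : (X.filter p).card ≤ N₂ := by
    refine seg_count hg ((filter_subset _ _).trans hX) h2 (fun e he => ?_) fun e he => ?_
    · obtain ⟨he, -⟩ := mem_filter.1 he
      exact ⟨0, (returns_good hg (hX he)).spec.1, hZ e he⟩
    · obtain ⟨he, k, hk, hk'⟩ := mem_filter.1 he
      refine ⟨k, hk, hρ₂.trans ?_⟩
      exact_mod_cast hk'
  have c1 : (X.filter fun e => ¬ p e).card ≤ N₁ := by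
    refine seg_count hg ((filter_subset _ _).trans hX) h1 (fun e he => ?_) fun e he => ?_
    · obtain ⟨he, hn⟩ := mem_filter.1 he
      obtain ⟨⟨k, hk, hk'⟩, -⟩ := (hT e he).resolve_left hn
      exact ⟨k, hk, hV hk'⟩
    · obtain ⟨he, hn⟩ := mem_filter.1 he
      obtain ⟨-, k, hk, hk'⟩ := (hT e he).resolve_left hn
      refine ⟨k, hk, hρ₁.trans ?_⟩
      exact_mod_cast hk'
  omega

end count

/-! ### the strands of a frame -/

section frame

variable {ι μ : Type} [Fintype ι] {θ β κ : ℝ} {r : ι → Row} {n' n : ℕ} {q : ZMod n' → ℤ × ℤ}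
  {D H : Finset (ℤ × ℤ)} {u : ℕ → ℤ} {ka c N : ℕ} {s e : ℕ → ℕ} {z : μ → ℤ × ℤ} {col : μ → Bool}
  {d d1 R1 d2 R2 ρ : ℤ} {R : ℕ} {ω : Cfg} {x y : Ed} {m m' : μ} {i j : ι}

/-- The small strands of the rows. -/
def gF (θ : ℝ) (r : ι → Row) (d1 R1 d2 R2 : ℤ) (ω : Cfg) (x : Ed) : Prop :=
  ∃ i, x ∈ G2 θ (r i) d1 R1 d2 R2 ω

/-- The strands near the holes and off the holes which are not small. -/
def bF (θ : ℝ) (r : ι → Row) (H : Finset (ℤ × ℤ)) (z : μ → ℤ × ℤ) (R : ℕ) (d1 R1 d2 R2 ρ : ℤ)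
    (ω : Cfg) (x : Ed) : Prop :=
  ¬ gF θ r d1 R1 d2 R2 ω x ∧ ∃ m, nm (tlv x - z m) ≤ ρ ∧ BtM (uI r) H (z m) R ω x

/-- The distance along a strand. -/
theorem nm_strand {K : Finset (ℤ × ℤ)} {D1 : ℤ} (hm : 1 ≤ ret (nx ω) (bS K) x)
    (h : ∀ k < ret (nx ω) (bS K) x, nm (hdv ((nx ω)^[k] x) - hdv x) < D1) :
    ∀ k ≤ ret (nx ω) (bS K) x, nm (hdv ((nx ω)^[k] x) - tlv x) < D1 + 2 := by
  intro k hk
  have h0 := nm_ht x
  rcases hk.lt_or_eq with hlt | heq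
  · have h1 := nm_sub_le (hdv ((nx ω)^[k] x)) (hdv x) (tlv x)
    have h2 := h k hlt
    omega
  · obtain ⟨l, hl⟩ : ∃ l, ret (nx ω) (bS K) x = l + 1 := ⟨ret (nx ω) (bS K) x - 1, by omega⟩
    have h1 := nm_sub_le (hdv ((nx ω)^[k] x)) (hdv ((nx ω)^[l] x)) (tlv x)
    have h2 := nm_sub_le (hdv ((nx ω)^[l] x)) (hdv x) (tlv x)
    have h3 := h l (by omega)
    have h5 : tlv ((nx ω)^[k] x) = hdv ((nx ω)^[l] x) := by
      rw [heq, hl, Function.iterate_succ_apply', tlv_nx]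
    have h4 : nm (hdv ((nx ω)^[k] x) - hdv ((nx ω)^[l] x)) ≤ 1 := h5 ▸ nm_ht _
    omega

/-- The strand of the row is a part of the strand of the rows. -/
theorem inb_of {B : Finset (ℤ × ℤ)} (hg : Good ω) (hx : x ∈ bS (uI r)) (hx2 : hdv x ∉ uI r)
    (hxi : tlv x ∈ (r i).I) (hB0 : tlv x ∈ B)
    (hB : ∀ k ≤ ret (nx ω) (bS (uI r)) x, hdv ((nx ω)^[k] x) ∈ B)
    (hl : hdv ((nx ω)^[ret (nx ω) (bS (uI r)) x] x) ∈ (r i).I) :
    x ∈ bS (r i).I ∧ hdv x ∉ (r i).I ∧ InB B (r i).I ω x := by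
  have h1 : hdv x ∉ (r i).I := fun h => hx2 (mem_uI.2 ⟨i, h⟩)
  have h2 : x ∈ bS (r i).I := mem_bS.2 (Or.inr ⟨h1, hxi⟩)
  have hr := returns_good hg hx
  have h3 := exc_last hx2 hr
  have h4 : ret (nx ω) (bS (r i).I) x ≤ ret (nx ω) (bS (uI r)) x :=
    ret_le hr.spec.1 (mem_bS.2 (Or.inl ⟨hl, fun h => h3.2 (mem_uI.2 ⟨i, h⟩)⟩))
  exact ⟨h2, h1, returns_good hg h2, hB0, fun k hk => hB k (hk.trans h4)⟩

namespace FrI

variable (F : FrI θ β r q D H u ka c N s e z col κ n d R ω)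

include F

/-- **Every strand is small, or off the holes and near a hole, or large.** -/
theorem tri (hd1 : d1 ≤ d - 3) (hd0 : 1 ≤ d1) (hd2 : 2 * d2 + d + 2 ≤ ρ) (hd2' : 1 ≤ d2)
    (hR : d2 + ρ ≤ R)
    (hx : x ∈ bS (uI r)) (hx2 : hdv x ∉ uI r) (hn : ¬ Typ (bS (uI r)) H (d1 - 2) (d2 - 2) ω x) :
    gF θ r d1 R1 d2 R2 ω x ∨ bF θ r H z R d1 R1 d2 R2 ρ ω x := by
  classical
  by_cases hgF : gF θ r d1 R1 d2 R2 ω x
  · exact Or.inl hgF
  right
  obtain ⟨i, hi⟩ := mem_uI.1 (exit_tl hx hx2)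
  have hr := returns_good F.good hx
  obtain ⟨hm, -⟩ := hr.spec
  have hlast := exc_last hx2 hr
  obtain ⟨j, hj⟩ := mem_uI.1 hlast.1
  have h0 : nm (tlv x - tlv x) = 0 := by rw [sub_self]; simp [nm]
  unfold Typ at hn
  push Not at hn
  obtain ⟨n1, n2⟩ := hn
  have hb2 := nm_strand hm fun k hk => n1 k hk
  by_cases hv : ∃ k < ret (nx ω) (bS (uI r)) x, hdv ((nx ω)^[k] x) ∈ H
  · -- small
    exfalso
    have hb1 := nm_strand hm fun k hk => n2 hv k hk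
    have hij : j = i := by
      by_contra hne
      have h1 := F.sep j i hne _ hj _ hi
      have h2 := hb1 _ le_rfl
      omega
    subst hij
    obtain ⟨g1, g2, g3⟩ := inb_of F.good hx hx2 hi (B := Bq (tlv x) d1)
      (Bq_of_nm (by omega)) (fun k hk => Bq_of_nm (by have := hb1 k hk; omega)) hj
    exact hgF ⟨j, by
      unfold H871.Q.G2
      exact mem_filter.2 ⟨g1, g2, Or.inl g3⟩⟩
  · push Not at hv
    by_cases hz : ∃ m, nm (tlv x - z m) ≤ ρ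
    · obtain ⟨m, hmz⟩ := hz
      have key : ∀ v, nm (v - tlv x) < d2 → v ∈ Bq (z m) R := fun v hv => by
        refine Bq_of_nm ?_
        have := nm_sub_le v (tlv x) (z m)
        omega
      exact ⟨hgF, m, hmz, key _ (by omega), fun k hk => key _ (by
        have := hb2 k hk; omega), hv⟩
    · exfalso
      push Not at hz
      have hij : j = i := by
        by_contra hne
        have h2 := hb2 _ le_rfl
        rw [nm_comm] at h2
        obtain ⟨m, h3⟩ := F.near i j (Ne.symm hne) _ hi _ hj (d2 - 1) (by omega)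
        have := hz m
        omega
      subst hij
      obtain ⟨g1, g2, g3⟩ := inb_of F.good hx hx2 hi (B := Bq (tlv x) d2)
        (Bq_of_nm (by omega)) (fun k hk => Bq_of_nm (by have := hb2 k hk; omega)) hj
      have htip : ∀ k : Fin 3, k ≠ 2 → ctr (r j) k ∉ Bq (tlv x) (2 * d2) := fun k hk hB => by
        obtain ⟨m, h3⟩ := F.tip j k hk
        have h4 := nm_of_Bq hB
        have h5 := nm_sub_le (tlv x) (ctr (r j) k) (z m)
        rw [nm_comm] at h4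
        have := hz m
        omega
      exact hgF ⟨j, by
        unfold H871.Q.G2
        exact mem_filter.2 ⟨g1, g2, Or.inr (Or.inl ⟨g3, htip 0 (by decide), htip 1 (by decide)⟩)⟩⟩

/-- The strand of an element of `bF` leaves the box of radius `d1`. -/
theorem bF_big (hd1 : d1 ≤ d - 3) (hd0 : 1 ≤ d1) (hx : x ∈ bS (uI r)) (hx2 : hdv x ∉ uI r)
    (h : ¬ gF θ r d1 R1 d2 R2 ω x) :
    ∃ k ≤ ret (nx ω) (bS (uI r)) x, d1 - 1 ≤ nm (hdv ((nx ω)^[k] x) - hdv x) := by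
  classical
  by_contra hn
  push Not at hn
  obtain ⟨i, hi⟩ := mem_uI.1 (exit_tl hx hx2)
  have hr := returns_good F.good hx
  obtain ⟨hm, -⟩ := hr.spec
  have hlast := exc_last hx2 hr
  obtain ⟨j, hj⟩ := mem_uI.1 hlast.1
  have h0 : nm (tlv x - tlv x) = 0 := by rw [sub_self]; simp [nm]
  have hb1 : ∀ k ≤ ret (nx ω) (bS (uI r)) x, nm (hdv ((nx ω)^[k] x) - tlv x) < d1 := by
    intro k hk
    have h1 := nm_sub_le (hdv ((nx ω)^[k] x)) (hdv x) (tlv x)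
    have h2 := hn k hk
    have h3 := nm_ht x
    omega
  have hij : j = i := by
    by_contra hne
    have h1 := F.sep j i hne _ hj _ hi
    have h2 := hb1 _ le_rfl
    omega
  subst hij
  obtain ⟨g1, g2, g3⟩ := inb_of F.good hx hx2 hi (B := Bq (tlv x) d1)
    (Bq_of_nm (by omega)) (fun k hk => Bq_of_nm (hb1 k hk)) hj
  exact h ⟨j, by
    unfold H871.Q.G2
    exact mem_filter.2 ⟨g1, g2, Or.inl g3⟩⟩

/-- **Between two strands of closed type near the holes there is a large segment.** -/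
theorem typ_of (h0 : 0 < θ) (hs : 0 < Real.sin θ) {a : Ed → Bool → ℝ}
    (ha : ∀ x ∈ bS (uI r), hdv x ∉ uI r → bF θ r H z R d1 R1 d2 R2 ρ ω x →
      wS θ (uI r) a ω x = wS θ (uI r) (rowC θ r 0).ph ω x)
    (hd1 : d1 ≤ d - 3) (hd0 : 1 ≤ d1) (hR : d2 + ρ ≤ R)
    (hx : x ∈ Scl θ (uI r) a (bF θ r H z R d1 R1 d2 R2 ρ ω) ω)
    (hne : (nx ω)^[ret (nx ω) (Scl θ (uI r) a (bF θ r H z R d1 R1 d2 R2 ρ ω) ω) x] x ≠ x) :
    Typ (Scl θ (uI r) a (bF θ r H z R d1 R1 d2 R2 ρ ω) ω) H (d1 - 2) (d2 - 2) ω x := by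
  set S := Scl θ (uI r) a (bF θ r H z R d1 R1 d2 R2 ρ ω) ω with hS
  obtain ⟨hx1, hx2, ⟨hng, m, hmz, hBx⟩, hwx⟩ := mem_Scl.1 hx
  rw [ha x hx1 hx2 ⟨hng, m, hmz, hBx⟩] at hwx
  have hr := returns_good F.good hx
  obtain ⟨hM0, hyS⟩ := hr.spec
  set M := ret (nx ω) S x with hM
  obtain ⟨hy1, hy2, ⟨hng', m', hmz', hBy⟩, hwy⟩ := mem_Scl.1 hyS
  rw [ha _ hy1 hy2 ⟨hng', m', hmz', hBy⟩] at hwy
  -- the strand is a part of the segment
  have hKM : ret (nx ω) (bS (uI r)) x < M := by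
    have h1 : ret (nx ω) (bS (uI r)) x ≤ M := ret_le hM0 hy1
    rcases h1.lt_or_eq with h | h
    · exact h
    · exfalso
      have h2 := (exc_last hx2 (returns_good F.good hx1)).1
      rw [h] at h2
      exact hy2 h2
  unfold Typ
  by_contra hn
  push Not at hn
  obtain ⟨n1, n2⟩ := hn
  have hH : ∀ k < M, hdv ((nx ω)^[k] x) ∉ H := by
    intro k hk hkH
    obtain ⟨j, hj, hj'⟩ := F.bF_big hd1 hd0 hx1 hx2 hng
    have := n2 ⟨k, hk, hkH⟩ j (by omega)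
    omega
  refine F.no_seg h0 hs hx1 hx2 hy1 hy2 hBx hBy hwx hwy (Ne.symm hne) rfl (by omega) hH
    fun k hk => Bq_of_nm ?_
  have h1 := n1 k hk
  have h2 := nm_sub_le (hdv ((nx ω)^[k] x)) (hdv x) (z m)
  have h3 := nm_sub_le (hdv x) (tlv x) (z m)
  have h4 := nm_ht x
  omega

end FrI

end frame

end Vale.Agent.P167.QX
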