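import Vale.Agent.P167.QX.S6
import Vale.Agent.P167.H945.Q.TLoc
import Vale.Agent.P167.H945.Q.HGeo

/-!
# P167, general `q`: the majorant of the product over the loops of a frame
-/

namespace Vale.Agent.P167.QX

open Finset
open Vale.Agent.P167.A (plane plane_nx plane_sg)
open Vale.Agent.P167.BR hiding dv
open Vale.Agent.P167.Top
open Vale.Agent.P167.XDL (bS mem_bS)
open Vale.Agent.P167.FK
open Vale.Agent.P167.H199 (cang ah at' strand ret mem_strand Returns ret_le ret_min strand_unique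
  self_mem_strand)
open Vale.Agent.P167.H685 (LE mem_LE)
open Vale.Agent.P167.H825 (epos)
open Vale.Agent.P167.H825.Q (Row)
open Vale.Agent.P167.H680.T (rowC uI mem_uI nm_ht)
open Vale.Agent.P167.H871.Q (G2)
open Vale.Agent.P167.H945.Q (ctr Plain nm_sub_le nm_comm Bq_of_nm nm_of_Bq Tc tipL tipR jn SP)
open Vale.Agent.P167.H562.QM (MajA)

variable {ι μ : Type} [Fintype ι] {θ β κ : ℝ} {r : ι → Row} {n' n : ℕ} {q : ZMod n' → ℤ × ℤ}
  {D H V Z : Finset (ℤ × ℤ)} {u : ℕ → ℤ} {ka c N N₁ N₂ : ℕ} {s e : ℕ → ℕ} {z : μ → ℤ × ℤ}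
  {col : μ → Bool} {d d1 R1 d2 R2 ρ w W : ℤ} {R : ℕ} {ω : Cfg} {x y : Ed} {m m' : μ} {i j : ι}
  {f : Ed → ℝ} {ρ₁ ρ₂ : ℝ} {p' q' : ℤ × ℤ}

/-- The allowed boxes of a row of a frame. -/
def AbF (r : ι → Row) (w : ℤ) (i : ι) (p q : ℤ × ℤ) : Prop :=
  (∃ v ∈ (r i).I, v ∈ Bx p q) ∧ q.1 ≤ p.1 + w ∧ q.2 ≤ p.2 + w ∧
    ∀ v ∈ Bx p q, v ∈ uI r → v ∈ (r i).I

/-- The phases of the flow and of the rows in an allowed box. -/
theorem ph_box (hdis : ∀ i j v, v ∈ (r i).I → v ∈ (r j).I → i = j) (hab : AbF r w i p' q')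
    (hf : ∀ y, f y ≠ 0 → ∀ v ∈ uI r, (W : ℝ) < (nm (v - epos y) : ℝ)) (hw : w ≤ W)
    (h1 : hdv y ∈ Bx p' q') (h2 : tlv y ∈ Bx p' q') :
    (rowC θ r f).ph y = ((r i).wall θ 0).a y := by
  obtain ⟨⟨v0, g1, g2⟩, g3, g4, g5⟩ := hab
  have hc : f y = 0 := by
    by_contra hne
    have k1 := hf y hne v0 (mem_uI.2 ⟨i, g1⟩)
    have k2 := nm_Bx g2 h1 g3 g4
    have k3 := nm_sub_le v0 (hdv y) (epos y)
    have k4 := (nm_pos y).1
    rw [nm_comm] at k4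
    have k5 : (nm (v0 - epos y) : ℝ) ≤ W := by exact_mod_cast (by omega : nm (v0 - epos y) ≤ W)
    linarith
  have hk : ∀ k, k ≠ i → ((r k).wall θ 0).a y = 0 := by
    intro k hki
    apply ((r k).wall θ 0).off
    intro hS
    have hS' : y ∈ bS (r k).I := hS
    rw [mem_bS] at hS'
    rcases hS' with ⟨h, -⟩ | ⟨-, h⟩
    · exact hki (hdis k i _ h (g5 _ h1 (mem_uI.2 ⟨k, h⟩)))
    · exact hki (hdis k i _ h (g5 _ h2 (mem_uI.2 ⟨k, h⟩)))
  funext b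
  show ∑ k, ((r k).wall θ 0).a y b + f y / 2 = _
  rw [hc, zero_div, add_zero]
  exact sum_eq_single i (fun k _ hki => by rw [hk k hki]; rfl) (by simp)

/-- The flow does not matter for a strand off the flow. -/
theorem wS_flow (h : ∀ k ≤ ret (nx ω) (bS (uI r)) x, f ((nx ω)^[k] x) = 0) :
    wS θ (uI r) (rowC θ r f).ph ω x = wS θ (uI r) (rowC θ r 0).ph ω x := by
  have key : ∀ k ≤ ret (nx ω) (bS (uI r)) x,
      (rowC θ r f).ph ((nx ω)^[k] x) = (rowC θ r 0).ph ((nx ω)^[k] x) := by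
    intro k hk
    funext b
    show ∑ k', ((r k').wall θ 0).a ((nx ω)^[k] x) b + f ((nx ω)^[k] x) / 2 =
      ∑ k', ((r k').wall θ 0).a ((nx ω)^[k] x) b + (0 : ℝ) / 2
    rw [h k hk]
  unfold wS
  rw [cang_ph]
  intro y hy
  obtain ⟨k, hk, rfl⟩ := mem_strand.1 hy
  refine ⟨key k hk.le, ?_⟩
  rw [← Function.iterate_succ_apply' (nx ω)]
  exact key (k + 1) (by omega)

namespace FrI

variable (F : FrI θ β r q D H u ka c N s e z col κ n d R ω)

include F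

/-- The rows of a frame are a family of rows. -/
theorem rowFam (hd : 5 ≤ d) (h0 : 0 ≤ κ * n) (hw : (w : ℝ) ≤ κ * n) :
    RowFam (uI r) (fun i => (r i).I) (AbF r w) ω :=
  ⟨F.good, fun v => mem_uI, F.fam.disj, fun i j y h1 h2 => by
    by_contra hij
    have h3 := F.sep i j hij _ h1 _ h2
    have h4 := nm_ht y
    omega, fun i => thin_row _, fun i => conn_row _, fun i p q hab => hab.2.2.2,
    fun i p q hab b => esc_row (F.ok i) h0 hw (F.frz i) hab.2.1 hab.2.2.1⟩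

/-- The small strands are in allowed boxes. -/
theorem gF_sml (hd1 : d1 ≤ d - 4) (hR1 : R1 ≤ d - 4) (hd2 : 3 ≤ d2) (hR2 : (R2 : ℝ) < κ * n)
    (w1 : 2 * d1 ≤ w) (w2 : 2 * d2 ≤ w) (w3 : 2 * R1 ≤ w) (w4 : 2 * R2 ≤ w)
    (hL : ∀ i, 0 < (r i).L)
    (hx : x ∈ G2 θ (r i) d1 R1 d2 R2 ω) :
    ∃ p' q', AbF r w i p' q' ∧ tlv x ∈ (r i).I ∧ InB (Bx p' q') (r i).I ω x := by
  classical
  unfold H871.Q.G2 at hx
  obtain ⟨g1, g2, g3⟩ := mem_filter.1 hx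
  have hxi : tlv x ∈ (r i).I := exit_tl g1 g2
  have hj : ∀ v ∈ uI r, (∀ j, j ≠ i → v ∈ (r j).I → False) → v ∈ (r i).I := by
    intro v hv h
    obtain ⟨j, hj⟩ := mem_uI.1 hv
    by_cases hij : j = i
    · rwa [hij] at hj
    · exact (h j hij hj).elim
  have hbx : ∀ (sp : SP) (T : ℤ), 2 * T ≤ w → InB (sp.bx T) (r i).I ω x →
      (∀ v ∈ sp.bx T, v ∈ uI r → v ∈ (r i).I) → ∃ p' q', AbF r w i p' q' ∧ tlv x ∈ (r i).I ∧
        InB (Bx p' q') (r i).I ω x := by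
    intro sp T hT hI hown
    have h5 : sp.bx T = Bx (sp.c.1 - T + sp.e.1, sp.c.2 - T + sp.e.2)
      (sp.c.1 + T, sp.c.2 + T) := rfl
    rw [h5] at hI hown
    exact ⟨_, _, ⟨⟨_, hxi, hI.2.1⟩, by simp only; omega, by simp only; omega, hown⟩, hxi, hI⟩
  rcases g3 with g3 | ⟨g3, t0, t1⟩ | g3 | g3 | ⟨hp, g3⟩
  · rw [Bq_eq] at g3
    refine ⟨_, _, ⟨⟨_, hxi, g3.2.1⟩, by simp only; omega, by simp only; omega,
      fun v hv hvK => hj v hvK fun j hij hvj => ?_⟩, hxi, g3⟩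
    rw [← Bq_eq] at hv
    have h1 := nm_of_Bq hv
    have h2 := F.sep j i hij _ hvj _ hxi
    omega
  · rw [Bq_eq] at g3
    refine ⟨_, _, ⟨⟨_, hxi, g3.2.1⟩, by simp only; omega, by simp only; omega,
      fun v hv hvK => hj v hvK fun j hij hvj => ?_⟩, hxi, g3⟩
    rw [← Bq_eq] at hv
    have h1 := nm_of_Bq hv
    rw [nm_comm] at h1
    obtain ⟨m, h2⟩ := F.near i j (Ne.symm hij) _ hxi _ hvj d2 h1
    obtain ⟨k, hk2, h3⟩ := F.own i _ hxi m _ h2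
    rw [nm_comm] at h3
    have h4 : ctr (r i) k ∈ Bq (tlv x) (2 * d2) := Bq_of_nm (by omega)
    fin_cases k
    · exact t0 h4
    · exact t1 h4
    · exact hk2 rfl
  · refine hbx _ R1 w3 g3 fun v hv hvK => hj v hvK fun j hij hvj => ?_
    have h1 := nm_of_Bq ((tipL θ (r i)).bx_sub R1 hv)
    have h2 := F.sep j i hij _ hvj ((r i).sq 0) (H680.T.sq_mem.2 (hL i))
    change nm (v - (r i).sq 0) ≤ R1 at h1
    omega
  · refine hbx _ R1 w3 g3 fun v hv hvK => hj v hvK fun j hij hvj => ?_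
    have h1 := nm_of_Bq ((tipR θ (r i)).bx_sub R1 hv)
    have h2 := F.sep j i hij _ hvj ((r i).sq ((r i).L - 1))
      (H680.T.sq_mem.2 (by have := hL i; omega))
    change nm (v - (r i).sq ((r i).L - 1)) ≤ R1 at h1
    omega
  · refine hbx _ R2 w4 g3 fun v hv hvK => hj v hvK fun j hij hvj => ?_
    have h1 := nm_of_Bq ((jn θ (r i) true).bx_sub R2 hv)
    have h2 := F.jun i j hp (Ne.symm hij) _ hvj
    change nm (v - ctr (r i) 2) ≤ R2 at h1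
    rw [nm_comm] at h1
    have h3 : (nm (ctr (r i) 2 - v) : ℝ) ≤ R2 := by exact_mod_cast h1
    linarith

/-- The factors of the centres see their own row. -/
theorem Tc_own (hd : 5 ≤ d) (h0 : 0 < κ * n) (hL : ∀ i, 0 < (r i).L) {k : Fin 3} {T : ℤ}
    (h1 : k ≠ 2 → T ≤ d - 4) (h2 : k = 2 → (T : ℝ) < κ * n) (i : ι) :
    Tc θ (uI r) (r i) k T ω = Tc θ (r i).I (r i) k T ω := by
  by_cases hk : k = 2 ∧ Plain (r i)
  · obtain ⟨rfl, hp⟩ := hk
    unfold Tc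
    simp [hp]
  refine H945.Q.Tc_row (fun v hv => mem_uI.2 ⟨_, hv⟩) (fun v hv hu => ?_) (fun y hy h => ?_)
    fun h => ?_
  · obtain ⟨j, hj⟩ := mem_uI.1 hu
    by_cases hij : j = i
    · rwa [hij] at hj
    exfalso
    have g1 := nm_of_Bq hv
    by_cases hk2 : k = 2
    · subst hk2
      have hp : ¬ Plain (r i) := fun h => hk ⟨rfl, h⟩
      have g2 := F.jun i j hp (Ne.symm hij) _ hj
      rw [nm_comm] at g1
      have g3 : (nm (ctr (r i) 2 - v) : ℝ) ≤ T := by exact_mod_cast g1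
      linarith [h2 rfl]
    · have g4 := h1 hk2
      have g5 : ctr (r i) k ∈ (r i).I := by
        fin_cases k
        · exact H680.T.sq_mem.2 (hL i)
        · exact H680.T.sq_mem.2 (by have := hL i; omega)
        · exact absurd rfl hk2
      have g2 := F.sep j i hij _ hj _ g5
      omega
  · obtain ⟨j, hj⟩ := mem_uI.1 h
    by_cases hij : j = i
    · rwa [hij] at hj
    exfalso
    have g1 := F.sep j i hij _ hj _ hy
    have g2 := nm_ht y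
    rw [nm_comm] at g2
    omega
  · have h3 := (H945.Q.ok_k0 (F.ok i) h).2
    have h4 : ((r i).k0 : ℝ) ≤ (r i).L := by linarith
    exact_mod_cast h4

/-- **The majorant of the product over the loops of a frame.** -/
theorem major (h0 : 0 < θ) (h1 : θ ≤ Real.pi / 3)
    (hd1 : d1 ≤ d - 4) (hd0 : 1 ≤ d1) (hR1 : R1 ≤ d - 4) (hd2 : 3 ≤ d2) (h12 : d1 ≤ d2)
    (hdR : 2 * d1 + 2 ≤ R1) (hdR2 : 2 * d2 + 2 ≤ R2) (hRκ1 : 16 * (R1 : ℝ) ≤ κ * n)
    (hRκ2 : 16 * (R2 : ℝ) ≤ κ * n) (h2ρ : 2 * d2 + d + 2 ≤ ρ) (hR : d2 + ρ ≤ R)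
    (w1 : 2 * R1 ≤ w) (w2 : 2 * R2 ≤ w) (hwκ : (w : ℝ) ≤ κ * n) (hwW : w ≤ W)
    (hRW : 2 * (R : ℤ) + 1 ≤ W)
    (hf : ∀ y, f y ≠ 0 → ∀ v ∈ uI r, (W : ℝ) < (nm (v - epos y) : ℝ))
    (hnat : ∀ i, ∀ x ∈ bS (uI r), hdv x ∉ uI r → tlv x ∈ (r i).I → ∀ p' q', AbF r w i p' q' →
      InB (Bx p' q') (r i).I ω x → ∀ m, nm (tlv x - z m) ≤ ρ →
      (∀ k < ret (nx ω) (bS (uI r)) x, hdv ((nx ω)^[k] x) ∉ H) →
      rS θ (r i).I ((r i).wall θ 0).a ω x = 1)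
    (hKZ : ∀ v ∈ uI r, ∀ v', nm (v' - v) ≤ 1 → v' ∈ Z) (hV : H ⊆ V)
    (hN1 : MajA V ρ₁ ω N₁) (hN2 : MajA Z ρ₂ ω N₂) (hρ₁ : ρ₁ + 2 ≤ d1) (hρ₂ : ρ₂ + 2 ≤ d2) :
    |∏ ℓ ∈ LE ω (bS (uI r)), fLp θ (uI r) (rowC θ r f).ph ω ℓ| ≤
      ((Real.sin θ)⁻¹ * (2 * Real.cos θ)) ^ (N₁ + N₂) *
        (((1 / Real.sin θ) ^ 2) ^ Fintype.card ι *
          ∏ i, (Tc θ (r i).I (r i) 0 R1 ω * Tc θ (r i).I (r i) 1 R1 ω *
            Tc θ (r i).I (r i) 2 R2 ω)) := by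
  classical
  have hpi := Real.pi_pos
  have hs : 0 < Real.sin θ := Real.sin_pos_of_pos_of_lt_pi h0 (by linarith)
  have hc0 : 0 < Real.cos θ := Real.cos_pos_of_mem_Ioo ⟨by linarith, by linarith⟩
  have hc1 : 1 ≤ 2 * Real.cos θ := by
    have := Real.cos_le_cos_of_nonneg_of_le_pi h0.le (by linarith) h1
    rw [Real.cos_pi_div_three] at this
    linarith
  have hR20 : (0 : ℝ) < R2 := by
    have : (0 : ℤ) < R2 := by omega
    exact_mod_cast this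
  have hκn : 0 < κ * n := by linarith
  have RF : RowFam (uI r) (fun i => (r i).I) (AbF r w) ω := F.rowFam (by omega) hκn.le hwκ
  have hL : ∀ i, 0 < (r i).L := fun i => by
    have h2 := (F.ok i).len
    have : (0 : ℝ) < (r i).L := by linarith
    exact_mod_cast this
  set a := (rowC θ r f).ph with ha
  set bt := bF θ r H z R d1 R1 d2 R2 ρ ω with hbt
  have hsml : ∀ {i x}, x ∈ G2 θ (r i) d1 R1 d2 R2 ω →
      ∃ p' q', AbF r w i p' q' ∧ tlv x ∈ (r i).I ∧ InB (Bx p' q') (r i).I ω x := fun {i x} hx =>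
    F.gF_sml hd1 hR1 hd2 (by linarith) (by omega) (by omega) w1 w2 hL hx
  -- the weights off the flow
  have hflow : ∀ x ∈ bS (uI r), hdv x ∉ uI r → bt x →
      wS θ (uI r) a ω x = wS θ (uI r) (rowC θ r 0).ph ω x := by
    rintro x hx hx2 ⟨-, m, -, b1, b2, -⟩
    refine wS_flow fun k hk => ?_
    by_contra hne
    have k1 := hf _ hne _ (exit_tl hx hx2)
    have k2 := nm_of_Bq b1
    have k3 := nm_of_Bq (b2 k hk)
    have k4 := nm_sub_le (tlv x) (z m) (hdv ((nx ω)^[k] x))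
    have k5 := nm_sub_le (tlv x) (hdv ((nx ω)^[k] x)) (epos ((nx ω)^[k] x))
    have k6 := (nm_pos ((nx ω)^[k] x)).1
    rw [nm_comm] at k6
    rw [nm_comm (z m)] at k4
    have k7 : (nm (tlv x - epos ((nx ω)^[k] x)) : ℝ) ≤ W := by
      exact_mod_cast (by omega : nm (tlv x - epos ((nx ω)^[k] x)) ≤ W)
    linarith
  have hmaj := RF.majS (a := a) (g2 := gF θ r d1 R1 d2 R2 ω) (bt := bt)
    (typ := Typ (Scl θ (uI r) a bt ω) H (d1 - 2) (d2 - 2) ω) hs hc1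
    (fun x hx => by
      obtain ⟨i, hi⟩ := hx
      obtain ⟨p', q', g1, g2, g3⟩ := hsml hi
      exact ⟨i, p', q', g1, g2, g3⟩)
    (fun x hx hx2 hb => by
      rw [hflow x hx hx2 hb]
      obtain ⟨-, m, -, hB⟩ := hb
      rcases F.bet h0 hs hx hx2 hB with h | ⟨h, -⟩
      · exact Or.inl h
      · exact Or.inr h)
    (fun x hx hx2 hb i p' q' hab hxi hI => by
      obtain ⟨-, m, hm, -, -, b3⟩ := hb
      rw [← hnat i x hx hx2 hxi p' q' hab hI m hm b3]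
      unfold rS
      rw [wS_ph hI fun y hy1 hy2 => ph_box F.fam.disj hab hf hwW hy1 hy2])
    (fun x hx hne => F.typ_of h0 hs hflow (by omega) hd0 hR hx hne)
  -- the counts
  have hin : ∀ x ∈ bS (uI r), hdv x ∉ uI r → hdv x ∈ Z := fun x hx hx2 =>
    hKZ _ (exit_tl hx hx2) _ (nm_ht x)
  have hc1' : ((bS (uI r)).filter fun x => hdv x ∉ uI r ∧
      ¬ (gF θ r d1 R1 d2 R2 ω x ∨ bt x)).card ≤ N₁ + N₂ := by
    refine typ_count (S := bS (uI r)) (D1 := d1 - 2) (D2 := d2 - 2) F.good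
      (filter_subset _ _) (fun x hx => ?_) (fun x hx => ?_) hV hN1 hN2
      (by push_cast; linarith) (by push_cast; linarith)
    · obtain ⟨g1, g2, g3⟩ := mem_filter.1 hx
      by_contra hn
      exact g3 (F.tri (by omega) hd0 h2ρ (by omega) hR g1 g2 hn)
    · obtain ⟨g1, g2, -⟩ := mem_filter.1 hx
      exact hin x g1 g2
  have hc2' : ((Scl θ (uI r) a bt ω).filter
      (Typ (Scl θ (uI r) a bt ω) H (d1 - 2) (d2 - 2) ω)).card ≤ N₁ + N₂ := by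
    refine typ_count (S := Scl θ (uI r) a bt ω) (D1 := d1 - 2) (D2 := d2 - 2) F.good
      (filter_subset _ _) (fun x hx => (mem_filter.1 hx).2) (fun x hx => ?_) hV hN1 hN2
      (by push_cast; linarith) (by push_cast; linarith)
    obtain ⟨g1, g2, -⟩ := mem_Scl.1 (mem_filter.1 hx).1
    exact hin x g1 g2
  -- the small strands, row by row
  have hprod : ∏ x ∈ (bS (uI r)).filter (fun x => hdv x ∉ uI r ∧ gF θ r d1 R1 d2 R2 ω x),
      rK θ (fun i => (r i).I) a ω x ≤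
      ((1 / Real.sin θ) ^ 2) ^ Fintype.card ι *
        ∏ i, (Tc θ (r i).I (r i) 0 R1 ω * Tc θ (r i).I (r i) 1 R1 ω *
          Tc θ (r i).I (r i) 2 R2 ω) := by
    have e1 : (bS (uI r)).filter (fun x => hdv x ∉ uI r ∧ gF θ r d1 R1 d2 R2 ω x) =
        univ.biUnion fun i => G2 θ (r i) d1 R1 d2 R2 ω := by
      ext x
      simp only [mem_filter, mem_biUnion, mem_univ, true_and]
      constructor
      · rintro ⟨-, -, i, hi⟩
        exact ⟨i, hi⟩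
      · rintro ⟨i, hi⟩
        obtain ⟨p', q', g1, g2, g3⟩ := hsml hi
        have g4 := hi
        unfold H871.Q.G2 at g4
        obtain ⟨g5, g6, -⟩ := mem_filter.1 g4
        have g7 : hdv x ∉ uI r := fun h => g6 (g1.2.2.2 _ (g3.2.2 0 (Nat.zero_le _)) h)
        exact ⟨mem_bS.2 (Or.inr ⟨g7, mem_uI.2 ⟨i, g2⟩⟩), g7, i, hi⟩
    rw [e1, prod_biUnion]
    · have e2 : ((1 / Real.sin θ) ^ 2) ^ Fintype.card ι *
          ∏ i, (Tc θ (r i).I (r i) 0 R1 ω * Tc θ (r i).I (r i) 1 R1 ω *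
            Tc θ (r i).I (r i) 2 R2 ω) =
          ∏ i, ((1 / Real.sin θ) ^ 2 * (Tc θ (r i).I (r i) 0 R1 ω *
            Tc θ (r i).I (r i) 1 R1 ω * Tc θ (r i).I (r i) 2 R2 ω)) := by
        rw [← Finset.card_univ, ← prod_const, ← prod_mul_distrib]
      rw [e2]
      refine prod_le_prod (fun i _ => prod_nonneg fun x hx => ?_) fun i _ => ?_
      · obtain ⟨_, _, -, g1, -⟩ := hsml hx
        rw [rK_eq RF g1]
        exact rS_nonneg hc0 _ _ _ _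
      · refine le_trans (le_of_eq ?_) ((H871.Q.G2_prod hs hc1 (F.ok i) (F.frz i) hd0 hdR
          (by omega) hdR2 hRκ1 hRκ2 h12 0).trans (le_of_eq ?_))
        · refine prod_congr rfl fun x hx => ?_
          obtain ⟨p', q', g0, g1, g2⟩ := hsml hx
          rw [rK_eq RF g1]
          unfold rS
          rw [wS_ph g2 fun y hy1 hy2 => ph_box F.fam.disj g0 hf hwW hy1 hy2]
        · unfold Tc
          simp
    · intro i _ j _ hij
      rw [Function.onFun, Finset.disjoint_left]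
      intro x hx hx'
      obtain ⟨_, _, -, g1, -⟩ := hsml hx
      obtain ⟨_, _, -, g2, -⟩ := hsml hx'
      exact hij (F.fam.disj i j _ g1 g2)
  have hT0 : 0 ≤ ∏ i, (Tc θ (r i).I (r i) 0 R1 ω * Tc θ (r i).I (r i) 1 R1 ω *
      Tc θ (r i).I (r i) 2 R2 ω) := prod_nonneg fun i _ =>
    mul_nonneg (mul_nonneg (H945.Q.Tc_nonneg h0 h1 _ _ _ _ _) (H945.Q.Tc_nonneg h0 h1 _ _ _ _ _))
      (H945.Q.Tc_nonneg h0 h1 _ _ _ _ _)
  have hb : 1 ≤ (Real.sin θ)⁻¹ := one_le_inv_sin hs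
  set T := ∏ i, (Tc θ (r i).I (r i) 0 R1 ω * Tc θ (r i).I (r i) 1 R1 ω *
      Tc θ (r i).I (r i) 2 R2 ω) with hT
  set C := ((1 / Real.sin θ) ^ 2) ^ Fintype.card ι with hC
  have hC0 : 0 < C := by positivity
  obtain ⟨nb, nt, hnb, hnt, hmaj'⟩ : ∃ nb nt : ℕ, nb ≤ N₁ + N₂ ∧ nt ≤ N₁ + N₂ ∧
      |∏ ℓ ∈ LE ω (bS (uI r)), fLp θ (uI r) a ω ℓ| ≤
      (∏ x ∈ (bS (uI r)).filter (fun x => hdv x ∉ uI r ∧ gF θ r d1 R1 d2 R2 ω x),
        rK θ (fun i => (r i).I) a ω x) * ((Real.sin θ)⁻¹) ^ nb * (2 * Real.cos θ) ^ nt :=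
    ⟨_, _, hc1', hc2', by convert hmaj⟩
  calc |∏ ℓ ∈ LE ω (bS (uI r)), fLp θ (uI r) a ω ℓ|
      ≤ (C * T) * ((Real.sin θ)⁻¹) ^ (N₁ + N₂) * (2 * Real.cos θ) ^ (N₁ + N₂) := by
        refine hmaj'.trans (mul_le_mul (mul_le_mul hprod (pow_le_pow_right₀ hb hnb)
          (by positivity) (by positivity)) (pow_le_pow_right₀ hc1 hnt) (by positivity)
          (by positivity))
    _ = _ := by
        rw [mul_pow]
        ring

end FrI

end Vale.Agent.P167.QX
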